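import Crest.Agent.X212.Qab60.Wrd
import Crest.Agent.X212.Wrd81.In

/-! X212 / QAB (helper60): the abelian equation for forms. -/

set_option autoImplicit false
set_option linter.unusedSectionVars false
noncomputable section
open scoped Manifold ContDiff Topology InnerProductSpace
open MeasureTheory Finset Function Filter
open Crest.Agent.R208.F (Ext)

namespace Crest.Agent.X212.Qab60
open An Sob92 Map77 Num57
open Dr59 (dM)
open Int54 (integ)
open Wrd81 (TmIn)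

variable {E : Type} [NormedAddCommGroup E] [NormedSpace ℝ E] [FiniteDimensional ℝ E]
  [MeasurableSpace E] [BorelSpace E]
  {HM : Type} [TopologicalSpace HM] {I : ModelWithCorners ℝ E HM} [I.Boundaryless]
  {M : Type} [TopologicalSpace M] [ChartedSpace HM M] [IsManifold I ∞ M] [T2Space M]
  [MeasurableSpace M] [BorelSpace M] [SecondCountableTopology M] {ι : Type} [Fintype ι]
  {U V W : Type} [NormedAddCommGroup U] [InnerProductSpace ℝ U] [FiniteDimensional ℝ U]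
  [NormedAddCommGroup V] [InnerProductSpace ℝ V] [FiniteDimensional ℝ V]
  [NormedAddCommGroup W] [InnerProductSpace ℝ W] [FiniteDimensional ℝ W]
  (F : Fr I M ι)

/-- `A` extends `Af` on all smooth square integrable functions -/
def Rp (A : L2 F V →L[ℝ] L2 F W) (Af : (M → V) → M → W) : Prop :=
  ∀ x u, Sm I u → Is F.toPre 0 _ x u →
    (∀ j, Lg F j (A x)) ∧ Sm I (Af u) ∧ Is F.toPre 0 _ (A x) (Af u)

variable {F} {N : ℝ} {n d : ℕ}

theorem Wo.comp_rp {A : L2 F V →L[ℝ] L2 F W} {Af : (M → V) → M → W} {B : L2 F U →L[ℝ] L2 F V}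
    {Bf : (M → U) → M → V} (h : Wo F A Af N n d) (k : Rp F B Bf) :
    Rp F (A ∘L B) fun u => Af (Bf u) := fun x u h1 h2 =>
  let ⟨a, b, c⟩ := k x u h1 h2
  ⟨fun j => (h.lv j _ (a j)).mono (by omega), h.rp _ _ a b c⟩

theorem rp_mul {f : M → V →L[ℝ] W} (hf : F.Cb f) (hc : HasCompactSupport f) :
    Rp F (F.mulH 0 _ _ f) fun u x => f x (u x) := fun x u h1 h2 => by
  have := FiniteDimensional.complete ℝ W
  have s := hf.choose_spec.1.clm_apply h1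
  have i := h2.mulH (q := triv M W) hf (Maps.triv _)
  let φ : Sec I (triv M W) := ⟨_, s, hc.mono fun y hy e => hy (by simp [e]), fun _ => rfl⟩
  exact ⟨fun j => ⟨F.toH j _ φ, ((Is.toH φ).incl j.zero_le).unique i⟩, s, i⟩

theorem rp_zero : Rp F (0 : L2 F V →L[ℝ] L2 F W) fun _ => 0 := fun _ _ _ _ =>
  have := FiniteDimensional.complete ℝ W
  ⟨fun _ => ⟨0, map_zero _⟩, contMDiff_const, Is.zero⟩

theorem rp_sum {κ : Type} (s : Finset κ) {A : κ → L2 F V →L[ℝ] L2 F W} (a : κ → ℝ)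
    {Af : κ → (M → V) → M → W} (h : ∀ i ∈ s, Rp F (A i) (Af i)) :
    Rp F (∑ i ∈ s, a i • A i) fun u => ∑ i ∈ s, a i • Af i u := by
  classical
  induction s using Finset.induction_on with
  | empty => simpa using rp_zero
  | insert i s hi ih =>
    intro x u h1 h2
    obtain ⟨a1, a2, a3⟩ := h i (mem_insert_self _ _) x u h1 h2
    obtain ⟨b1, b2, b3⟩ := ih (fun j hj => h j (mem_insert_of_mem hj)) x u h1 h2
    simp only [sum_insert hi, ContinuousLinearMap.add_apply, ContinuousLinearMap.smul_apply]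
    exact ⟨fun j => let ⟨y, hy⟩ := a1 j; let ⟨z, hz⟩ := b1 j
      ⟨a i • y + z, by rw [map_add, map_smul, hy, hz]⟩, (sm_csmul _ a2).add b2, (a3.smul _).add b3⟩

variable {lam : Type} [Fintype lam] {r m K : ℕ} {o : ι → ι → ι → ι → M → ℝ}

theorem Tam.rp_tm {G : Geo I M ι lam} (h : Tam G.F o) (hK : 1 ≤ K) {T : Tm M lam r m}
    (h1 : TmIn I Set.univ T) (h2 : Mp86.TmSz G K T) : Rp G.F (tmH G.F o T) (tmF G.F o T) := by
  obtain ⟨C, hF⟩ := h.tm
  have h0 := h1.ok G.F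
  rcases T with _ | _ | ⟨g, g2, ⟨_ | ⟨f, g', h'⟩, l⟩⟩ | _ | _ | _ | _ <;> try exact rp_zero
  obtain ⟨a1, a2, ⟨a3, a4, a5⟩, a6⟩ := h0
  obtain ⟨b1, b2, -, -, b7⟩ := h2
  have c1 := wo_mul (F := G.F) (N := K) (f := fun x => ContinuousLinearMap.toSpanSingleton ℝ
      (hs G.F o x (dd2 G.F g g2 x))) (Cb_clm (ContinuousLinearMap.smulRightL ℝ ℝ (V2 ι) 1)
      (Cb_app h.cb_hs (cb_dd2 a1 a2))) (by positivity) fun x v => by
    rw [ContinuousLinearMap.toSpanSingleton_apply, norm_smul, mul_comm]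
    exact mul_le_mul_of_nonneg_right ((norm_hs_le h.ok x _).trans
      (norm_dd2 (by positivity) b1 b2 x)) (norm_nonneg _)
  exact c1.comp_rp ((wo_ll hF hK l a6 b7).comp_rp ((wo_GS hF).comp_rp ((wo_GS hF).comp_rp
    (rp_mul (f := fun x => innerSL ℝ (f x • dd2 G.F g' h' x))
      (Cb_clm (innerSL ℝ) (Cb_smul a3 (cb_dd2 a4 a5)))
      (h1.2.2.1.1.hcs.mono fun y hy e => hy (by simp [e]))))))

variable (F o) in
/-- perturbations of the abelian equation -/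
structure Op (T : HK F 0 →L[ℝ] HK F 0) (Tf : (M → V2 ι) → M → V2 ι) (N : ℝ) (n : ℕ) : Prop where
  wo : Wo F T Tf N n 1
  ph : ∀ u, PH F o 0 (T u) = T u
  rp : Rp F T Tf

variable (F o) in
/-- a combination of terms -/
def smH {κ : Type} (s : Finset κ) (a : κ → ℝ) (T : κ → Tm M lam r m) : HK F 0 →L[ℝ] HK F 0 :=
  ∑ i ∈ s, a i • tmH F o (T i)

variable (F o) in
/-- the same on functions -/
def smF {κ : Type} (s : Finset κ) (a : κ → ℝ) (T : κ → Tm M lam r m) (u : M → V2 ι) : M → V2 ι :=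
  ∑ i ∈ s, a i • tmF F o (T i) u

theorem Tam.op_sm {G : Geo I M ι lam} (h : Tam G.F o) {κ : Type} (s : Finset κ) (a : κ → ℝ)
    {T : κ → Tm M lam r m} {K : κ → ℕ} {n : ℕ} (hK : ∀ i ∈ s, 1 ≤ K i ∧ K i + 2 ≤ n)
    (h1 : ∀ i ∈ s, TmIn I Set.univ (T i)) (h2 : ∀ i ∈ s, a i ≠ 0 → Mp86.TmSz G (K i) (T i)) :
    Op G.F o (smH G.F o s a T) (smF G.F o s a T) (∑ i ∈ s, |a i| * K i ^ (K i + 3)) n := by
  classical
  have e : ∀ {X : Type} [AddCommGroup X] [Module ℝ X] (f : κ → X),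
      ∑ i ∈ s, a i • f i = ∑ i ∈ s with a i ≠ 0, a i • f i := fun f =>
    (sum_filter_of_ne (p := fun i => a i ≠ 0) fun i _ hi e => hi (by rw [e, zero_smul])).symm
  have k : ∀ i ∈ s.filter (a · ≠ 0), _ := fun i hi => And.intro (mem_filter.1 hi).1
    (h2 i (mem_filter.1 hi).1 (mem_filter.1 hi).2)
  unfold smH smF
  simp only [e]
  refine ⟨(wo_sum _ fun i hi => ((h.wo_tm (hK i (k i hi).1).1 ((h1 i (k i hi).1).ok _)
    (k i hi).2).smul (a i)).mono le_rfl (hK i (k i hi).1).2 le_rfl).mono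
      (sum_le_sum_of_subset_of_nonneg (filter_subset _ _) fun _ _ _ => by positivity) le_rfl le_rfl,
    fun u => ?_, rp_sum _ a fun i hi => h.rp_tm (hK i (k i hi).1).1 (h1 i (k i hi).1) (k i hi).2⟩
  simp only [ContinuousLinearMap.sum_apply, ContinuousLinearMap.smul_apply, map_sum, map_smul]
  exact sum_congr rfl fun i hi => by rw [h.PH_tm ((h1 i (k i hi).1).ok _)]

variable {Ω : Set M} {T : HK F 0 →L[ℝ] HK F 0} {Tf : (M → V2 ι) → M → V2 ι}
  {f f0 a a' b : M → Ext E} {u u0 k : HK F 0}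

variable (F o Ω Tf) in
/-- the abelian equation -/
def AE (f : M → Ext E) : Prop := ∀ x ∈ Ω, hs F o x (c2 F f x) = Tf (c2 F f) x

variable (F o Ω Tf) in
/-- `f0 + d a` solves the abelian equation -/
structure AS (f0 a : M → Ext E) : Prop where
  fo : Fo I 1 a
  off : Off Ω a
  sq : Sq F (dM I a)
  eq : AE F o Ω Tf (f0 + dM I a)

theorem Op.per (hT : Op F o T Tf N n) (hΩ : IsClopen Ω) (hN : √2 * N < 1) : Per F o Ω T N :=
  hT.wo.per hΩ hT.ph hN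

theorem Op.π (hT : Op F o T Tf N n) (hΩ : IsClopen Ω) (u : HK F 0) :
    πH F Ω (T u) = T (πH F Ω u) :=
  sub_eq_zero.1 (norm_le_zero_iff.1 ((hT.wo.cm _ 0 (cb_ind hΩ) le_rfl (thin_ind hΩ) u).trans_eq
    (by simp)))

theorem Tam.ae_iff (h : Tam F o) (hT : Op F o T Tf N n) (hΩ : IsClopen Ω) (hu : Isf F u f)
    (hf : Fo I 2 f) (h0 : Off Ω f) : AE F o Ω Tf f ↔ PH F o 0 u = T u := by
  have := openPos F.toPre
  obtain ⟨-, s, i⟩ := hT.rp u _ (sm_c2 hf.sm) hu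
  refine ⟨fun e => ?_, fun e x _ => congrFun ((Continuous.ae_eq_iff_eq F.μ
    (h.cb_hs.choose_spec.1.clm_apply (sm_c2 hf.sm)).continuous s.continuous).1
      ((h.is_PH hu).symm.trans (e ▸ i))) x⟩
  rw [← hu.π_eq hΩ h0, ← hT.π hΩ, hu.π_eq hΩ h0]
  refine (h.is_PH hu).unique ((is_π hΩ i).congr (.of_forall fun x => ?_))
  by_cases hx : x ∈ Ω
  · simp [hx, e x hx]
  · simp [hx, c2_of_zero (h0 x hx)]

theorem Cz.add_d (hf : Cz I Ω f0) (hΩ : IsClopen Ω) (ha : Fo I 1 a) (h0 : Off Ω a) :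
    Cz I Ω (f0 + dM I a) := hf.add ⟨ha.d, ha.dd, h0.d hΩ⟩

theorem AS.sol (h : Tam F o) (hT : Op F o T Tf N n) (hΩ : IsClopen Ω) (hf : Cz I Ω f0)
    (h0 : Isf F u0 f0) (ha : AS F o Ω Tf f0 a) :
    ∃ k ∈ KK F Ω, Isf F k (dM I a) ∧ PH F o 0 (u0 + k) = T (u0 + k) :=
  let ⟨k, hk⟩ := ha.sq.exists
  have c := hf.add_d hΩ ha.fo ha.off
  ⟨k, mem_KK ha.fo ha.off hk, hk, (h.ae_iff hT hΩ (h0.add hk) c.fo c.off).1 ha.eq⟩

theorem AS.shift (ha : AS F o Ω Tf (f0 + dM I b) a) (hb : Fo I 1 b) (h0 : Off Ω b)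
    (hq : Sq F (dM I b)) : AS F o Ω Tf f0 (b + a) := by
  refine ⟨hb.add ha.fo, h0.add ha.off, ?_, ?_⟩ <;> rw [hb.d_add ha.fo]
  exacts [hq.add ha.sq, add_assoc f0 _ _ ▸ ha.eq]

namespace Pc
variable (h : Pc F o Ω) (hT : Op F o T Tf N n) (hN : √2 * N < 1) (hf : Cz I Ω f0)
include h hT hN hf

theorem as_of (h0 : Isf F u0 f0) (hk : k ∈ KK F Ω) (e : PH F o 0 (u0 + k) = T (u0 + k)) :
    ∃ a, AS F o Ω Tf f0 a ∧ Isf F k (dM I a) :=
  let ⟨a, h1, h2, h3, _⟩ := h.sm_sol (hT.per h.cl hN) h0 hf hk (g := 0)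
    (fun _ => ⟨0, map_zero _⟩) (by rwa [add_zero])
  have c := hf.add_d h.cl h1 h2
  ⟨a, ⟨h1, h2, h3.memLp, (h.ae_iff hT h.cl (h0.add h3) c.fo c.off).2 e⟩, h3⟩

/-- **existence** -/
theorem exists_as (hq : Sq F f0) : ∃ a, AS F o Ω Tf f0 a :=
  let ⟨_, h0⟩ := hq.exists
  let ⟨_, hk, e⟩ := h.exists_sol (hT.per h.cl hN) (h0.π_eq h.cl hf.off)
  let ⟨a, ha, _⟩ := h.as_of hT hN hf h0 hk e
  ⟨a, ha⟩

/-- **uniqueness** -/
theorem as_uniq (hq : Sq F f0) (ha : AS F o Ω Tf f0 a) (ha' : AS F o Ω Tf f0 a') :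
    dM I a = dM I a' := by
  obtain ⟨u0, h0⟩ := hq.exists
  obtain ⟨k, h1, h2, h3⟩ := ha.sol h.toTam hT h.cl hf h0
  obtain ⟨k', k1, k2, k3⟩ := ha'.sol h.toTam hT h.cl hf h0
  exact h2.eq (h.uniq (hT.per h.cl hN) h1 k1 h3 k3 ▸ k2) ha.fo.d ha'.fo.d

omit hT hN in
/-- the square of the curvature form -/
theorem integ_sq (hc : HasCompactSupport f0) (ha : Fo I 1 a) (h0 : Off Ω a) (hq : Sq F (dM I a)) :
    integ I (vol F o) ((f0 + dM I a) * (f0 + dM I a)) = integ I (vol F o) (f0 * f0) := by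
  obtain ⟨u0, i0⟩ := (sq_of_hcs (F := F) hf.fo.sm hc).exists
  obtain ⟨k, hk⟩ := hq.exists
  have := h.Bw_class i0 hf hc (mem_KK ha h0 hk)
  rw [h.Bw_eq (i0.add hk) (i0.add hk) (hf.fo.add ha.d).dg] at this
  linarith

end Pc

end Crest.Agent.X212.Qab60
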