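import Crest.Agent.X212.Qab60.Prim
import Crest.Agent.X212.Int54.Cyl

/-! X212 / QAB (helper60): the Chern–Simons bound on a conformally long neck. -/

set_option autoImplicit false
set_option linter.unusedSectionVars false
noncomputable section
open scoped Manifold ContDiff Topology InnerProductSpace
open MeasureTheory Function Filter Set Module
open Crest.Agent.R208.F (Ext io pb ii)
open Crest.Agent.R208.FI (IsDeg)

namespace Crest.Agent.X212.Qab60
open An Sob92 Num57 Int54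
open Dr59 (SmAt dM df CAt pm mf)
open Cyf70 (IC ce cyl)
open Met55 (Co atx)

section pt
variable {E : Type} [NormedAddCommGroup E] [NormedSpace ℝ E] [FiniteDimensional ℝ E]
  {ι κ : Type} [Fintype ι] [Fintype κ]

/-- evaluation of the one-form part -/
def e1L (c : Ext E) : E →ₗ[ℝ] ℝ where
  toFun := e1 c
  map_add' u v := by simp [e1_eq]
  map_smul' r u := by simp [e1_eq]

theorem co_e1 {v : ι → E} {w : κ → E} (h : Co v w) (c : Ext E) :
    ∑ a, e1 c (v a) ^ 2 = ∑ a, e1 c (w a) ^ 2 := by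
  simp only [sq]; exact h (e1L c) (e1L c)

theorem e2_pb {E' : Type} [NormedAddCommGroup E'] [NormedSpace ℝ E'] [FiniteDimensional ℝ E']
    (A : E' →ₗ[ℝ] E) (c : Ext E) (v w : E') : e2 (pb A c) v w = e2 c (A v) (A w) := by
  rw [e2, R208.F.evA_pb, e2]
  congr 1
  funext j; fin_cases j <;> rfl

theorem e2_vsm (c : Ext E) (r s : ℝ) (v w : E) : e2 c (r • v) (s • w) = r * s * e2 c v w := by
  simp [e2_eq, e1_eq, mul_assoc]

theorem co_e2 {v : ι → E} {w : κ → E} (h : Co v w) (c : Ext E) :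
    ∑ a, ∑ b, e2 c (v a) (v b) ^ 2 = ∑ a, ∑ b, e2 c (w a) (w b) ^ 2 := by
  have h1 : ∀ u, ∑ b, e2 c u (v b) ^ 2 = ∑ b, e2 c u (w b) ^ 2 := fun u => by
    simp only [e2_eq]; exact co_e1 h _
  simp only [h1]
  rw [Finset.sum_comm]
  refine Finset.sum_congr rfl fun b _ => ?_
  rw [← h1]
  exact Finset.sum_congr rfl fun a _ => by rw [e2_swap, neg_sq]

theorem isU_smul {v : ι → E} {c : Ext E} (h : IsU v c) {r : ℝ} (hr : r ≠ 0) :
    IsU (fun a => r • v a) ((r ^ finrank ℝ E)⁻¹ • c) := by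
  rw [isU_iff_sum rfl] at h ⊢
  rw [← h]
  refine Finset.sum_congr rfl fun Φ _ => ?_
  rw [AlternatingMap.map_smul_univ (c := fun _ => r), map_smul]
  simp [hr]

/-- the weights of a neck -/
def wv (w0 w1 : ℝ) : Option κ → ℝ
  | none => w0
  | some _ => w1

theorem isU_wv {v : κ → E} {c : Ext E} (h : IsU v c) {w0 w1 : ℝ} (h0 : w0 ≠ 0) (h1 : w1 ≠ 0)
    {w : Option κ → E × ℝ} (e0 : w none = (0, 1)) (e1 : ∀ a, w (some a) = (v a, 0)) :
    IsU (fun i => wv w0 w1 i • w i) ((w0 * w1 ^ finrank ℝ E)⁻¹ • xp c (io LinearMap.id)) := by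
  have h2 := (isU_smul h h1).xp (isU_smul isU_real h0)
  have e : xp ((w1 ^ finrank ℝ E)⁻¹ • c) ((w0 ^ finrank ℝ ℝ)⁻¹ • io (LinearMap.id : ℝ →ₗ[ℝ] ℝ)) =
      (w0 * w1 ^ finrank ℝ E)⁻¹ • xp c (io LinearMap.id) := by
    rw [xp, xp, map_smul, map_smul, smul_mul_smul_comm, finrank_self, pow_one, mul_inv, mul_comm]
  rw [e] at h2
  refine h2.co fun α β => ?_
  have e2 : ∀ a, w1 • w (some a) = (w1 • v a, 0) := fun a => by simp [e1]
  have e3 : w0 • w none = (0, w0) := by simp [e0]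
  simp only [Fintype.sum_option, Fintype.sum_sum_type, wv, e2, e3, Sum.elim_inl, Sum.elim_inr,
    Finset.univ_unique, Finset.sum_singleton, smul_eq_mul, mul_one]
  ring

end pt

variable {E : Type} [NormedAddCommGroup E] [NormedSpace ℝ E] [FiniteDimensional ℝ E]
  [MeasurableSpace E] [BorelSpace E]
  {HM : Type} [TopologicalSpace HM] {I : ModelWithCorners ℝ E HM} [I.Boundaryless]
  {Y : Type} [TopologicalSpace Y] [ChartedSpace HM Y] [IsManifold I ∞ Y]
  [MeasurableSpace Y] [BorelSpace Y] [SecondCountableTopology Y] [T2Space Y]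
  {κ : Type} [Fintype κ]
  {E' : Type} [NormedAddCommGroup E'] [NormedSpace ℝ E'] [FiniteDimensional ℝ E']
  [MeasurableSpace E'] [BorelSpace E']
  {HN : Type} [TopologicalSpace HN] {J : ModelWithCorners ℝ E' HN} [J.Boundaryless]
  {N : Type} [TopologicalSpace N] [ChartedSpace HN N] [IsManifold J ∞ N]
  [MeasurableSpace N] [BorelSpace N] [SecondCountableTopology N] [T2Space N]
  {ι : Type} [Fintype ι]

/-- an orientation of the cylinder comes from an orientation of the cross-section -/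
theorem exists_cy (G : Fr I Y κ) {O : Y × ℝ → Ext (E × ℝ)} (hO : Ori (IC I) O) :
    ∃ o, Ori I o ∧ SameOn (cy o) O univ := by
  let b := fun z => R208.F.inv (ic (IC I) (ce G.e none) O z)
  have hb : ∀ z, SmAt (IC I) b z := fun z =>
    (cAt_ic le_rfl (Cyf70.ce_sm G.sm none z) (hO.sm z)).inv
  have e : ∀ y, tp (E × ℝ) (cy (sl I 𝓘(ℝ, ℝ) 0 b) (y, 0)) = tp (E × ℝ) (O (y, 0)) := fun y => by
    have h1 := tp_io_ii (LinearMap.snd ℝ E ℝ) (0, 1) (O (y, 0))
    have h2 : io (LinearMap.snd ℝ E ℝ) = pb (LinearMap.snd ℝ E ℝ) (io LinearMap.id) := by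
      rw [R208.F.pb_io]; rfl
    rw [R208.F.io_mul, h2, mul_pb_snd fun l => io_mul_io_real _ _] at h1
    simp only [LinearMap.snd_apply, one_mul] at h1
    rw [← h1]
    exact congrArg (fun c => tp (E × ℝ) (xp c (io LinearMap.id))) (sl_apply 0 b y)
  have ho : Ori I (sl I 𝓘(ℝ, ℝ) 0 b) := ⟨fun y => (hb _).pm
      (contMDiffAt_id.prodMk contMDiffAt_const), fun y h => hO.ne (y, 0) (by
    rw [← e, tp_pr, h, zero_mul, mul_zero])⟩
  refine ⟨_, ho, fun z _ => ho.cy.sameOn_of_pt hO (s := {z.1} ×ˢ univ)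
    (isPreconnected_singleton.prod isPreconnected_univ) (x := (z.1, 0)) ⟨rfl, trivial⟩ ?_ z
    ⟨rfl, trivial⟩⟩
  rw [rat, e, div_self (hO.ne _)]
  exact one_pos

/-- the Chern–Simons bound on the cross-section -/
def CS (G : Fr I Y κ) (o : Y → Ext E) (c : ℝ) : Prop :=
  ∀ a, Fo I 1 a → |integ I o (a * dM I a)| ≤ c * ∫ y, ‖c2 G (dM I a) y‖ ^ 2 ∂G.μ

theorem exists_cs [CompactSpace Y] {G : Fr I Y κ} (h4 : finrank ℝ E ≤ 4) (hv : G.IsVol)
    {o : Y → Ext E} (ho : Ori I o) : ∃ c, 0 ≤ c ∧ CS G o c := cs_le h4 hv ho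

/-- a band `j` over the heights `S` on which the metric is `w0⁻² ds² + w1⁻² g` -/
structure Bnd (G : Fr I Y κ) (F : Fr J N ι) (j : Y × ℝ → N) (w0 w1 : ℝ → ℝ) (S : Set ℝ) :
    Prop where
  dim : finrank ℝ E' = finrank ℝ (E × ℝ)
  op : IsOpen S
  sm : ∀ q : Y × ℝ, q.2 ∈ S → ContMDiffAt (IC I) J ∞ j q
  inj : InjOn j (univ ×ˢ S)
  c0 : ContinuousOn w0 S
  c1 : ContinuousOn w1 S
  p0 : ∀ s ∈ S, 0 < w0 s
  p1 : ∀ s ∈ S, 0 < w1 s
  co : ∀ q : Y × ℝ, q.2 ∈ S → Co (fun i => mf (IC I) J j q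
    (wv (w0 q.2) (w1 q.2) i • atx (ce G.e) q i)) (atx F.e (j q))

variable {G : Fr I Y κ} {F : Fr J N ι} {j : Y × ℝ → N} {w0 w1 : ℝ → ℝ} {S K : Set ℝ}

/-- the slices of a band -/
abbrev slc (j : Y × ℝ → N) (t : ℝ) (y : Y) : N := j (y, t)

theorem Bnd.sm_slc (h : Bnd G F j w0 w1 S) {t : ℝ} (ht : t ∈ S) : ContMDiff I J ∞ (slc j t) :=
  fun y => (h.sm (y, t) ht).comp y (contMDiffAt_id.prodMk contMDiffAt_const)

theorem Bnd.sl_pm (h : Bnd G F j w0 w1 S) {t : ℝ} (ht : t ∈ S) (b : N → Ext E') :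
    sl I 𝓘(ℝ, ℝ) t (pm (IC I) J j b) = pm I J (slc j t) b := funext fun y =>
  Dr59.pm_comp ((h.sm (y, t) ht).mdifferentiableAt (by simp))
    (mdifferentiableAt_id.prodMk mdifferentiableAt_const)

theorem Fo.pm {k : ℕ} {a : N → Ext E'} (h : Fo J k a) {f : Y → N} (hf : ContMDiff I J ∞ f) :
    Fo I k (pm I J f a) := ⟨fun y => (h.sm _).pm (hf y), fun y => (h.dg _).pb _⟩

theorem Fo.d_pm {k : ℕ} {a : N → Ext E'} (h : Fo J k a) {f : Y → N} (hf : ContMDiff I J ∞ f) :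
    dM I (Dr59.pm I J f a) = Dr59.pm I J f (dM J a) := funext fun y =>
  Dr59.dM_pm Dr59.ne0 (hf y) (h.sm _)

theorem norm_c2_eq (F : Fr J N ι) (b : N → Ext E') (x : N) :
    ‖c2 F b x‖ ^ 2 = ∑ a, ∑ c, e2 (b x) (atx F.e x a) (atx F.e x c) ^ 2 := by
  rw [EuclideanSpace.norm_sq_eq, Fintype.sum_prod_type]
  simp only [Real.norm_eq_abs, sq_abs]
  rfl

theorem Bnd.norm_slc (h : Bnd G F j w0 w1 S) {t : ℝ} (ht : t ∈ S) (b : N → Ext E') (y : Y) :
    w1 t ^ 4 * ‖c2 G (pm I J (slc j t) b) y‖ ^ 2 ≤ ‖c2 F b (j (y, t))‖ ^ 2 := by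
  rw [norm_c2_eq, norm_c2_eq, ← co_e2 (h.co (y, t) ht), ← h.sl_pm ht, Fintype.sum_option,
    Finset.mul_sum]
  refine le_add_of_nonneg_of_le (by positivity) (Finset.sum_le_sum fun a _ => ?_)
  rw [Fintype.sum_option, Finset.mul_sum]
  refine le_add_of_nonneg_of_le (by positivity) (Finset.sum_le_sum fun c _ => le_of_eq ?_)
  rw [sl_apply, Dr59.pm_apply, e2_pb, e2_pb, map_smul, map_smul, e2_vsm]
  simp only [wv]
  rw [mul_pow]
  congr 1
  ring

theorem Bnd.integral (h : Bnd G F j w0 w1 S) (hG : G.IsVol) (hF : F.IsVol) {o : Y → Ext E}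
    (ho : Ori I o) (hK : MeasurableSet K) (hS : K ⊆ S) (g : N → ℝ) :
    ∫ x in j '' (univ ×ˢ K), g x ∂F.μ =
      ∫ q in univ ×ˢ K, (w0 q.2 * w1 q.2 ^ finrank ℝ E)⁻¹ * g (j q) ∂(G.μ.prod volume) := by
  classical
  have hT : MeasurableSet (univ ×ˢ K : Set (Y × ℝ)) := MeasurableSet.univ.prod hK
  let ρ : ℝ → ℝ := K.piecewise (fun s => (w0 s * w1 s ^ finrank ℝ E)⁻¹) 0
  have hp : ∀ s ∈ K, 0 < w0 s * w1 s ^ finrank ℝ E := fun s hs =>
    mul_pos (h.p0 s (hS hs)) (pow_pos (h.p1 s (hS hs)) _)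
  have hρ : Measurable ρ := ContinuousOn.measurable_piecewise
    (((h.c0.mul (h.c1.pow _)).mono hS).inv₀ fun s hs => (hp s hs).ne') continuousOn_const hK
  have hρ' : Measurable fun q : Y × ℝ => ρ q.2 := hρ.comp measurable_snd
  have hv := ho.vol G.toPre
  rw [isVol_iff_rf.1 hF, setIntegral_image h.dim _ hT
    (fun q hq => (h.sm q (hS hq.2)).mdifferentiableAt (by simp)) (h.inj.mono (prod_mono_right hS)),
    dens_congr_on (I := IC I) (b := (fun q : Y × ℝ => ρ q.2) • cy (volF o G.e)) hT fun q hq => ?_,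
    dens_fsmul hv.cy.c0 hρ', dens_cy hv.cd, ho.dens_vol hG, restrict_withDensity hT,
    integral_withDensity_eq_integral_toReal_smul hρ'.abs.ennreal_ofReal
      (.of_forall fun _ => ENNReal.ofReal_lt_top)]
  · refine setIntegral_congr_fun hT fun q hq => ?_
    simp only [ρ, piecewise_eq_of_mem _ _ _ hq.2, smul_eq_mul]
    rw [ENNReal.toReal_ofReal (abs_nonneg _), abs_of_pos (inv_pos.2 (hp _ hq.2))]
  · refine ((isU_rf (pre_sp F.toPre (j q))).pb h.dim (h.co q (hS hq.2))).abs_eq ?_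
    simp only [ρ, Pi.smul_apply', piecewise_eq_of_mem _ _ _ hq.2]
    exact isU_wv (ho.unit_vol G.toPre q.1) (h.p0 _ (hS hq.2)).ne' (h.p1 _ (hS hq.2)).ne' rfl
      fun _ => rfl

variable [CompactSpace Y] {o : Y → Ext E} {O : N → Ext E'} {χ : ℝ → ℝ} {g : N → ℝ} {c δ : ℝ}

/-- a function of the height of a band, locally constant off the band -/
structure Hgt (J : ModelWithCorners ℝ E' HN) (j : Y × ℝ → N) (S : Set ℝ) (χ : ℝ → ℝ) (g : N → ℝ) :
    Prop where
  sm : Sm J g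
  sχ : ContDiff ℝ ∞ χ
  hc : HasCompactSupport (deriv χ)
  sub : tsupport (deriv χ) ⊆ S
  eq : ∀ q : Y × ℝ, q.2 ∈ S → g (j q) = χ q.2
  off : ∀ x, x ∉ j '' (univ ×ˢ S) → df J g x = 0

theorem Bnd.integ_df (h : Bnd G F j w0 w1 S) (hg : Hgt J j S χ g) (ho : Ori I o) (hO : Ori J O)
    (hp : SameOn (cy o) (pm (IC I) J j O) (univ ×ˢ S)) {b : N → Ext E'} (hb : ∀ x, SmAt J b x) :
    integ J O (df J g * b) = (-1) ^ finrank ℝ E *
      ∫ t, integ I o (sl I 𝓘(ℝ, ℝ) t (pm (IC I) J j b)) * deriv χ t := by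
  rw [← integ_df_mul ho hg.sχ hg.hc fun z hz =>
    CAt.pm (by simp) (h.sm z (hg.sub hz)) ((hb _).of_le (by simp))]
  refine integ_eq_of_map h.dim hO ho.cy (MeasurableSet.univ.prod h.op.measurableSet)
    (fun q hq => h.sm q hq.2) h.inj hp (fun x hx => ?_) (fun q hq => ?_) fun q hq => ?_
  · rw [Pi.mul_apply, hg.off x hx, zero_mul, map_zero]
  · rw [df_snd (hg.sχ.differentiable (by simp)), Pi.mul_apply, pm_snd, Pi.smul_apply',
      image_eq_zero_of_notMem_tsupport fun h' => hq ⟨trivial, hg.sub h'⟩, zero_smul, map_zero,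
      zero_mul, map_zero]
  · rw [Dr59.pm_mul, Pi.mul_apply, Pi.mul_apply, Dr59.pm_df
      ((h.sm q hq.2).mdifferentiableAt (by simp)) ((hg.sm _).mdifferentiableAt (by simp)),
      df, df, Dr59.mf_congr (g := fun z : Y × ℝ => χ z.2) ?_]
    filter_upwards [(h.op.preimage continuous_snd).mem_nhds hq.2] with z hz using hg.eq z hz

/-- **the long-neck bound** -/
theorem Bnd.neck (h : Bnd G F j w0 w1 S) (hg : Hgt J j S χ g) (h3 : finrank ℝ E = 3)
    (hG : G.IsVol) (hF : F.IsVol) (ho : Ori I o) (hO : Ori J O)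
    (hp : SameOn (cy o) (pm (IC I) J j O) (univ ×ˢ S)) (hc : CS G o c) (h0 : 0 ≤ c)
    (hδ : ∀ s ∈ S, |deriv χ s| * w0 s ≤ δ * w1 s) {a : N → Ext E'} (ha : Fo J 1 a) :
    |integ J O (df J g * (a * dM J a))| ≤
      c * δ * ∫ x in j '' (univ ×ˢ tsupport (deriv χ)), ‖c2 F (dM J a) x‖ ^ 2 ∂F.μ := by
  have hK : IsCompact (tsupport (deriv χ)) := hg.hc
  have hm := hK.measurableSet
  have hn : Continuous fun x => ‖c2 F (dM J a) x‖ ^ 2 := (sm_c2 ha.d.sm).continuous.norm.pow 2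
  have hj : ContinuousOn j (univ ×ˢ tsupport (deriv χ)) := fun q hq =>
    (h.sm q (hg.sub hq.2)).continuousAt.continuousWithinAt
  have hw : ∀ s ∈ tsupport (deriv χ), 0 < w0 s * w1 s ^ 3 := fun s hs =>
    mul_pos (h.p0 s (hg.sub hs)) (pow_pos (h.p1 s (hg.sub hs)) _)
  have hi : IntegrableOn (fun q : Y × ℝ => (w0 q.2 * w1 q.2 ^ 3)⁻¹ * ‖c2 F (dM J a) (j q)‖ ^ 2)
      (univ ×ˢ tsupport (deriv χ)) (G.μ.prod volume) :=
    ContinuousOn.integrableOn_compact (isCompact_univ.prod hK)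
      (((((h.c0.mul (h.c1.pow 3)).mono hg.sub).inv₀ fun s hs => (hw s hs).ne').comp
        continuousOn_snd fun q hq => hq.2).mul (hn.comp_continuousOn hj))
  rw [h.integ_df hg ho hO hp (ha.mul ha.d).sm, abs_mul, abs_pow, abs_neg, abs_one, one_pow, one_mul,
    h.integral hG hF ho hm hg.sub, h3, ← setIntegral_eq_integral_of_forall_compl_eq_zero
      (s := tsupport (deriv χ)) fun t ht => by rw [image_eq_zero_of_notMem_tsupport ht, mul_zero]]
  rw [IntegrableOn, ← Measure.prod_restrict, Measure.restrict_univ] at hi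
  rw [← Measure.prod_restrict, Measure.restrict_univ, integral_prod_symm _ hi, ← integral_const_mul]
  refine (abs_integral_le_integral_abs).trans (integral_mono_of_nonneg
    (.of_forall fun _ => abs_nonneg _) (hi.integral_prod_right.const_mul _)
    ((ae_restrict_iff' hm).2 (.of_forall fun t ht => ?_)))
  have hS := hg.sub ht
  have hs := h.sm_slc hS
  have h1 := hc _ (ha.pm hs)
  have h2 : w1 t ^ 4 * ∫ y, ‖c2 G (pm I J (slc j t) (dM J a)) y‖ ^ 2 ∂G.μ ≤
      ∫ y, ‖c2 F (dM J a) (j (y, t))‖ ^ 2 ∂G.μ := by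
    rw [← integral_const_mul]
    exact integral_mono_of_nonneg (.of_forall fun _ => by positivity)
      ((hn.comp hs.continuous).integrable_of_hasCompactSupport (.of_compactSpace _))
      (.of_forall fun y => h.norm_slc hS _ y)
  rw [ha.d_pm hs, ← Dr59.pm_mul] at h1
  simp only [h.sl_pm hS, integral_const_mul, abs_mul]
  have h4 := hδ t hS
  have p0 := h.p0 t hS
  have p1 := h.p1 t hS
  have h5 : 0 ≤ ∫ y, ‖c2 G (pm I J (slc j t) (dM J a)) y‖ ^ 2 ∂G.μ :=
    integral_nonneg fun _ => by positivity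
  have hδ0 : 0 ≤ δ := (mul_nonneg_iff_of_pos_right p1).1 (le_trans (by positivity) h4)
  refine (mul_le_mul_of_nonneg_right h1 (abs_nonneg _)).trans ?_
  rw [mul_assoc, mul_assoc]
  refine mul_le_mul_of_nonneg_left ?_ h0
  rw [← le_div_iff₀ p0] at h4
  refine (mul_le_mul_of_nonneg_left h4 h5).trans (le_trans (le_of_eq ?_)
    (mul_le_mul_of_nonneg_left (mul_le_mul_of_nonneg_left h2 (inv_pos.2 (hw t ht)).le) hδ0))
  field_simp

/-- logarithmic cut-offs -/
theorem exists_log : ∃ C, 0 ≤ C ∧ ∀ r L : ℝ, 0 < r → 0 < L → ∃ χ : ℝ → ℝ, ContDiff ℝ ∞ χ ∧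
    (∀ s ≤ r, χ s = 0) ∧ (∀ s, r * Real.exp L ≤ s → χ s = 1) ∧ (∀ s, χ s ∈ Icc (0 : ℝ) 1) ∧
    tsupport (deriv χ) ⊆ Icc r (r * Real.exp L) ∧ ∀ s, |deriv χ s| * |s| ≤ C / L := by
  have hT : ContDiff ℝ ∞ Real.smoothTransition := Real.smoothTransition.contDiff
  have hc : HasCompactSupport (deriv Real.smoothTransition) :=
    HasCompactSupport.intro (isCompact_Icc (a := 0) (b := 1)) fun x hx => by
      rcases lt_or_ge x 0 with h | h
      · exact (EventuallyEq.deriv_eq (f := fun _ => 0) ((eventually_lt_nhds h).mono fun y hy =>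
          Real.smoothTransition.zero_of_nonpos hy.le)).trans (deriv_const _ _)
      · exact (EventuallyEq.deriv_eq (f := fun _ => 1) ((eventually_gt_nhds
          (not_le.1 fun h' => hx ⟨h, h'⟩)).mono fun y hy =>
          Real.smoothTransition.one_of_one_le hy.le)).trans (deriv_const _ _)
  obtain ⟨C, hC⟩ := (hT.continuous_deriv (by simp)).bounded_above_of_compact_support hc
  refine ⟨C, (norm_nonneg _).trans (hC 0), fun r L hr hL => ?_⟩
  let f : ℝ → ℝ := fun s => Real.smoothTransition (Real.log (s / r) / L)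
  let χ : ℝ → ℝ := fun s => if 0 < s then f s else 0
  have h0 : ∀ s ≤ r, χ s = 0 := fun s hs => by
    simp only [χ]; split_ifs with h
    · exact Real.smoothTransition.zero_of_nonpos (div_nonpos_of_nonpos_of_nonneg
        (Real.log_nonpos (by positivity) ((div_le_one hr).2 hs)) hL.le)
    · rfl
  have h1 : ∀ s, r * Real.exp L ≤ s → χ s = 1 := fun s hs => by
    have h : 0 < s := lt_of_lt_of_le (by positivity) hs
    simp only [χ, if_pos h]
    refine Real.smoothTransition.one_of_one_le ((one_le_div hL).2 ?_)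
    rw [Real.le_log_iff_exp_le (by positivity), le_div_iff₀' hr]; exact hs
  have e0 : ∀ s < r, χ =ᶠ[𝓝 s] fun _ => 0 := fun s hs =>
    (eventually_lt_nhds hs).mono fun y hy => h0 y hy.le
  have e1 : ∀ s, 0 < s → χ =ᶠ[𝓝 s] f := fun s hs =>
    (eventually_gt_nhds hs).mono fun y hy => if_pos hy
  refine ⟨χ, contDiff_iff_contDiffAt.2 fun s => ?_, h0, h1, fun s => ?_,
    closure_minimal (fun s hs => ?_) isClosed_Icc, fun s => ?_⟩
  · rcases lt_or_ge 0 s with h | h
    · exact (hT.contDiffAt.comp s (((contDiffAt_id.div_const r).log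
        (by simp only [id]; positivity)).div_const L)).congr_of_eventuallyEq (e1 s h)
    · exact contDiffAt_const.congr_of_eventuallyEq (e0 s (h.trans_lt hr))
  · simp only [χ]; split_ifs
    exacts [⟨Real.smoothTransition.nonneg _, Real.smoothTransition.le_one _⟩, ⟨le_rfl, zero_le_one⟩]
  · refine ⟨not_lt.1 fun h => hs ((e0 s h).deriv_eq.trans (deriv_const _ _)), not_lt.1 fun h => hs
      ((EventuallyEq.deriv_eq (f := fun _ => 1) ((eventually_gt_nhds h).mono fun y hy =>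
        h1 y hy.le)).trans (deriv_const _ _))⟩
  · rcases lt_or_ge 0 s with h | h
    · have d : HasDerivAt f (deriv Real.smoothTransition (Real.log (s / r) / L) *
          ((1 / r) / (s / r) / L)) s :=
        (hT.differentiable (by simp) _).hasDerivAt.comp s
          ((((hasDerivAt_id s).div_const r).log (by simp only [id]; positivity)).div_const L)
      rw [(e1 s h).deriv_eq, d.deriv, abs_mul, abs_of_pos h, abs_of_pos (a := _ / L) (by positivity),
        mul_assoc, show 1 / r / (s / r) / L * s = 1 / L by field_simp, mul_one_div]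
      exact div_le_div_of_nonneg_right (hC _) hL.le
    · rw [(e0 s (h.trans_lt hr)).deriv_eq, deriv_const, abs_zero, zero_mul]
      exact div_nonneg ((norm_nonneg _).trans (hC 0)) hL.le

end Crest.Agent.X212.Qab60
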