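import Crest.Agent.X212.Qab60.Wrd
import Crest.Agent.X212.Qab60.Neck
import Crest.Agent.X212.Rf65.Rs
import Crest.Agent.X212.Loc8.Red
import Crest.Agent.X212.Dfl49.Cfg
import Crest.Agent.X212.Wrd81.Exp
import Crest.Agent.X212.Met55.Fam

/-! X212 / QAB (helper60): the leaves of the abelian problem inside an `S¹ × S²` wall. -/

set_option autoImplicit false
set_option linter.unusedSectionVars false
noncomputable section
open scoped Manifold ContDiff Topology InnerProductSpace Real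
open MeasureTheory Set Function Filter
open Crest.Agent.R208.F (Ext)

namespace Crest.Agent.X212.Qab60
open An Nd18 Num57 Cyf70
open M (Mf)
open Dr59 (dM df Ex Cl Dg pm)
open Int54 (integ)
open Abel74 (fm Red RedOn)
open Loc8 (Rd)
open Dfl49 (PI Fz)
open Line51 (Ln ang)
open Rf65 (SC PR ar V3)
open Pj41 (OKOn ConnOn)
open Tmp64 (AdmOn Eq0)
open Wrd81 (TmIn Bas)
open Eqv71 (cj)

/-- a tensor times a vector -/
def tn {α V : Type} [NormedAddCommGroup V] [NormedSpace ℝ V] (u : Fm α ℝ) (ξ : V) : Fm α V :=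
  WithLp.toLp 2 fun s => u s • ξ

section gauge
variable {E : Type} [NormedAddCommGroup E] [NormedSpace ℝ E] [FiniteDimensional ℝ E]
  [MeasurableSpace E] [BorelSpace E]
  {HM : Type} [TopologicalSpace HM] (I : ModelWithCorners ℝ E HM) [I.Boundaryless]
  (M : Type) [TopologicalSpace M] [ChartedSpace HM M] [IsManifold I ∞ M] [T2Space M]
  [MeasurableSpace M] [BorelSpace M] [SecondCountableTopology M]
  (ι : Type) [Fintype ι] (lam : Type) [Fintype lam]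

variable {I M ι lam} in
/-- an abelian point without spinor on `Ω` -/
structure Ab {r : ℕ} (B : Base M ι lam) (G : Geo I M ι lam) (Ω : Set M) (c : Cfg M ι lam r)
    (ξ : M → c.m.A) : Prop where
  adm : c.Adm B G
  rd : Rd G.F c.m c.W Ω ξ
  z : ∀ x ∈ Ω, c.Φ x = 0

variable {I M ι lam} in
/-- adding `a ξ` -/
def ada {r : ℕ} (F : Fr I M ι) (c : Cfg M ι lam r) (ξ : M → c.m.A) (a : M → Ext E) :
    Cfg M ι lam r := vr c (fun x => tn (c1 F a x) (ξ x)) 0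

/-- LEAF GAU: the terms at an abelian point -/
def GauStmt : Prop := ∀ (r n : ℕ) (B : Base M ι lam) (G : Geo I M ι lam) (Ω : Set M)
  (c : Cfg M ι lam r) (ξ : M → c.m.A), B.OK I → G.OK B → (∃ C, G.F.Tame C) → IsClopen Ω →
  Ab B G Ω c ξ → ∀ T : Tm M lam r n, TmIn I univ T → Bas T → ∀ x ∈ Ω, c.tD B G.F T x = 0 ∧
    c.tC B G.F T x = tn (tmF G.F B.o T (c2 G.F (fm G.F c.m c.W ξ)) x) (ξ x)

/-- LEAF ADD: adding a one-form; the equations at an abelian point -/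
def AddStmt : Prop := ∀ (r : ℕ) (B : Base M ι lam) (G : Geo I M ι lam) (Ω : Set M)
  (c : Cfg M ι lam r) (ξ : M → c.m.A), B.OK I → G.OK B → IsClopen Ω → Ab B G Ω c ξ →
  (∀ a, Fo I 1 a → Off Ω a → Ab B G Ω (ada G.F c ξ a) ξ ∧
    fm G.F c.m (ada G.F c ξ a).W ξ = fm G.F c.m c.W ξ + dM I a) ∧
  (∀ x ∈ Ω, c.m.p2 B x (c.m.Fg G.F c.W x) - c.m.mu B x (c.Φ x) (c.Φ x) =
    tn (hs G.F B.o x (c2 G.F (fm G.F c.m c.W ξ) x)) (ξ x) ∧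
    Wz78.dir I G.F.e c.m.ρ c.W c.Φ x = 0) ∧
  Cz I Ω (fm G.F c.m c.W ξ) ∧ ∀ x ∈ Ω, ξ x ≠ 0

/-- LEAF PST: pasting a reduction on `Ω` with a configuration off `Ω` -/
def PstStmt : Prop := ∀ (r : ℕ) (B : Base M ι lam) (G : Geo I M ι lam) (Ω : Set M)
  (m : Md M ι lam) (W : m.Cn) (ξ : M → m.A) (c' : Cfg M ι lam r), B.OK I → G.OK B → IsClopen Ω →
  OKOn I B m Ω → ConnOn B G m W Ω → RedOn G.F m W Ω ξ → AdmOn c' B G Ωᶜ →
  ∃ (c : Cfg M ι lam r) (ξ' : M → c.m.A) (u : M → CL m.V c.m.V) (v : M → CL c'.m.V c.m.V),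
    Ab B G Ω c ξ' ∧ Eq0 G.F c' c Ωᶜ v ∧ PI G.F (⟨m, W, 0, 0⟩ : Cfg M ι lam 0) c Ω u ∧
    (∀ x ∈ Ω, ξ' x = cj (u x) (ξ x)) ∧ EqOn (fm G.F c.m c.W ξ') (fm G.F m W ξ) Ω

/-- LEAF TRN: change of the metric (`Met55.isConn_chg`) -/
def TrnStmt : Prop := ∀ (r : ℕ) (B : Base M ι lam) (G G' : Geo I M ι lam) (Ω : Set M)
  (c : Cfg M ι lam r) (ξ : M → c.m.A), B.OK I → G.OK B → G'.OK B → Ab B G Ω c ξ →
  ∃ W' : c.m.Cn, Ab B G' Ω ⟨c.m, W', c.Φ, c.z⟩ ξ ∧ fm G'.F c.m W' ξ = fm G.F c.m c.W ξ ∧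
    ∀ O, IsOpen O → (∀ a, ∀ x ∈ O, G'.F.e a x = G.F.e a x ∧ G'.a a x = G.a a x) →
      ∀ a, ∀ x ∈ O, W' a x = c.W a x

/-- LEAF UQ: abelian points with the same curvature on a simply connected set -/
def UqStmt : Prop := ∀ (r r' : ℕ) (B : Base M ι lam) (G : Geo I M ι lam) (Ω : Set M)
  (c : Cfg M ι lam r) (ξ : M → c.m.A) (c' : Cfg M ι lam r') (ξ' : M → c'.m.A), B.OK I → G.OK B →
  SC Ω → Ab B G Ω c ξ → Ab B G Ω c' ξ' → EqOn (fm G.F c'.m c'.W ξ') (fm G.F c.m c.W ξ) Ω →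
  ∃ u, PI G.F c c' Ω u ∧ ∀ x ∈ Ω, ξ' x = cj (u x) (ξ x)

/-- LEAF HL: two reductions differ by a line -/
def HlStmt : Prop := ∀ (r r' : ℕ) (B : Base M ι lam) (G : Geo I M ι lam) (Ω : Set M)
  (c : Cfg M ι lam r) (ξ : M → c.m.A) (c' : Cfg M ι lam r') (ξ' : M → c'.m.A), B.OK I → G.OK B →
  Ab B G Ω c ξ → Ab B G Ω c' ξ' →
  ∃ (n : Type) (_ : Fintype n) (_ : DecidableEq n) (L : Ln E M n), L.On I Ω ∧
    Ex I Ω (L.F I - (fm G.F c'.m c'.W ξ' - fm G.F c.m c.W ξ))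

/-- LEAF MOD: the reduction of a spin^c structure -/
def ModStmt [DecidableEq lam] : Prop := ∀ (L : Ln E M lam) (F : Fr I M ι)
  (o : ι → ι → ι → ι → M → ℝ) (B : Base M ι (lam ⊕ lam)) (Ω : Set M) (w : M → Ext E),
  OK F o → L.On I univ → B = L.base F.P o → IsOpen Ω → Rf65.Ref I L.p Ω w →
  ∃ (m : Md M ι (lam ⊕ lam)) (W : m.Cn) (ξ : M → m.A), OKOn I B m Ω ∧ ConnOn B (L.geo F) m W Ω ∧
    RedOn F m W Ω ξ ∧ Ex I Ω (fm F m W ξ - π • w)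

end gauge

/-! ### the cross-section -/

section cyl
variable {Y : Mf 3} [CompactSpace Y.M] {κ : Type} [Fintype κ] {lam : Type} [Fintype lam]

/-- the angular form of the cylinder -/
abbrev aZ (θ : Y.M → Circle) : Y.M × ℝ → Ext (Y.E × ℝ) := ang (IC Y.I) fun q => θ q.1
/-- the area form of the cylinder -/
abbrev sZ (ϖ : Y.M → V3) : Y.M × ℝ → Ext (Y.E × ℝ) := ar (IC Y.I) fun q => ϖ q.1
/-- the half cylinder -/
abbrev hZ (Y : Mf 3) (T : ℝ) : Set (Y.M × ℝ) := univ ×ˢ Ioi T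

variable (D : YD Y.I Y.M κ lam)

/-- the family of flat connections through `β` -/
def bs (θ : Y.M → Circle) (β : YC Y.M κ lam) (ξ : Y.M → β.m.A) (σ : ℝ) : YC Y.M κ lam :=
  vr β (fun y => tn (σ • c1 D.Z (aZ θ) (y, 0)) (ξ y)) 0

/-- a central flat connection with a parallel unit section -/
structure Ctr (β : YC Y.M κ lam) (ξ : Y.M → β.m.A) : Prop where
  adm : D.Adm β
  fz : Fz D.Z (cy β) univ
  red : Red D.Z (cy β).m (cy β).W fun q => ξ q.1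
  ex : ∃ η : Y.M → β.m.A, (Red D.Z (cy β).m (cy β).W fun q => η q.1) ∧ ∀ y, ⟪ξ y, η y⟫_ℝ = 0

/-- exponential decay with all derivatives -/
def Dc (F : Fr Y.I Y.M κ) (T d : ℝ) {N : Type} [NormedAddCommGroup N] [NormedSpace ℝ N]
    (u : Y.M × ℝ → N) : Prop :=
  ∀ w : List (Option κ), ∃ C, ∀ x ∈ hZ Y T, ‖(cyl F).Dw w u x‖ ≤ C * Real.exp (-d * x.2)

/-- the orientation of the cylinder -/
abbrev oZ : Y.M × ℝ → Ext (Y.E × ℝ) := vol D.Z D.B.o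

/-- square integrable anti-self-dual exact forms on the half cylinder -/
structure Asd (T : ℝ) (a : Y.M × ℝ → Ext (Y.E × ℝ)) : Prop where
  sm : Dr59.Sm (IC Y.I) (hZ Y T) a
  dg : Dg 1 (hZ Y T) a
  asd : ∀ x ∈ hZ Y T, hs D.Z D.B.o x (c2 D.Z (dM (IC Y.I) a) x) = 0
  sq : IntegrableOn (fun x => ‖c2 D.Z (dM (IC Y.I) a) x‖ ^ 2) (hZ Y T) D.Z.μ

variable {θ : Y.M → Circle} {ϖ : Y.M → V3}

/-- LEAF FLY: the family of flat connections -/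
def FlyStmt : Prop := ∀ θ ϖ β ξ, D.OK → PR D.F θ ϖ → Ctr D β ξ → ∀ σ,
  D.Adm (bs D θ β ξ σ) ∧ Fz D.Z (cy (bs D θ β ξ σ)) univ ∧ ∀ σ',
    D.Eqv (bs D θ β ξ σ) (bs D θ β ξ σ') ↔ Real.cos (2 * π * σ) = Real.cos (2 * π * σ')

/-- LEAF FLC: every flat connection is in the family -/
def FlcStmt : Prop := ∀ θ ϖ β ξ, D.OK → PR D.F θ ϖ → Ctr D β ξ → ∀ β', D.Adm β' →
  Fz D.Z (cy β') univ → ∃ σ, D.Eqv β' (bs D θ β ξ σ)

/-- LEAF DEC: exponential decay -/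
def DecStmt : Prop := D.OK → ∃ d > (0 : ℝ), ∀ T a, Asd D T a →
  Dc D.F (T + 1) d (c2 D.Z (dM (IC Y.I) a))

/-- LEAF TAIL: decaying primitives -/
def TailStmt (F : Fr Y.I Y.M κ) : Prop := ∀ T d f, 0 < d → Cl (IC Y.I) 2 (hZ Y T) f →
  Dc F T d (c2 (cyl F) f) → ∃ b, Dr59.Sm (IC Y.I) (hZ Y T) b ∧ Dg 1 (hZ Y T) b ∧
    EqOn (dM (IC Y.I) b) f (hZ Y T) ∧ Dc F T d (c1 (cyl F) b)

/-- LEAF H1Y: closed one-forms -/
def H1Stmt (F : Fr Y.I Y.M κ) : Prop := ∀ θ ϖ, PR F θ ϖ → ∀ T a, Cl (IC Y.I) 1 (hZ Y T) a →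
  ∃ (h : ℝ) (φ : Y.M × ℝ → ℝ), ContMDiffOn (IC Y.I) 𝓘(ℝ, ℝ) ∞ φ (hZ Y T) ∧
    EqOn a (h • aZ θ + df (IC Y.I) φ) (hZ Y T)

/-- the pairing that measures the holonomy -/
def hpr (ϖ : Y.M → V3) (χ : ℝ → ℝ) (a : Y.M × ℝ → Ext (Y.E × ℝ)) : ℝ :=
  integ (IC Y.I) (oZ D) (df (IC Y.I) (fun q => χ q.2) * (a * sZ ϖ))

/-- cut-offs of the height -/
structure Cf (T : ℝ) (χ : ℝ → ℝ) : Prop where
  sm : ContDiff ℝ ∞ χ
  hc : HasCompactSupport (deriv χ)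
  sub : tsupport (deriv χ) ⊆ Ioi T
  int : ∫ t, deriv χ t = -1

/-- LEAF FLX: the pairing does not depend on the cut-off -/
def FlxStmt : Prop := ∀ θ ϖ, D.OK → PR D.F θ ϖ → ∃ V ≠ (0 : ℝ),
  (∀ T χ, Cf T χ → hpr D ϖ χ (aZ θ) = V) ∧
  ∀ T a χ χ', Asd D T a → Cf T χ → Cf T χ' → hpr D ϖ χ a = hpr D ϖ χ' a

/-- the normal form of a potential at infinity -/
structure Nf (θ : Y.M → Circle) (T d h : ℝ) (a : Y.M × ℝ → Ext (Y.E × ℝ)) : Prop where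
  ex : ∃ (φ : Y.M × ℝ → ℝ) (b : Y.M × ℝ → Ext (Y.E × ℝ)),
    ContMDiffOn (IC Y.I) 𝓘(ℝ, ℝ) ∞ φ (hZ Y T) ∧ Dr59.Sm (IC Y.I) (hZ Y T) b ∧ Dg 1 (hZ Y T) b ∧
    EqOn a (h • aZ θ + df (IC Y.I) φ + b) (hZ Y T) ∧ Dc D.F T d (c1 D.Z b)

/-- LEAF ENDF (from DEC, TAIL, H1Y, FLX) -/
def EndStmt : Prop := ∀ θ ϖ, D.OK → PR D.F θ ϖ → ∃ V ≠ (0 : ℝ), ∃ d > (0 : ℝ),
  (∀ T χ, Cf T χ → hpr D ϖ χ (aZ θ) = V) ∧
  ∀ T a χ, Asd D T a → Cf T χ → Nf D θ (T + 1) d (hpr D ϖ χ a / V) a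

variable {E : Type} [NormedAddCommGroup E] [NormedSpace ℝ E] [FiniteDimensional ℝ E]
  [MeasurableSpace E] [BorelSpace E]
  {HM : Type} [TopologicalSpace HM] (I : ModelWithCorners ℝ E HM) [I.Boundaryless]
  (M : Type) [TopologicalSpace M] [ChartedSpace HM M] [IsManifold I ∞ M] [T2Space M]
  [MeasurableSpace M] [BorelSpace M] [SecondCountableTopology M]

variable {D I M} in
/-- the reduction `(c, ξ)` is `(β, ξ₀)` above the height `T` -/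
structure Sd {B : Base M (Option κ) lam} {G : Geo I M (Option κ) lam} (K : Nk D B G) {r : ℕ}
    (c : Cfg M (Option κ) lam r) (ξ : M → c.m.A) (β : YC Y.M κ lam) (ξ₀ : Y.M → β.m.A) (T : ℝ) :
    Prop where
  sub : Ioi T ⊆ K.J
  ex : ∃ u, PI D.Z (K.pb c) (cy β) (hZ Y T) u ∧ ∀ x ∈ hZ Y T, ξ₀ x.1 = cj (u x) (ξ (K.ψ x))

/-- LEAF REF: a reduction that is flat on a simply connected neighbourhood of the end -/
def RefStmt : Prop := ∀ (r : ℕ) (B : Base M (Option κ) lam) (G : Geo I M (Option κ) lam)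
  (K : Nk D B G) (Ω V : Set M) (c : Cfg M (Option κ) lam r) (ξ : M → c.m.A) (T : ℝ), D.OK →
  B.OK I → G.OK B → Ab B G Ω c ξ → IsOpen V → V ⊆ Ω → SC V → (∀ x ∈ V, fm G.F c.m c.W ξ x = 0) →
  Ioi T ⊆ K.J → K.tm ⁻¹' Ioi T ⊆ V → ∃ β ξ₀, Ctr D β ξ₀ ∧ Sd K c ξ β ξ₀ T

/-- LEAF LIM: the limit of `c + a ξ`; limits of equivalent configurations are equivalent -/
def LimStmt : Prop := ∀ (r : ℕ) (B : Base M (Option κ) lam) (G : Geo I M (Option κ) lam)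
  (K : Nk D B G) (Ω : Set M) (c : Cfg M (Option κ) lam r), D.OK → B.OK I → G.OK B → c.Adm B G →
  (∀ θ ϖ ξ β ξ₀ T d h a ζ, PR D.F θ ϖ → Ab B G Ω c ξ → Ctr D β ξ₀ → Sd K c ξ β ξ₀ T →
    K.tm ⁻¹' Ioi T ⊆ Ω → 0 ≤ T → 0 < d → Fo I 1 a → Nf D θ T d h (pm (IC Y.I) I K.ψ a) →
    K.ELim d (ada G.F c ξ a) (bs D θ β ξ₀ h) ζ atTop ∧
      K.Lim (ada G.F c ξ a) (bs D θ β ξ₀ h) ζ atTop) ∧
  ∀ (r' : ℕ) (c' : Cfg M (Option κ) lam r') u β β' ζ ζ' T, c'.Adm B G → D.Adm β → D.Adm β' →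
    Ioi T ⊆ K.J → PI G.F c c' (K.tm ⁻¹' Ioi T) u → (∀ x ∈ K.tm ⁻¹' Ioi T, c.Φ x = 0 ∧ c'.Φ x = 0) →
    K.Lim c β ζ atTop → K.Lim c' β' ζ' atTop → D.Eqv β β'

end cyl

end Crest.Agent.X212.Qab60
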