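import Crest.Agent.X212.Num57.Hop
import Crest.Agent.X212.Num57.Cof
import Crest.Agent.X212.Dr59.Coh
import Crest.Agent.X212.Int54.Link
import Crest.Agent.X212.Ell97.Loc

/-! X212 / QAB (helper60): forms and their components in a frame; `d` on one-forms as a first
order operator; the wedge product of two-forms on a four-manifold. -/

set_option autoImplicit false
set_option linter.unusedSectionVars false
noncomputable section
open scoped Manifold ContDiff Topology InnerProductSpace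
open MeasureTheory Finset Function Filter
open Crest.Agent.R208.F (Ext io)
open Crest.Agent.R208.FI (IsDeg)

namespace Crest.Agent.X212.Qab60
open An Sob92 Map77 Num57 Int54
open Dr59 (SmAt dM df CAt)
open Wz78 (Pr frPr)

variable {E : Type} [NormedAddCommGroup E] [NormedSpace ℝ E] [FiniteDimensional ℝ E]
  [MeasurableSpace E] [BorelSpace E]
  {HM : Type} [TopologicalSpace HM] {I : ModelWithCorners ℝ E HM} [I.Boundaryless]
  {M : Type} [TopologicalSpace M] [ChartedSpace HM M] [IsManifold I ∞ M]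
  [MeasurableSpace M] [BorelSpace M] [SecondCountableTopology M] {ι : Type} [Fintype ι]

variable (I) in
/-- smooth forms of degree `k` -/
structure Fo (k : ℕ) (a : M → Ext E) : Prop where
  sm : ∀ x, SmAt I a x
  dg : ∀ x, IsDeg k (a x)

section fo
variable {k l : ℕ} {a b : M → Ext E} {g : M → ℝ}

theorem Fo.zero : Fo I k (0 : M → Ext E) := ⟨fun _ => Dr59.cAt_zero, fun _ => R208.FI.IsDeg.zero⟩
theorem Fo.add (h : Fo I k a) (h' : Fo I k b) : Fo I k (a + b) :=
  ⟨fun x => (h.sm x).add (h'.sm x), fun x => (h.dg x).add (h'.dg x)⟩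
theorem Fo.smul (r : ℝ) (h : Fo I k a) : Fo I k (r • a) :=
  ⟨fun x => (h.sm x).smul r, fun x => (h.dg x).smul r⟩
theorem Fo.neg (h : Fo I k a) : Fo I k (-a) := by simpa using h.smul (-1)
theorem Fo.sub (h : Fo I k a) (h' : Fo I k b) : Fo I k (a - b) := by
  rw [sub_eq_add_neg]; exact h.add h'.neg
theorem Fo.fsmul (hg : Sm I g) (h : Fo I k a) : Fo I k (g • a) :=
  ⟨fun x => (h.sm x).fsmul le_rfl (hg x), fun x => (h.dg x).smul (g x)⟩
theorem Fo.mul (h : Fo I k a) (h' : Fo I l b) : Fo I (k + l) (a * b) :=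
  ⟨fun x => (h.sm x).mul (h'.sm x), fun x => R208.T.isDeg_mul (h.dg x) (h'.dg x)⟩
theorem Fo.d (h : Fo I k a) : Fo I (k + 1) (dM I a) :=
  ⟨fun x => (h.sm x).dM, fun _ => Dr59.isDeg_dM (.of_forall h.dg)⟩
theorem fo_df (hg : Sm I g) : Fo I 1 (df I g) :=
  ⟨fun x => Dr59.smAt_df (hg x), fun _ => Dr59.isDeg_io _⟩
theorem Fo.dd (h : Fo I k a) : dM I (dM I a) = 0 := funext fun x => (h.sm x).dd
theorem Fo.d_add (h : Fo I k a) (h' : Fo I l b) : dM I (a + b) = dM I a + dM I b :=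
  funext fun x => Dr59.dM_add Dr59.ne0 (h.sm x) (h'.sm x)
theorem Fo.d_sub (h : Fo I k a) (h' : Fo I l b) : dM I (a - b) = dM I a - dM I b :=
  funext fun x => Dr59.dM_sub Dr59.ne0 (h.sm x) (h'.sm x)
theorem Fo.d_smul (r : ℝ) (h : Fo I k a) : dM I (r • a) = r • dM I a :=
  funext fun x => Dr59.dM_smul Dr59.ne0 r (h.sm x)
theorem Fo.d_fsmul (hg : Sm I g) (h : Fo I k a) : dM I (g • a) = df I g * a + g • dM I a :=
  funext fun x => Dr59.dM_fsmul Dr59.ne0 ((hg x).mdifferentiableAt (by simp)) (h.sm x)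
theorem d_df (hg : Sm I g) : dM I (df I g) = 0 := funext fun x => Dr59.dM_df (hg x)
theorem Fo.d_mul (h : Fo I k a) (h' : Fo I l b) :
    dM I (a * b) = dM I a * b + (-1 : ℝ) ^ k • (a * dM I b) := funext fun x => by
  rw [Dr59.dM_mul Dr59.ne0 (h.sm x) (h'.sm x), Dr59.inv_of_deg (h.dg x), smul_mul_assoc]; rfl
theorem Fo.of_cl (h : Dr59.Cl I k Set.univ a) : Fo I k a :=
  ⟨fun x => h.sm x trivial, fun x => h.dg x trivial⟩
theorem Fo.cl (h : Fo I k a) (h' : dM I a = 0) : Dr59.Cl I k Set.univ a :=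
  ⟨fun x _ => h.sm x, fun x _ => h.dg x, fun x _ => congrFun h' x⟩
theorem Fo.comm2 (h : Fo I 2 a) (b : M → Ext E) : a * b = b * a := funext fun x =>
  ext_ev (by rw [Dr59.inv_of_deg (h.dg x)]; simp) _

end fo

variable (F : Fr I M ι)

/-- the components of a one-form -/
def c1 (a : M → Ext E) (x : M) : V1 ι := WithLp.toLp 2 fun i => k1 F a i x
/-- the components of a two-form -/
def c2 (w : M → Ext E) (x : M) : V2 ι := WithLp.toLp 2 fun s => k2 F w s.1 s.2 x
/-- the one-form with given components -/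
def g1 (u : M → V1 ι) : M → Ext E := fm1 F fun a x => u x a
/-- the two-form with given components -/
def g2 (u : M → V2 ι) : M → Ext E := fm2 F fun a b x => u x (a, b)

/-- symbol of `d` -/
def dσ (a : ι) (x : M) : V1 ι →L[ℝ] V2 ι := wd2 ℝ (fun a b => F.P a b x) a
/-- zero order part of `d` -/
def dB (x : M) : V1 ι →L[ℝ] V2 ι := Map77.tp fun s => -∑ k, F.c s.1 s.2 k x • pj ℝ k
/-- `d` in components -/
def dd (u : M → V1 ι) : M → V2 ι := F.op (dσ F) (dB F) u

variable {F} {a b w w' : M → Ext E} {g : M → ℝ}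

theorem sm_toLp {α : Type} [Fintype α] {f : α → M → ℝ} (hf : ∀ a, Sm I (f a)) :
    Sm I fun x => (WithLp.toLp 2 fun a => f a x : Fm α ℝ) :=
  (PiLp.continuousLinearEquiv 2 ℝ fun _ : α => ℝ).symm.contDiff.contMDiff.comp
    (contMDiff_pi_space.2 hf)

theorem sm_ap {α : Type} [Fintype α] {u : M → Fm α ℝ} (hu : Sm I u) (a : α) :
    Sm I fun x => u x a := (pj ℝ a).contMDiff.comp hu

theorem sm_c1 (h : ∀ x, SmAt I a x) : Sm I (c1 F a) := sm_toLp fun i x => sa_k1 F (h x) i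
theorem sm_c2 (h : ∀ x, SmAt I w x) : Sm I (c2 F w) := sm_toLp fun s x => sa_k2 F (h x) s.1 s.2
theorem fo_g1 {u : M → V1 ι} (hu : Sm I u) : Fo I 1 (g1 F u) :=
  ⟨fun x => smAt_fm1 F fun a => sm_ap hu a x, deg_fm1 F _⟩
theorem fo_g2 {u : M → V2 ι} (hu : Sm I u) : Fo I 2 (g2 F u) :=
  ⟨fun x => smAt_fm2 F fun a b => sm_ap hu (a, b) x, deg_fm2 F _⟩
theorem g1_c1 (h : ∀ x, IsDeg 1 (a x)) : g1 F (c1 F a) = a := funext fun x => fm1_k1 F (h x)
theorem g2_c2 (h : ∀ x, IsDeg 2 (w x)) : g2 F (c2 F w) = w := funext fun x => fm2_k2 F (h x)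
theorem c1_g1 (u : M → V1 ι) (x : M) : c1 F (g1 F u) x = hp F x (u x) :=
  fm_ext fun a => (k1_fm1 F _ a x).trans (p1_apply (P := fun a b => F.P a b x) (u x) a).symm
theorem hp_c1 (a : M → Ext E) (x : M) : hp F x (c1 F a x) = c1 F a x :=
  fm_ext fun i => (p1_apply _ i).trans (k1_P F a i x)
theorem c2_g2 {u : M → V2 ι} {x : M} (h1 : ∀ a b, u x (b, a) = -u x (a, b))
    (h2 : ∀ a b, ∑ k, F.P a k x * u x (k, b) = u x (a, b)) : c2 F (g2 F u) x = u x :=
  fm_ext fun s => k2_fm2 F (β := fun a b x => u x (a, b)) h1 h2 s.1 s.2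

theorem c1_add (a b : M → Ext E) : c1 F (a + b) = c1 F a + c1 F b :=
  funext fun _ => fm_ext fun _ => e1_add _ _ _
theorem c1_sub (a b : M → Ext E) : c1 F (a - b) = c1 F a - c1 F b :=
  funext fun _ => fm_ext fun _ => e1_sub _ _ _
theorem c1_smul (r : ℝ) (a : M → Ext E) : c1 F (r • a) = r • c1 F a :=
  funext fun _ => fm_ext fun _ => e1_smul _ _ _
theorem c1_fsmul (g : M → ℝ) (a : M → Ext E) : c1 F (g • a) = fun x => g x • c1 F a x :=
  funext fun _ => fm_ext fun _ => e1_smul _ _ _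
theorem c2_add (a b : M → Ext E) : c2 F (a + b) = c2 F a + c2 F b :=
  funext fun _ => fm_ext fun _ => e2_add _ _ _ _
theorem c2_sub (a b : M → Ext E) : c2 F (a - b) = c2 F a - c2 F b :=
  funext fun _ => fm_ext fun _ => e2_sub _ _ _ _
theorem c2_neg (a : M → Ext E) : c2 F (-a) = -c2 F a :=
  funext fun _ => fm_ext fun _ => e2_neg _ _ _
theorem c2_smul (r : ℝ) (a : M → Ext E) : c2 F (r • a) = r • c2 F a :=
  funext fun _ => fm_ext fun _ => e2_smul _ _ _ _
theorem c2_fsmul (g : M → ℝ) (a : M → Ext E) : c2 F (g • a) = fun x => g x • c2 F a x :=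
  funext fun _ => fm_ext fun _ => e2_smul _ _ _ _
theorem c1_of_zero {x : M} (h : a x = 0) : c1 F a x = 0 :=
  fm_ext fun i => by simp [c1, k1, h, e1]
theorem c2_of_zero {x : M} (h : w x = 0) : c2 F w x = 0 :=
  fm_ext fun s => by simp [c2, k2, h, e2_zero]
theorem c2_zero : c2 F (0 : M → Ext E) = 0 := funext fun _ => c2_of_zero rfl
theorem c1_zero : c1 F (0 : M → Ext E) = 0 := funext fun _ => c1_of_zero rfl
theorem hcs_c1 (h : HasCompactSupport a) : HasCompactSupport (c1 F a) :=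
  h.mono fun _ hx e => hx (c1_of_zero e)
theorem hcs_c2 (h : HasCompactSupport w) : HasCompactSupport (c2 F w) :=
  h.mono fun _ hx e => hx (c2_of_zero e)
theorem g1_of_zero {u : M → V1 ι} {x : M} (h : u x = 0) : g1 F u x = 0 := by
  simp [g1, fm1_apply, h]
theorem g2_of_zero {u : M → V2 ι} {x : M} (h : u x = 0) : g2 F u x = 0 := by
  simp [g2, fm2_apply, h]
theorem hcs_g1 {u : M → V1 ι} (h : HasCompactSupport u) : HasCompactSupport (g1 F u) :=
  h.mono fun _ hx e => hx (g1_of_zero e)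
theorem hcs_g2 {u : M → V2 ι} (h : HasCompactSupport u) : HasCompactSupport (g2 F u) :=
  h.mono fun _ hx e => hx (g2_of_zero e)
theorem eq_zero_of_c2 {x : M} (hd : IsDeg 2 (w x)) (h : c2 F w x = 0) : w x = 0 := by
  rw [← g2_of_zero (F := F) h]; exact (fm2_k2 F hd).symm
theorem eq_zero_of_c1 {x : M} (hd : IsDeg 1 (a x)) (h : c1 F a x = 0) : a x = 0 := by
  rw [← g1_of_zero (F := F) h]; exact (fm1_k1 F hd).symm
theorem c1_df (g : M → ℝ) (x : M) (i : ι) : c1 F (df I g) x i = F.D i g x :=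
  congrFun (k1_df F g i) x

theorem dd_apply {u : M → V1 ι} (hu : Sm I u) (x : M) (s : ι × ι) : dd F u x s =
    F.D s.1 (fun y => u y s.2) x - F.D s.2 (fun y => u y s.1) x
      - ∑ k, F.c s.1 s.2 k x * u x k := by
  simp only [dd, Pre.op, dσ, dB, PiLp.add_apply, WithLp.ofLp_sum, Finset.sum_apply, wd2_apply,
    Map77.tp_apply, _root_.neg_apply, _root_.sum_apply, _root_.smul_apply, pj_apply, D_comp hu,
    sum_sub_distrib, P_D, smul_eq_mul (F.c _ _ _ _)]
  rfl

theorem dd_c1 (h : Fo I 1 a) : dd F (c1 F a) = c2 F (dM I a) := funext fun x => fm_ext fun s =>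
  (dd_apply (sm_c1 h.sm) x s).trans (k2_dM F (h.sm x) (.of_forall h.dg) s.1 s.2).symm

theorem c2_dM_g1 {u : M → V1 ι} (hu : Sm I u) (h : ∀ x, hp F x (u x) = u x) :
    c2 F (dM I (g1 F u)) = dd F u := by
  rw [← dd_c1 (fo_g1 hu), show c1 F (g1 F u) = u from funext fun x => (c1_g1 u x).trans (h x)]

/-- the wedge product of two one-forms -/
theorem c2_mul {x : M} (ha : IsDeg 1 (a x)) (s : ι × ι) :
    c2 F (a * b) x s = c1 F a x s.1 * c1 F b x s.2 - c1 F a x s.2 * c1 F b x s.1 := by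
  have h : ∀ i, ∑ k, e1 (a x) (ee F x k) * tl F x k (ee F x i) = e1 (a x) (ee F x i) := fun i => by
    rw [← (cf F x).p1 (a x) i]
    exact sum_congr rfl fun k _ => by rw [(cf F x).te, (cf F x).symm, mul_comm]
  change e2 (a x * b x) _ _ = e1 (a x) _ * e1 (b x) _ - e1 (a x) _ * e1 (b x) _
  rw [← h s.1, ← h s.2]
  conv_lhs => rw [(cf F x).eq1 ha]
  simp only [sum_mul, smul_mul_assoc, e2_sum, e2_smul, e2_io_mul, mul_sub, sum_sub_distrib,
    mul_assoc]

theorem norm_c2_mul {x : M} (ha : IsDeg 1 (a x)) :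
    ‖c2 F (a * b) x‖ ≤ 2 * (‖c1 F a x‖ * ‖c1 F b x‖) := by
  refine abs_le_of_sq_le_sq' ?_ (by positivity) |>.2
  have e : ∀ u : V1 ι, ‖u‖ ^ 2 = ∑ i, u i ^ 2 := fun u => by
    rw [PiLp.norm_sq_eq_of_L2]; simp
  rw [PiLp.norm_sq_eq_of_L2, Fintype.sum_prod_type, mul_pow, mul_pow, e, e, sum_mul_sum]
  have h2 : ∑ i, ∑ j, c1 F a x j ^ 2 * c1 F b x i ^ 2 = ∑ i, ∑ j, c1 F a x i ^ 2 * c1 F b x j ^ 2 :=
    sum_comm
  have : ∑ i, ∑ j, ‖c2 F (a * b) x (i, j)‖ ^ 2 ≤ ∑ i, ∑ j,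
      (2 * (c1 F a x i ^ 2 * c1 F b x j ^ 2) + 2 * (c1 F a x j ^ 2 * c1 F b x i ^ 2)) :=
    sum_le_sum fun i _ => sum_le_sum fun j _ => by
      rw [c2_mul ha, Real.norm_eq_abs, sq_abs]
      nlinarith [sq_nonneg (c1 F a x i * c1 F b x j + c1 F a x j * c1 F b x i)]
  simp only [sum_add_distrib, ← mul_sum _ _ (2 : ℝ), h2] at this
  linarith

section cb
variable [T2Space M] {C : ℕ → ℝ} (hF : F.Tame C)
include hF

theorem cbP (a b : ι) : (cb (fun _ : Unit => F.toPre) Set.univ).mem fun _ => F.P a b :=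
  fun _ _ => ⟨C, hF.P a b⟩

theorem cb_hp : F.Cb (hp F) :=
  Cls.idx (K := cb (fun _ : Unit => F.toPre) Set.univ) (cbP hF) (Cls.const _ _) () trivial

theorem cb_dσ (a : ι) : F.Cb (dσ F a) :=
  Cls.tp (K := cb (fun _ : Unit => F.toPre) Set.univ) (fun _ =>
    Cls.sub (Cls.smul (cbP hF _ _) (Cls.const _ _)) (Cls.smul (cbP hF _ _) (Cls.const _ _)))
    () trivial

theorem cb_dB : F.Cb (dB F) := by
  let K := cb (fun _ : Unit => F.toPre) Set.univ
  have hc : ∀ a b k, K.mem fun _ => F.c a b k := fun a b k _ _ => ⟨C, hF.c a b k⟩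
  have h1 : ∀ s : ι × ι, K.mem fun _ x => -∑ k, F.c s.1 s.2 k x • (pj ℝ k : V1 ι →L[ℝ] ℝ) :=
    fun s => Cls.neg (Cls.sum fun k => Cls.smul (hc s.1 s.2 k) (K.const _))
  exact Cls.tp h1 () trivial

end cb

/-! ### four dimensions -/

variable {o : ι → ι → ι → ι → M → ℝ}

variable (o) in
/-- the Hodge star on two-forms -/
def st (x : M) : V2 ι →L[ℝ] V2 ι :=
  idx (fun s t : ι × ι => o s.1 s.2 t.1 t.2 x / 2) (ContinuousLinearMap.id ℝ ℝ)

/-- the opposite orientation -/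
abbrev ng (o : ι → ι → ι → ι → M → ℝ) : ι → ι → ι → ι → M → ℝ := fun a b c d x => -o a b c d x

theorem vo (h : OK F o) (x : M) : Vo (fun a b => F.P a b x) fun a b c d => o a b c d x :=
  ⟨fun a b c d => (h.vo x).a1 b a c d, fun a b c d => (h.vo x).a2 a c b d,
    fun a b c d => (h.vo x).a3 a b d c, (h.vo x).po, (h.vo x).nm⟩

theorem ori (h : OK F o) : Ori I (vol F o) := ori_vol F h.h4 h.sm (vo h)

theorem unitV (h : OK F o) : UnitV F.e (vol F o) := unitV_of_oc h.h4 fun x => by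
  rw [← (h.vo x).nm]
  refine sum_congr rfl fun a _ => sum_congr rfl fun b _ => sum_congr rfl fun c _ =>
    sum_congr rfl fun d _ => ?_
  rw [← e4_vol F (vo h x) a b c d, e4]
  congr 2

theorem rat_mul (h : OK F o) {x : M} (hw : IsDeg 2 (w x)) :
    rat (vol F o) (w * w') x = 1 / 2 * ⟪c2 F w x, st o x (c2 F w' x)⟫_ℝ := by
  rw [rat_vol_mul F h.h4 (vo h x) hw, inner_fm]
  simp only [st, idx_apply, Fintype.sum_prod_type, ContinuousLinearMap.id_apply, smul_eq_mul,
    RCLike.inner_apply, conj_trivial, mul_sum, sum_mul, c2]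
  refine sum_congr rfl fun a _ => sum_congr rfl fun b _ => sum_congr rfl fun c _ =>
    sum_congr rfl fun d _ => by ring

/-- the integral of the wedge product -/
theorem integ_mul (h : OK F o) (hw : ∀ x, IsDeg 2 (w x)) (w' : M → Ext E) :
    integ I (vol F o) (w * w') = 1 / 2 * ∫ x, ⟪c2 F w x, st o x (c2 F w' x)⟫_ℝ ∂F.μ := by
  rw [(unitV h).integ_eq h.isv, ← integral_const_mul]
  exact integral_congr_ae (.of_forall fun x => rat_mul h (hw x))

theorem hs_sub (x : M) (v : V2 ι) : hs F o x v - hs F (ng o) x v = st o x v := fm_ext fun s => by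
  simp only [hs, sd, st, PiLp.sub_apply, idx_apply, ← sum_sub_distrib, ← sub_smul, sdm]
  exact sum_congr rfl fun t _ => by congr 1; ring

theorem hs_add (w : M → Ext E) (x : M) :
    hs F o x (c2 F w x) + hs F (ng o) x (c2 F w x) = c2 F w x := fm_ext fun s => by
  have e : ∀ a b, ∑ c, ∑ d, F.P a c x * F.P b d x * k2 F w c d x = k2 F w a b x := fun a b => by
    rw [← k2_P F w a b x]
    refine sum_congr rfl fun c _ => ?_
    rw [k2_swap F w b c, ← k2_P F w b c x, ← sum_neg_distrib, mul_sum]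
    exact sum_congr rfl fun d _ => by rw [k2_swap F w d c]; ring
  have e2 := e s.2 s.1
  rw [k2_swap F w s.1 s.2] at e2
  have e3 : ∑ c, ∑ d, ((F.P s.1 c x * F.P s.2 d x - F.P s.1 d x * F.P s.2 c x) / 2) *
      k2 F w c d x = (∑ c, ∑ d, F.P s.1 c x * F.P s.2 d x * k2 F w c d x -
        ∑ c, ∑ d, F.P s.2 c x * F.P s.1 d x * k2 F w c d x) / 2 := by
    simp only [← sum_sub_distrib, sum_div]
    exact sum_congr rfl fun c _ => sum_congr rfl fun d _ => by ring
  rw [e, e2] at e3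
  refine Eq.trans ?_ (e3.trans (by simp [c2]))
  simp only [hs, sd, PiLp.add_apply, idx_apply, ← sum_add_distrib, sdm, Fintype.sum_prod_type,
    ContinuousLinearMap.id_apply, smul_eq_mul, c2]
  exact sum_congr rfl fun c _ => sum_congr rfl fun d _ => by ring

theorem SD.neg_zero (h : OK F o) {x : M} {v : V2 ι}
    (hv : SD (fun a b => F.P a b x) (fun a b c d => o a b c d x) v) : hs F (ng o) x v = 0 := by
  have h1 : st o x v = v := fm_ext fun s => by
    have := hv.st s.1 s.2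
    simp only [st, idx_apply, Fintype.sum_prod_type, ContinuousLinearMap.id_apply, smul_eq_mul]
      at this ⊢
    rw [← mul_right_inj' (two_ne_zero (α := ℝ)), ← this]
    simp only [mul_sum]
    exact sum_congr rfl fun c _ => sum_congr rfl fun d _ => by ring
  have h2 := hs_sub (F := F) (o := o) x v
  rwa [h1, show hs F o x v = v from sd_fix hv, sub_eq_self] at h2

theorem hs_hs (h : OK F o) (x : M) (v : V2 ι) : hs F (ng o) x (hs F o x v) = 0 :=
  SD.neg_zero h (sd_SD (h.vo x) v)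

theorem hs_symm (h : OK F o) (x : M) (v v' : V2 ι) : ⟪hs F o x v, v'⟫_ℝ = ⟪v, hs F o x v'⟫_ℝ :=
  sd_symm (h.vo x) v v'

theorem hs_idem (h : OK F o) (x : M) (v : V2 ι) : hs F o x (hs F o x v) = hs F o x v :=
  sd_idem (h.vo x) v

theorem inner_hs (h : OK F o) (x : M) (v : V2 ι) : ⟪v, hs F o x v⟫_ℝ = ‖hs F o x v‖ ^ 2 := by
  rw [← real_inner_self_eq_norm_sq, hs_symm h, hs_idem h]

theorem norm_hs_le (h : OK F o) (x : M) (v : V2 ι) : ‖hs F o x v‖ ≤ ‖v‖ := by
  have h1 := (inner_hs h x v).symm.trans_le (real_inner_le_norm _ _)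
  rcases (norm_nonneg (hs F o x v)).eq_or_lt with e | e
  · rw [← e]; exact norm_nonneg _
  · nlinarith

theorem inner_st (h : OK F o) (x : M) (v : V2 ι) :
    ⟪v, st o x v⟫_ℝ = ‖hs F o x v‖ ^ 2 - ‖hs F (ng o) x v‖ ^ 2 := by
  rw [← hs_sub (F := F), inner_sub_right, inner_hs h, inner_hs h.neg]

theorem norm_c2_sq (h : OK F o) (w : M → Ext E) (x : M) :
    ‖c2 F w x‖ ^ 2 = ‖hs F o x (c2 F w x)‖ ^ 2 + ‖hs F (ng o) x (c2 F w x)‖ ^ 2 := by
  rw [← inner_hs h, ← inner_hs h.neg, ← inner_add_right, hs_add, real_inner_self_eq_norm_sq]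

theorem st_symm (h : OK F o) (x : M) (v v' : V2 ι) : ⟪st o x v, v'⟫_ℝ = ⟪v, st o x v'⟫_ℝ := by
  rw [← hs_sub (F := F), ← hs_sub (F := F), inner_sub_left, inner_sub_right, hs_symm h,
    hs_symm h.neg]

theorem st_hs (h : OK F o) (x : M) (v : V2 ι) : st o x (hs F o x v) = hs F o x v := by
  rw [← hs_sub (F := F), hs_idem h, hs_hs h, sub_zero]

theorem norm_st_le (h : OK F o) (x : M) (v : V2 ι) : ‖st o x v‖ ≤ 2 * ‖v‖ := by
  rw [← hs_sub (F := F)]
  linarith [norm_sub_le (hs F o x v) (hs F (ng o) x v), norm_hs_le h x v, norm_hs_le h.neg x v]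

/-- a self-dual field is the field of components of a two-form -/
theorem c2_g2_hs (h : OK F o) {u : M → V2 ι} {x : M} (hu : hs F o x (u x) = u x) :
    c2 F (g2 F u) x = u x := by
  have := sd_SD (h.vo x) (u x)
  rw [show sd _ _ (u x) = u x from hu] at this
  exact c2_g2 (fun a b => this.anti b a) fun a b => this.pr a b

end Crest.Agent.X212.Qab60
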