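import Crest.Agent.X212.Qab60.L2
import Crest.Agent.X212.Num57.Hs

/-! X212 / QAB (helper60): regularity of weakly closed square integrable two-forms; cut-offs. -/

set_option autoImplicit false
set_option linter.unusedSectionVars false
noncomputable section
open scoped Manifold ContDiff Topology InnerProductSpace
open MeasureTheory Finset Function Filter
open Crest.Agent.R208.F (Ext io)
open Crest.Agent.R208.FI (IsDeg)

namespace Crest.Agent.X212.Qab60
open An Sob92 Map77 Num57 Int54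
open Ell97 (adjH good_adj reg_up smooth_of_all)
open Dr59 (SmAt dM df CAt)
open Wz78 (SA)

variable {E : Type} [NormedAddCommGroup E] [NormedSpace ℝ E] [FiniteDimensional ℝ E]
  [MeasurableSpace E] [BorelSpace E]
  {HM : Type} [TopologicalSpace HM] {I : ModelWithCorners ℝ E HM} [I.Boundaryless]
  {M : Type} [TopologicalSpace M] [ChartedSpace HM M] [IsManifold I ∞ M] [T2Space M]
  [MeasurableSpace M] [BorelSpace M] [SecondCountableTopology M] {ι : Type} [Fintype ι]
  {F : Fr I M ι} {o : ι → ι → ι → ι → M → ℝ} {u v : HK F 0} {w w' a b : M → Ext E} {j k : ℕ}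

variable (F o) in
/-- self-dual part, as a section of the target of `hop` -/
def up (k : ℕ) : HK F k →L[ℝ] F.H k (hop F o).q :=
  F.mulH k _ _ fun x => i2 ℝ (V2 ι) ∘L hs F o x

variable (F o) in
/-- the form component -/
def dw (k : ℕ) : F.H k (hop F o).q →L[ℝ] HK F k := F.mulH k _ _ fun _ => s2 ℝ (V2 ι)

theorem hcs_dM (hc : HasCompactSupport a) : HasCompactSupport (dM I a) := hc.mono' fun x hx => by
  by_contra k
  have : dM I a x = dM I 0 x := Dr59.dM_congr (notMem_tsupport_iff_eventuallyEq.1 k)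
  rw [Dr59.dM_zero] at this
  exact hx this

theorem hcs_df {g : M → ℝ} (hc : HasCompactSupport g) : HasCompactSupport (df I g) :=
  hc.mono' fun x hx => by
    by_contra k
    exact hx (Dr59.df_eq_zero (notMem_tsupport_iff_eventuallyEq.1 k))

namespace Tam
variable (h : Tam F o)
include h

theorem cb_up : F.Cb fun x => i2 ℝ (V2 ι) ∘L hs F o x :=
  Cls.comp (K := cb (fun _ : Unit => F.toPre) Set.univ) (Cls.const _ _) (g := fun _ => hs F o)
    (fun _ _ => h.cb_hs) () trivial

theorem maps_up : Maps (triv M (V2 ι)) (hop F o).q fun x => i2 ℝ (V2 ι) ∘L hs F o x :=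
  Maps.of_left fun x v => ext2 (by simp [hop]) (by simp [hop, hs_idem h.ok])

theorem dw_up (x : HK F k) : dw F o k (up F o k x) = PH F o k x :=
  (((is_self x).mulH h.cb_up h.maps_up).mulH (Cb_const _) (Maps.triv _)).unique (h.is_PH (is_self x))

theorem inner_up (x : F.H 1 (hp F)) (u : HK F 0) :
    ⟪(hop F o).H F 0 x, up F o 0 u⟫_ℝ = ⟪dH F 0 x, PH F o 0 u⟫_ℝ := by
  obtain ⟨C, hC, hA⟩ := h.good
  induction x using H_ind with
  | hP => exact isClosed_eq (by fun_prop) (by fun_prop)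
  | h φ =>
    refine (congrArg (⟪·, up F o 0 u⟫_ℝ) (RepT_toH (rep_OpH hA 0).1 φ)).trans
      ((is_inner (Is.toH _) ((is_self u).mulH h.cb_up h.maps_up)).trans ?_)
    rw [RepT_toH (rep_dH hC 0), is_inner (Is.toH _) (h.is_PH (is_self u))]
    refine integral_congr_ae (.of_forall fun y => ?_)
    simp only [inner2, hs_dd h.ok φ.2.1, ContinuousLinearMap.comp_apply, f2_i2, s2_i2,
      inner_zero_right, zero_add, hs_symm h.ok, hs_idem h.ok]

/-- **regularity**: the anti-self-dual part is as regular as the self-dual part -/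
theorem reg (hu : WC F o u) (hl : Lv F j (PH F o 0 u)) : Lv F j (PH F (ng o) 0 u) := by
  cases j with
  | zero => exact Lv.zero _
  | succ j =>
    obtain ⟨C, hC, hA⟩ := h.good
    obtain ⟨C', hC', hB⟩ := h.neg.good
    obtain ⟨_, hA'⟩ := good_adj hC hA
    obtain ⟨_, hB'⟩ := good_adj hC' hB
    obtain ⟨x, hx⟩ := hl
    let y := up F o (j + 1) x
    let g : F.H j (hp F) := Ell97.Hs F (hop F o) j y
    obtain ⟨z, h1, h2⟩ := Cyf70.weak_reg (Ell97.par hC' hB h.neg.ok.cliff)
      (y := up F (ng o) 0 u) (g := F.incl j 0 _ g) fun φ => by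
        have e1 := h.neg.inner_up φ u
        have e2 := h.inner_up φ (PH F o 0 u)
        have e3 := adjH hC hA φ (F.incl (j + 1) 1 _ y)
        have e4 : F.incl j 0 (hp F) g = _ := incl_OpH hA' j.zero_le y
        have e5 := hu φ
        rw [incl_incl (by omega) zero_le_one, show F.incl (j + 1) 0 _ y = _ from
          incl_mulH h.cb_up h.maps_up (by omega) x, hx] at e3
        rw [h.PH_PH] at e2
        rw [Bw, sub_eq_zero] at e5
        exact e1.trans (e5.symm.trans (e2.symm.trans (e3.trans (congrArg _ e4.symm))))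
    obtain ⟨z', h3, -⟩ := reg_up hC' hB' h.neg.ok.cliff.2 j.zero_le (x := z) (w := g) h2
    refine ⟨dw F (ng o) (j + 1) z', ?_⟩
    have h4 : F.incl (j + 1) 0 (hop F (ng o)).q z' = up F (ng o) 0 u :=
      (incl_incl (j := 1) (by omega) zero_le_one z').symm.trans ((congrArg _ h3).trans h1)
    rw [← h.neg.dw_up, ← h4]
    exact incl_mulH (Cb_const _) (Maps.triv _) (by omega) z'

theorem reg' (hf : Frm F o u) (hu : WC F o u) (hl : Lv F j (PH F o 0 u)) : Lv F j u :=
  hf ▸ hl.add (h.reg hu hl)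

/-- a three-form orthogonal to all one-forms with compact support vanishes -/
theorem three (hb : Fo I 3 b)
    (h0 : ∀ a, Fo I 1 a → HasCompactSupport a → integ I (vol F o) (a * b) = 0) : b = 0 := by
  obtain ⟨C, hC⟩ := h.tm
  have k := h.ok
  have := openPos F.toPre
  let w : ι → M → ℝ := fun a x =>
    ∑ c, ∑ d, ∑ e, o a c d e x * e3 (b x) (ee F x c) (ee F x d) (ee F x e)
  have hw : ∀ a, Sm I (w a) := fun a x => SA.sum _ fun c _ => SA.sum _ fun d _ =>
    SA.sum _ fun e _ => SA.mul (k.sm a c d e x)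
      ((sa_k2 F (cAt_ic le_rfl (F.sm c x) (hb.sm x)) d e).congr_of_eventuallyEq
        (.of_forall fun y => e3_eq _ _ _ _))
  have h2 : ∀ x, rat (vol F o) (fm1 F w * b) x = 1 / 6 * ∑ a, w a x * w a x := fun x => by
    rw [rat_vol F k.h4 (k.vo' x), Pi.mul_apply, (k.vo' x).ph_mul1 (cf F x) (deg_fm1 F w x)]
    congr 1
    refine sum_congr rfl fun a _ => ?_
    have : e1 (fm1 F w x) (ee F x a) = w a x := (k1_fm1 F w a x).trans (by
      simp only [w, ← (k.vo x).po a, mul_sum, sum_mul]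
      rw [sum_comm]
      refine sum_congr rfl fun c _ => ?_
      rw [sum_comm]
      refine sum_congr rfl fun d _ => ?_
      rw [sum_comm]
      exact sum_congr rfl fun e _ => sum_congr rfl fun k _ => by ring)
    simp only [this, mul_left_comm (o _ _ _ _ x), ← mul_sum]
    rfl
  funext x
  obtain ⟨χ, hχ, hc, h01, h1⟩ := hC.exh {x} isCompact_singleton
  have hf : Fo I 1 (fm1 F w) := ⟨fun x => smAt_fm1 F fun a => hw a x, deg_fm1 F w⟩
  have h3 := h0 _ (hf.fsmul hχ.1) hc.smul_right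
  have hs : Sm I fun x => ∑ a, w a x * w a x := fun x => SA.sum _ fun a _ => SA.mul (hw a x) (hw a x)
  rw [k.integ_eq, smul_mul_assoc, rat_fsmul] at h3
  simp only [Pi.mul_apply, h2, mul_left_comm (χ _), integral_const_mul, mul_eq_zero] at h3
  have h4 := (integral_eq_zero_iff_of_nonneg (fun x => mul_nonneg (h01 x).1
    (sum_nonneg fun _ _ => mul_self_nonneg _)) (Wz78.integ (hχ.1.mul hs) hc.mul_right)).1
    (h3.resolve_left (by norm_num))
  have h5 := congrFun (((hχ.1.mul hs).continuous.ae_eq_iff_eq F.μ continuous_zero).1 h4) x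
  simp only [Pi.mul_apply, h1 x rfl, one_mul, Pi.zero_apply] at h5
  exact (cf F x).zero3 (hb.dg x) (three_zero (k.vo x) (fun _ _ _ => e3_swap1 _ _ _ _)
    (fun _ _ _ => e3_swap2 _ _ _ _) (fun a c d => by simp only [e3_eq, (cf F x).p2'])
    fun a => mul_self_eq_zero.1
      ((sum_eq_zero_iff_of_nonneg fun _ _ => mul_self_nonneg _).1 h5 a (mem_univ a)))

/-- weakly closed smooth forms are closed -/
theorem closed (hu : WC F o u) (hi : Isf F u w) (hw : Fo I 2 w) : dM I w = 0 :=
  h.three hw.d fun a ha hc => by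
    let φ : Sec I (hp F) := ⟨c1 F a, sm_c1 ha.sm, hcs_c1 hc, hp_c1 a⟩
    have h0 := h.is_dH φ
    rw [show g1 F φ.1 = a from g1_c1 ha.dg] at h0
    have h1 := (h.Bw_eq h0 hi ha.d.dg).symm.trans (hu (F.toH 1 _ φ))
    have h2 := stokes_sm (ori h.ok) (ha.mul hw).sm hc.mul_right
    have c : ∀ {u : M → Ext E} {k : ℕ}, Fo I k u → HasCompactSupport u →
        IntOn I (vol F o) u Set.univ := fun hu hc =>
      (ori h.ok).intOn_of_hcs (fun x => (hu.sm x).of_le (by simp)) hc _
    have hd := hcs_dM (I := I) hc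
    rw [ha.d_mul hw, integ_add (c (ha.d.mul hw) hd.mul_right)
      (c ((ha.mul hw.d).smul _) (hc.mul_right.smul_left (f := fun _ => (-1 : ℝ) ^ 1))),
      integ_smul] at h2
    linarith

/-- a weakly closed form of all levels is a smooth closed form -/
theorem smooth (hf : Frm F o u) (hu : WC F o u) (hl : ∀ j, Lv F j u) :
    ∃ w, Fo I 2 w ∧ dM I w = 0 ∧ Isf F u w ∧ F.Cb (c2 F w) ∧ ∀ j, FL F.toPre j (c2 F w) := by
  obtain ⟨C, hC⟩ := h.tm
  have := openPos F.toPre
  obtain ⟨f, h1, h2, -, h3⟩ := smooth_of_all hC fun j _ => hl j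
  have sf := h1.choose_spec.1
  have s1 : Sm I fun x => hs F o x (f x) := h.cb_hs.choose_spec.1.clm_apply sf
  have s2 : Sm I fun x => hs F (ng o) x (f x) := h.neg.cb_hs.choose_spec.1.clm_apply sf
  have e : f = c2 F (g2 F (fun x => hs F o x (f x)) + g2 F fun x => hs F (ng o) x (f x)) := by
    have e : ∀ {o}, Tam F o → c2 F (g2 F fun x => hs F o x (f x)) = fun x => hs F o x (f x) :=
      fun h => funext fun x => c2_g2_hs h.ok (hs_idem h.ok x _)
    rw [c2_add, e h, e h.neg]
    refine (Continuous.ae_eq_iff_eq F.μ sf.continuous (s1.add s2).continuous).1 (h3.symm.trans ?_)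
    have := (h.is_PH h3).add (h.neg.is_PH h3)
    rwa [hf] at this
  have hw := (fo_g2 (F := F) s1).add (fo_g2 (F := F) s2)
  rw [e] at h1 h2 h3
  exact ⟨_, hw, h.closed hu h3 hw, h3, h1, h2⟩

/-- the wedge square of an exact form against a cut-off -/
theorem integ_cut {g : M → ℝ} (hg : Sm I g) (hc : HasCompactSupport g) (ha : Fo I 1 a)
    (hw : Fo I 2 w) (hd : dM I w = 0) :
    integ I (vol F o) (g • (dM I a * w)) = -integ I (vol F o) (df I g * (a * w)) := by
  have h2 := stokes_sm (ori h.ok) ((ha.mul hw).fsmul hg).sm hc.smul_right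
  have c : ∀ {u : M → Ext E} {k : ℕ}, Fo I k u → HasCompactSupport u →
      IntOn I (vol F o) u Set.univ := fun hu hc =>
    (ori h.ok).intOn_of_hcs (fun x => (hu.sm x).of_le (by simp)) hc _
  have h1 := hcs_df (I := I) hc
  rw [(ha.mul hw).d_fsmul hg, ha.d_mul hw, hd, mul_zero, smul_zero, add_zero,
    integ_add (c ((fo_df hg).mul (ha.mul hw)) h1.mul_right)
      (c ((ha.d.mul hw).fsmul hg) hc.smul_right)] at h2
  linarith

theorem tendsto_cut {Ω : Set M} {χ : ℕ → M → ℝ} (hχ : Kah60.Cut I Ω χ) (h01 : ∀ n x, |χ n x| ≤ 1)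
    (hb : IntOn I (vol F o) b Set.univ) (h0 : Off Ω b) :
    Tendsto (fun n => integ I (vol F o) (χ n • b)) atTop (𝓝 (integ I (vol F o) b)) := by
  simp only [integ, rat_fsmul, Pi.mul_apply]
  refine tendsto_integral_of_dominated_convergence (fun x => ‖rat (vol F o) b x‖)
    (fun n => (hχ.sm n).continuous.aestronglyMeasurable.mul hb.integrable.1) hb.integrable.norm
    (fun n => .of_forall fun x => ?_) (.of_forall fun x => ?_)
  · rw [norm_mul]
    exact mul_le_of_le_one_left (norm_nonneg _) (h01 n x)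
  · by_cases hx : x ∈ Ω
    · obtain ⟨O, hO, e⟩ := hχ.one x hx
      refine tendsto_const_nhds.congr' (e.mono fun n hn => ?_)
      simp only [hn x (mem_of_mem_nhds hO), one_mul]
    · simp [rat, h0 x hx]

/-- conformally long ends -/
theorem bd {Ω : Set M} (hΩ : IsClopen Ω) {χ : ℕ → M → ℝ} (hχ : Kah60.Cut I Ω χ)
    (h01 : ∀ n x, |χ n x| ≤ 1) {δ : ℕ → ℝ}
    (hδ : Tendsto δ atTop (𝓝 0)) (hl : ∀ n a, Fo I 1 a → Sq F (dM I a) →
      |integ I (vol F o) (df I (χ n) * (a * dM I a))| ≤ δ n * ∫ x, ‖c2 F (dM I a) x‖ ^ 2 ∂F.μ) :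
    BD F o Ω := fun a ha h0 hs => by
  refine tendsto_nhds_unique (h.tendsto_cut hχ h01 (h.intOn ha.d.dg hs hs) fun x hx => by
    rw [Pi.mul_apply, h0.d hΩ x hx, zero_mul]) ?_
  refine squeeze_zero_norm (fun n => ?_) 
    (by simpa using hδ.mul_const (∫ x, ‖c2 F (dM I a) x‖ ^ 2 ∂F.μ))
  rw [h.integ_cut (hχ.sm n) (hχ.hcs n) ha ha.d ha.dd, norm_neg]
  exact hl n a ha hs

end Tam

end Crest.Agent.X212.Qab60
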