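import Crest.Agent.X212.Qab60.Wf
import Crest.Agent.X212.Rf65.Ps
import Crest.Agent.X212.Clr59.Main
import Crest.Agent.X212.Hol14.Stk

/-! X212 / QAB (helper60): the interface of the abelian problem and the leaves of `Rf65.QStmt`. -/

set_option autoImplicit false
set_option linter.unusedSectionVars false
noncomputable section
open scoped Manifold ContDiff Topology InnerProductSpace Real
open MeasureTheory Set Function Filter
open Crest.Agent.R208.F (Ext)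

namespace Crest.Agent.X212.Qab60
open An Prm93 Num57 M Nd18 Rf65 G75 Ins26 Cyf70
open An.Job (Sol SolOn StrOn Str)
open Int54 (integ Ori)
open Dr59 (Cs dM pm)
open Abel74 (fm)
open Dfl49 (PI)
open Tmp64 (AdmOn Eq0)
open Hol14 (flux cH)
open Fin37 (Pm)
open Rdc90 (Bs)

section job
variable {Wi : Type} {X : Mf 4} {A κ lam : Type} [Fintype A] [Fintype κ] [Fintype lam]
  [DecidableEq lam] {M : Mark X A κ} {W : World M} {N : ML M lam} {Λ : Lns W N}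
  {A' h : Type} [Fintype A'] [DecidableEq A'] [Fintype h] {r n : ℕ}
  (J : Job Wi Λ A' h r n) (c : M.Cl) (R : A)

/-- configurations on `Z c` -/
abbrev Cg' (W : World M) (c : M.Cl) (lam : Type) [Fintype lam] (r : ℕ) : Type :=
  Cfg (W.Z c).M (Option κ) (lam ⊕ lam) r

/-- the inside of the wall -/
abbrev oI (W : World M) (c : M.Cl) (R : A) : Set (W.Z c).M := W.pc c (hp R false)

/-- the cuts inside the wall -/
def Inn (l : h) : Prop := J.nb l ⊆ M.sys.U (hp R false)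

section
variable (q : Wi →₀ ℝ) (s : A' → ℝ) (x : Cg' W c lam r)

/-- the row of the cut `l` -/
abbrev Row (l : h) (ψ : (J.cut c l).H (J.B c) x.m) : Prop :=
  (J.cut c l).Sol (J.B c) (J.G c s).F (J.σc c q s l) x ψ

/-- the kernel of the row is at most a complex line -/
def Line (l : h) : Prop := ∀ ψ ψ', Row J c q s x l ψ → Row J c q s x l ψ' →
  ∃ η : Circle, ψ' = cH x.m (J.B c) (J.cut c l) (csE x.m.J η) ψ

/-- the curvature form -/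
abbrev xf (ξ : (W.Z c).M → x.m.A) : (W.Z c).M → Ext (W.Z c).E := fm (J.G c s).F x.m x.W ξ

/-- abelian solutions of level `k` inside the wall -/
structure AI (k : ℝ) (ξ : (W.Z c).M → x.m.A) : Prop where
  pm : Pm J c s
  ab : Ab (J.B c) (J.G c s) (oI W c R) x ξ
  C : ∀ z ∈ oI W c R, x.eC (J.B c) (J.G c s) (J.τ c q s) z = 0
  int : IntegrableOn (x.m.kd (J.B c) (J.G c s).F x.W) (oI W c R) (J.G c s).F.μ
  lev : ∫ z in oI W c R, x.m.kd (J.B c) (J.G c s).F x.W z ∂(J.G c s).F.μ = k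

/-- the inner end -/
abbrev kI (ha : Act J.m c R (some false) (J.Θ s)) := J.K c R (some false) (J.Θ s) ha

/-- the self-dual part of the perturbed abelian equation -/
def aE (f : (W.Z c).M → Ext (W.Z c).E) (z : (W.Z c).M) : V2 (Option κ) :=
  hs (J.G c s).F (J.B c).o z (c2 (J.G c s).F f z) - aF c J q.support q s (c2 (J.G c s).F f) z

/-- self-dual test forms below the height `T` -/
structure Tst (ha : Act J.m c R (some false) (J.Θ s)) (T : ℝ) (g : (W.Z c).M → V2 (Option κ)) :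
    Prop where
  sm : Sm (W.Z c).I g
  sd : ∀ z, hs (J.G c s).F (J.B c).o z (g z) = g z
  off : ∀ z, g z ≠ 0 → z ∈ oI W c R ∧ (kI J c R s ha).tm z ≤ T

/-- **the abelian part inside is onto, on functions**: below every height `T` the equation
`aE (d a) = g` has a solution that decays at the rate `d` if `Λ g = 0`; `Λ = 0`, or `Λ` does not
kill the derivative of the equation along a free inner coordinate -/
def TAf (σ : Cel A') (d : ℝ) (ξ : (W.Z c).M → x.m.A) : Prop :=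
  ∀ ha : Act J.m c R (some false) (J.Θ s), ∀ T, ∃ Λ₀ : HK (J.G c s).F 0 →L[ℝ] ℝ,
    (∀ g u, Tst J c R s ha T g → Sob92.Is (J.G c s).F.toPre 0 _ u g → Λ₀ u = 0 →
      ∃ a T', Fo (W.Z c).I 1 a ∧ Off (oI W c R) a ∧
        (∀ z ∈ oI W c R, aE J c q s (dM (W.Z c).I a) z = g z) ∧ 0 ≤ T' ∧
        Dc (J.xs R).D.F T' d (c1 (J.xs R).D.Z
          (pm (IC (J.xs R).Y.I) (W.Z c).I (kI J c R s ha).ψ a))) ∧
    (Λ₀ = 0 ∨ ∃ i, σ i = none ∧ (∃ e ∈ M.sys.inn (hp R false), J.hd i = some e) ∧ s i ∈ Ioo (0 : ℝ) 1 ∧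
      ∃ (u : ℝ → HK (J.G c s).F 0) (u' : HK (J.G c s).F 0), HasDerivAt u u' (s i) ∧ Λ₀ u' ≠ 0 ∧
        ∀ᶠ t in 𝓝 (s i), Sob92.Is (J.G c s).F.toPre 0 _ (u t)
          ((oI W c R).indicator (aE J c q (update s i t) (xf J c s x ξ))))

end

/-- the data of the abelian problem: classes `𝒩` (given by the periods `v`), the good class `g`,
the holonomy `H` -/
structure HD : Type 1 where
  θ : (J.xs R).Y.M → Circle
  hl : YC (J.xs R).Y.M κ (lam ⊕ lam) → ℝ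
  ν : Type
  [fν : Fintype ν]
  ε : ν → (W.Z c).M → Ext (W.Z c).E
  𝒩 : Type
  [f𝒩 : Finite 𝒩]
  v : 𝒩 → ν → ℝ
  g : 𝒩
  H : 𝒩 → (Wi →₀ ℝ) → (A' → ℝ) → ℝ
  d : ℝ

attribute [instance] HD.fν HD.f𝒩

variable {J c R} (P : HD J c R)

/-- the class of an abelian point -/
def HD.Cl (s : A' → ℝ) (x : Cg' W c lam r) (ξ : (W.Z c).M → x.m.A) (m : P.𝒩) : Prop :=
  ∀ j, integ (W.Z c).I (W.o c) (xf J c s x ξ * P.ε j) = P.v m j

/-- the points of the cell over `Z c` -/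
abbrev Ovc (J : Job Wi Λ A' h r n) (c : M.Cl) (σ : Cel A') (s : A' → ℝ) : Prop :=
  σ ∈ J.𝒦 ∧ s ∈ Job.cl σ ∧ Sys.inf (J.Θ s).2 = c.1

/-- **the interface**; `e b` are the coordinates of the pinch walls, `k` is the level -/
structure HD.OK (Adm : (Wi →₀ ℝ) → Prop) (e : Bool → A') (k : ℝ) : Prop where
  clr : Clr59.Clr (J.xs R).D P.θ P.hl
  cl : IsClopen (oI W c R)
  sc : SC (oI W c R)
  cs : ∀ j, Cs (W.Z c).I 2 (oI W c R) (P.ε j)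
  d0 : 0 < P.d
  line : ∀ σ s b, Ovc J c σ s → σ (e b) = none → ∀ t ∈ Ico (0 : ℝ) 1, Ovc J c σ (update s (e b) t)
  cls : ∀ q s x ξ, Adm q → AI J c R q s x k ξ → ∃ m, P.Cl s x ξ m
  lim : ∀ q s x ξ m, Adm q → AI J c R q s x k ξ → P.Cl s x ξ m → ∀ ha β ζ, Bs (J.xs R).D β →
    ((kI J c R s ha).Lim x β ζ atTop ↔
      Real.cos (2 * π * P.hl β) = Real.cos (2 * π * P.H m q s))
  uq : ∀ q s x ξ x' ξ' m, Adm q → AI J c R q s x k ξ → AI J c R q s x' k ξ' → P.Cl s x ξ m →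
    P.Cl s x' ξ' m → ∃ u, PI (J.G c s).F x x' (oI W c R) u ∧
      ∀ z ∈ oI W c R, ξ' z = Eqv71.cj (u z) (ξ z)
  ex : ∀ q s (x' : Cg' W c lam r), Adm q → Pm J c s → AdmOn x' (J.B c) (J.G c s) (oI W c R)ᶜ →
    ∃ x ξ u, AI J c R q s x k ξ ∧ P.Cl s x ξ P.g ∧ Eq0 (J.G c s).F x' x (oI W c R)ᶜ u ∧
      ∀ z ∈ oI W c R, x.eD (J.G c s) (J.τ c q s) z = 0
  flx : ∀ q s x ξ, Adm q → AI J c R q s x k ξ →
    (∀ l, Inn J R l → |flux (W.Z c).I (J.cut c l) (xf J c s x ξ)| = 2 * π ∨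
      flux (W.Z c).I (J.cut c l) (xf J c s x ξ) = 0) ∧
    ((∀ l, Inn J R l → |flux (W.Z c).I (J.cut c l) (xf J c s x ξ)| = 2 * π) ↔
      P.Cl s x ξ P.g ∨ P.Cl s x (fun z => -ξ z) P.g)
  sm : ∀ m (S : Finset Wi) (θ : ℝ → A' → ℝ), ContDiff ℝ ∞ θ → (∀ t ∈ Ioo (-1 : ℝ) 1, Pm J c (θ t)) →
    ∃ (U : Set (S → ℝ)) (Φ : (S → ℝ) × ℝ → ℝ), IsOpen U ∧ ContDiffOn ℝ ∞ Φ (U ×ˢ Ioo (-1) 1) ∧
      ∀ q, Adm q → q.support ⊆ S → (fun w : S => q w) ∈ U ∧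
        ∀ t ∈ Ioo (-1 : ℝ) 1, Φ (fun w => q w, t) = P.H m q (θ t)
  loc : ∀ m q σ s s', Adm q → Ovc J c σ s → Ovc J c σ s' → (∀ b, s (e b) = s' (e b)) →
    P.H m q s = P.H m q s'
  crn : ∃ ε₀ : ℝ, (ε₀ = 1 ∨ ε₀ = -1) ∧ ∀ q σ s b, Adm q → Ovc J c σ s → σ (e b) = none →
    Tendsto (fun t => Real.cos (2 * π * P.H P.g q (update s (e b) t))) (𝓝[<] 1)
      (𝓝 (if b then -ε₀ else ε₀))
  mov : ∀ q s x ξ m, Adm q → (∀ w, ∀ᶠ t in 𝓝 (0 : ℝ), Adm (q + Finsupp.single w t)) →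
    AI J c R q s x k ξ → P.Cl s x ξ m → ∃ w, (J.tw w).Van (M.sys.U (hp R true)) ∧
      (∀ l, J.cc l w = 0) ∧ deriv (fun t => P.H m (q + Finsupp.single w t) s) 0 ≠ 0
  taf : ∀ q σ s x ξ m b, Adm q → Ovc J c σ s → σ (e b) = none → 0 < s (e b) →
    AI J c R q s x k ξ → P.Cl s x ξ m → deriv (fun t => P.H m q (update s (e b) t)) (s (e b)) ≠ 0 →
    TAf J c R q s x σ P.d ξ

/-- **transversality inside** -/
def HD.Tr (e : Bool → A') (σ : Cel A') (q : Wi →₀ ℝ) (y : J.Obc c) : Prop :=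
  ∃ b ξ, σ (e b) = none ∧ 0 < y.s (e b) ∧ Ab (J.B c) (J.G c y.s) (oI W c R) y.x ξ ∧
    P.Cl y.s y.x ξ P.g ∧ deriv (fun t => P.H P.g q (update y.s (e b) t)) (y.s (e b)) ≠ 0 ∧
    ∀ l, Inn J R l → Line J c q y.s y.x l

variable (J c R)

/-- **LEAF CLC**: reductions and their periods pass to strong limits -/
def ClcL : Prop := J.OK → ∀ σ ∈ J.𝒦, ∀ (Ω : Set (W.Z c).M) (ν : Type) [Fintype ν]
  (ε : ν → (W.Z c).M → Ext (W.Z c).E) (v : ν → ℝ), IsClopen Ω → (∀ j, Cs (W.Z c).I 2 Ω (ε j)) →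
  ∀ (α : Type) (𝒰 : Ultrafilter α) (q : α → Wi →₀ ℝ) (y : α → J.Obc c) q₀ y₀,
    (∀ᶠ i in (𝒰 : Filter α), Sol σ (q i) (y i) ∧ ∃ ξ, Ab (J.B c) (J.G c (y i).s) Ω (y i).x ξ ∧
      ∀ j, integ (W.Z c).I (W.o c) (xf J c (y i).s (y i).x ξ * ε j) = v j) →
    Sol σ q₀ y₀ → Str 𝒰 y y₀ → ∃ ξ, Ab (J.B c) (J.G c y₀.s) Ω y₀.x ξ ∧
      ∀ j, integ (W.Z c).I (W.o c) (xf J c y₀.s y₀.x ξ * ε j) = v j

/-- **LEAF KSC**: the kernel of a row does not jump up -/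
def KscL : Prop := J.OK → ∀ σ ∈ J.𝒦, ∀ (α : Type) (𝒰 : Ultrafilter α) (q : α → Wi →₀ ℝ)
  (y : α → J.Obc c) q₀ y₀, St.Cv (𝒰 : Filter α) q q₀ → (∀ᶠ i in (𝒰 : Filter α), Sol σ (q i) (y i)) →
  Sol σ q₀ y₀ → Str 𝒰 y y₀ → ∀ l ∈ J.unc c,
    (Line J c q₀ y₀.s y₀.x l → ∀ᶠ i in (𝒰 : Filter α), Line J c (q i) (y i).s (y i).x l) ∧
    ((∀ ψ, ¬Row J c q₀ y₀.s y₀.x l ψ) →
      ∀ᶠ i in (𝒰 : Filter α), ∀ ψ, ¬Row J c (q i) (y i).s (y i).x l ψ)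

/-- **LEAF KEX**: a row of flux `± 2π` has a solution (index; the terms have finite rank) -/
def KexL : Prop := J.OK → ∀ σ s, Ovc J c σ s → ∀ Ω x ξ, IsClopen Ω → Ab (J.B c) (J.G c s) Ω x ξ →
  ∀ l ∈ J.unc c, (J.cut c l).supp ⊆ Ω → |flux (W.Z c).I (J.cut c l) (xf J c s x ξ)| = 2 * π →
  ∀ q, ∃ ψ, Row J c q s x l ψ

/-- **LEAF KGEN**: generic terms of a cut at an abelian point -/
def KgenL : Prop := J.OK → Sep J → ∀ σ s, Ovc J c σ s → ∀ Ω x ξ, IsClopen Ω →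
  Ab (J.B c) (J.G c s) Ω x ξ → ∀ l ∈ J.unc c, (J.cut c l).supp ⊆ Ω → ∀ ρ, J.RichC s ρ l → ∀ q,
  ∃ qq : ℕ → Wi →₀ ℝ, St.Cv atTop qq q ∧
    (∀ i w, qq i w ≠ q w → J.co w = 0 ∧ ∀ l' ≠ l, J.cc l' w s = 0) ∧
    (|flux (W.Z c).I (J.cut c l) (xf J c s x ξ)| = 2 * π → ∀ᶠ i in atTop, Line J c (qq i) s x l) ∧
    (flux (W.Z c).I (J.cut c l) (xf J c s x ξ) = 0 → ∀ᶠ i in atTop, ∀ ψ, ¬Row J c (qq i) s x l ψ)

/-- **LEAF OUT**: the outer part near a regular face object is unique -/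
def OutL (δ : ℝ) (sh : Set A') (σ : Cel A') (Adm : (Wi →₀ ℝ) → Prop) (n₀ : ℤ) : Prop :=
  H1 J c δ sh σ Adm n₀ → ∀ q₀ y₀ x, Adm q₀ → Sol σ q₀ y₀ → Rf65.FA J c σ n₀ y₀ x →
    RegO J c δ sh σ q₀ y₀ x → Rf65.Ok δ y₀ (pO J c sh σ x) →
    ∀ (α : Type) (𝒰 : Ultrafilter α) (q : α → Wi →₀ ℝ)
      (y y' : α → J.Obc c), St.Cv (𝒰 : Filter α) q q₀ →
      (∀ᶠ i in (𝒰 : Filter α), SolOn (pO J c sh σ x) σ (q i) (y i) ∧
        SolOn (pO J c sh σ x) σ (q i) (y' i)) →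
      StrOn (pO J c sh σ x) 𝒰 y y₀ → StrOn (pO J c sh σ x) 𝒰 y' y₀ →
      ∀ᶠ i in (𝒰 : Filter α), EqP (pO J c sh σ x) (y i) (y' i) ∧
        (J.xs x).D.Eqv ((y i).β x true) ((y' i).β x true)

end job

section scene
variable {κ lam : Type} [Fintype κ] [Fintype lam] [DecidableEq lam] (Lm : LM κ lam)

/-- **what is delivered at a face object**: (`TA` of `Rf65/Ps` on functions) -/
def TAq : TP Lm := fun {_ D _ _ _ _} J c δ _ σ q y x => ∃ d > δ, ∃ ξ,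
  Ab (J.B c) (J.G c y.s) (oI D.W c x) y.x ξ ∧ TAf J c x q y.s y.x σ d ξ ∧ ∀ l, Inn J x l →
    |flux (D.W.Z c).I (J.cut c l) (xf J c y.s y.x ξ)| = 2 * π ∧ Line J c q y.s y.x l

/-- a property of all jobs of `QStmt` -/
def AllQ (Z : ∀ {S : Scene Lm} {D : S.Dat} {i Wi r n} (J : Job Wi (D.Λ i) (S.A ⊕ Unit) S.ls r n)
    (_ : S.M.Cl) (_ : S.A) (_ : Bool → S.A) (_ : ℕ) (_ : ℤ), Prop) : Prop :=
  ∀ (S : Scene Lm) (D : S.Dat) i Wi r n (J : Job Wi (D.Λ i) (S.A ⊕ Unit) S.ls r n) (c : S.M.Cl) R e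
    (Q : QD S R e) j n₀ T, Q.OK i → JR J R {e false, e true} 1 Q.Z.card j n₀ T → c.1 = {R} →
    PJ J c → Z J c R e Q.Z.card n₀

/-- **LEAF HI** (helper60) -/
def HiStmt : Prop := AllQ Lm fun J c R e z _ =>
  ∃ P : HD J c R, An.Sml fun Adm => P.OK Adm (fun b => .inl (e b)) (z / 4)

/-- **LEAF PARQ** -/
def ParStmt : Prop := AllQ Lm fun J c R e z n₀ => KexL J c → ∀ (P : HD J c R) Adm,
  P.OK Adm (fun b => .inl (e b)) (z / 4) → ParQ J c Adm R z n₀ e (P.Tr fun b => .inl (e b))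

/-- **LEAF UQQ** -/
def UqqStmt : Prop := AllQ Lm fun {S} _ _ _ _ _ J c R e z n₀ => ClcL J c → KscL J c →
  ∀ (P : HD J c R) Adm δ σ, P.OK Adm (fun b => .inl (e b)) (z / 4) →
    OutL J c δ (shX S {R}) σ Adm n₀ → H1R J c δ σ Adm R {e false, e true} 1 z n₀ →
    UqL J c δ (shX S {R}) σ Adm n₀ (P.Tr (fun b => .inl (e b)) σ)

/-- **LEAF TRQ** -/
def TrqStmt : Prop := AllQ Lm fun {S} _ _ _ _ _ J c R e z n₀ => ClcL J c → KscL J c → KgenL J c →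
  ∀ (P : HD J c R) Adm δ σ, P.OK Adm (fun b => .inl (e b)) (z / 4) →
    OutL J c δ (shX S {R}) σ Adm n₀ → H1R J c δ σ Adm R {e false, e true} 1 z n₀ →
    TrL J c δ (shX S {R}) σ Adm n₀ (P.Tr (fun b => .inl (e b)) σ)

end scene
end Crest.Agent.X212.Qab60
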