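import Crest.Agent.X212.Qab60.Lh

/-! X212 / QAB (helper60): the holonomy at infinity of the abelian solutions. -/

set_option autoImplicit false
set_option linter.unusedSectionVars false
noncomputable section
open scoped Manifold ContDiff Topology InnerProductSpace Real
open MeasureTheory Set Function Filter
open Crest.Agent.R208.F (Ext)

namespace Crest.Agent.X212.Qab60
open An Prm93 Num57 M Nd18 Rf65 G75 Ins26 Cyf70
open Int54 (integ Ori SameOn)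
open Dr59 (Cs dM pm)
open Fin37 (Pm)

variable {Wi : Type} {X : Mf 4} {A κ lam : Type} [Fintype A] [Fintype κ] [Fintype lam]
  [DecidableEq lam] {M : Mark X A κ} {W : World M} {N : ML M lam} {Λ : Lns W N}
  {A' h : Type} [Fintype A'] [DecidableEq A'] [Fintype h] {r n : ℕ}
  {J : Job Wi Λ A' h r n} {c : M.Cl} {R : A} {ν : Type} [Fintype ν] [DecidableEq ν]
  {Q : QT (W.Z c).E (W.Z c).M ν} {θ : (J.xs R).Y.M → Circle} {ϖ : (J.xs R).Y.M → V3}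
  {q : Wi →₀ ℝ} {s s₀ : A' → ℝ} {f a a' : (W.Z c).M → Ext (W.Z c).E} {S : Finset Wi} {T t t' : ℝ}
  {χ : ℝ → ℝ} {β : Wi → ℝ}

variable (J c R S f T) in
/-- above the height `T` the form `f` and the terms of `S` vanish -/
structure Abv : Prop where
  T0 : 0 ≤ T
  z : ∀ s ha x, T < (kI J c R s ha).tm x → f x = 0 ∧ ∀ (q : Wi → ℝ) s' u, aF c J S q s' u x = 0

theorem aF_congr {q q' : Wi → ℝ} (e : ∀ w ∈ S, q w = q' w) : aF c J S q s = aF c J S q' s :=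
  funext fun _ => Finset.sum_congr rfl fun w hw => by
    classical
    beta_reduce
    rw [e w (Finset.mem_filter.1 hw).1]

theorem aF_supp (k : q.support ⊆ S) : aF c J S q s = aF c J q.support q s :=
  aF_eq k fun _ => Finsupp.notMem_support_iff.1

theorem ball_le (k : Ball β 0 q) (hS : q.support ⊆ S) : ∑ w ∈ S, |q w| * β w < 1 := by
  rw [← Finsupp.sum_of_support_subset q hS (fun w a => |a| * β w) (by simp)]
  simpa [Ball] using k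

theorem OpB.op (k : OpB J β) (hq : Ball β 0 q) (hs : Pm J c s) : ∃ j,
    Op (J.G c s).F (J.B c).o (aH c J q.support q s) (aF c J q.support q s) (1 / 4) j :=
  let ⟨j, hj⟩ := k.2 q.support; ⟨j, hj q (ball_le hq Finset.Subset.rfl).le c s hs⟩

theorem q4 : √2 * (1 / 4 : ℝ) < 1 := by nlinarith [Real.sq_sqrt zero_le_two, Real.sqrt_nonneg 2]

namespace JQ
variable (H : JQ J c R Q θ ϖ)
include H

theorem en (ha) : En (kI J c R s ha) (oI W c R) := (H.qe s ha).toEn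

theorem pc (hs : Pm J c s) : Pc (J.G c s).F (J.B c).o (oI W c R) := (H.qe s (H.act hs)).pc

theorem ψ_eq (ha ha₀) : EqOn (kI J c R s ha).ψ (kI J c R s₀ ha₀).ψ (hZ _ 0) := fun _ hy =>
  (H.ok.end_eq ha₀ ha).ψ ((H.en ha₀).src hy.2)

theorem tm_eq (ha ha₀) {x} (hx : 0 < (kI J c R s ha).tm x) :
    (kI J c R s₀ ha₀).tm x = (kI J c R s ha).tm x := by
  obtain ⟨y, hy, rfl⟩ := ((H.en ha).img (Subset.refl (Ioi 0))).ge hx
  rw [(H.en ha).tm hy.2, H.ψ_eq ha ha₀ hy, (H.en ha₀).tm hy.2]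

theorem pm_eq (ha ha₀) (a : (W.Z c).M → Ext (W.Z c).E) :
    EqOn (pm (IC (J.xs R).Y.I) (W.Z c).I (kI J c R s ha).ψ a)
      (pm (IC (J.xs R).Y.I) (W.Z c).I (kI J c R s₀ ha₀).ψ a) (hZ _ 0) := fun _ hz =>
  Dr59.pm_congr (mem_of_superset ((isOpen_univ.prod isOpen_Ioi).mem_nhds hz) (H.ψ_eq ha ha₀)) rfl

theorem exists_abv (S : Finset Wi) (hc : HasCompactSupport f) : ∃ T, Abv J c R f S T := by
  by_cases e : ∃ s, Act J.m c R (some false) (J.Θ s)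
  swap
  · exact ⟨0, le_rfl, fun s ha => (e ⟨s, ha⟩).elim⟩
  obtain ⟨s₀, ha₀⟩ := e
  obtain ⟨K, hK, k⟩ := smF_supp (T := Fin37.tm J c) (ι := Option κ) (wS c J S) fun _ => wS_in
  obtain ⟨T, hT⟩ := ((hK.union hc).image (kI J c R s₀ ha₀).cont).bddAbove
  refine ⟨max T 0, le_max_right _ _, fun s ha x hx => ?_⟩
  have m : x ∉ K ∪ tsupport f := fun m => (hT (mem_image_of_mem _ m)).not_gt
    ((H.tm_eq ha ha₀ ((le_max_right _ _).trans_lt hx)).symm ▸ (le_max_left _ _).trans_lt hx)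
  exact ⟨image_eq_zero_of_notMem_tsupport fun e => m (.inr e),
    fun q s' u => k _ _ _ u x fun e => m (.inl e)⟩

theorem asd (k : Abv J c R f S T) (hS : q.support ⊆ S) (A : ASj J c R q s f a) (ha) :
    Asd (J.xs R).D T (pm (IC (J.xs R).Y.I) (W.Z c).I (kI J c R s ha).ψ a) :=
  (H.en ha).asd k.T0 A.fo A.sq fun x hx => by
    have := A.eq x ((H.en ha).mem (k.T0.trans_lt hx))
    rwa [← aF_supp hS, (k.z s ha x hx).2, c2_add, Pi.add_apply, c2_of_zero (k.z s ha x hx).1,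
      zero_add] at this

theorem hv_iff (k : Abv J c R f S T) (hS : q.support ⊆ S) (hχ : Ct T χ) :
    Hv J c R θ ϖ q s f t ↔ ∀ a, ASj J c R q s f a → ∀ ha,
      hpr (J.xs R).D ϖ χ (pm (IC (J.xs R).Y.I) (W.Z c).I (kI J c R s ha).ψ a) =
        t * hpr (J.xs R).D ϖ χ (aZ θ) := by
  have key : ∀ {χ χ'}, Ct T χ → Ct T χ' → ∀ a, ASj J c R q s f a → ∀ ha,
      hpr (J.xs R).D ϖ χ (pm (IC (J.xs R).Y.I) (W.Z c).I (kI J c R s ha).ψ a) =
        t * hpr (J.xs R).D ϖ χ (aZ θ) →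
      hpr (J.xs R).D ϖ χ' (pm (IC (J.xs R).Y.I) (W.Z c).I (kI J c R s ha).ψ a) =
        t * hpr (J.xs R).D ϖ χ' (aZ θ) := fun k1 k2 a A ha e => by
    obtain ⟨V, -, h1, h2⟩ := Sep15.Qa.flx _ θ ϖ (H.en ha).hD (H.qe s ha).pr
    rw [← h2 T _ _ _ (H.asd k hS A ha) k1.cf k2.cf, e, h1 _ _ k1.cf, h1 _ _ k2.cf]
  refine ⟨fun ⟨T', e⟩ a A ha => ?_, fun e => ⟨T, fun χ' k' a A ha => key hχ k' a A ha (e a A ha)⟩⟩
  obtain ⟨χ', k'⟩ := exists_ct (max T T')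
  exact key (k'.mono (le_max_left _ _)) hχ a A ha (e χ' (k'.mono (le_max_right _ _)) a A ha)

theorem hpr_hl (hχ : Ct 0 χ) (fo : Fo (W.Z c).I 1 a) (ha ha₀) (b : Bool) :
    hpr (J.xs R).D ϖ χ (pm (IC (J.xs R).Y.I) (W.Z c).I (kI J c R s ha).ψ a) =
      -hl (kI J c R s₀ ha₀) (oI W c R) χ (Q.η b) (dM (W.Z c).I a) :=
  (hpr_congr hχ ϖ (H.pm_eq ha ha₀ a)).trans
    ((H.en ha₀).hpr_eq hχ fo ((H.qe s₀ ha₀).ok.cη b) ((H.qe s₀ ha₀).ok.ηE b))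

theorem V0 (hs : Pm J c s) (hχ : Ct T χ) : hpr (J.xs R).D ϖ χ (aZ θ) ≠ 0 :=
  let ⟨_, h1, h2⟩ := (H.qe s (H.act hs)).exV; (h2 _ _ hχ.cf).symm ▸ h1

variable (hβ : OpB J β) (hq : Ball β 0 q) (hs : Pm J c s) (hf : Cz (W.Z c).I (oI W c R) f)
  (hc : HasCompactSupport f)
include hβ hq hs hf hc

theorem exists_as : ∃ a, ASj J c R q s f a :=
  let ⟨_, o⟩ := hβ.op hq hs; (H.pc hs).exists_as o q4 hf (sq_of_hcs hf.fo.sm hc)

theorem as_uniq (A : ASj J c R q s f a) (A' : ASj J c R q s f a') :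
    dM (W.Z c).I a = dM (W.Z c).I a' :=
  let ⟨_, o⟩ := hβ.op hq hs; (H.pc hs).as_uniq o q4 hf (sq_of_hcs hf.fo.sm hc) A A'

/-- the holonomy as a pairing at a base point `s₀` -/
theorem hv_hl (k : Abv J c R f S T) (hS : q.support ⊆ S) (hχ : Ct T χ) (A : ASj J c R q s f a)
    (ha₀) (b : Bool) : Hv J c R θ ϖ q s f t ↔
      -hl (kI J c R s₀ ha₀) (oI W c R) χ (Q.η b) (dM (W.Z c).I a) =
        t * hpr (J.xs R).D ϖ χ (aZ θ) := by
  rw [H.hv_iff k hS hχ]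
  exact ⟨fun e => (H.hpr_hl (hχ.mono k.T0) A.fo (H.act hs) ha₀ b).symm.trans (e a A _),
    fun e a' A' ha => by rw [H.hpr_hl (hχ.mono k.T0) A'.fo ha ha₀ b, H.as_uniq hβ hq hs hf hc A' A, e]⟩

theorem exists_hv : ∃ t, Hv J c R θ ϖ q s f t := by
  obtain ⟨T, k⟩ := H.exists_abv q.support hc
  obtain ⟨χ, hχ⟩ := exists_ct T
  obtain ⟨a, A⟩ := H.exists_as hβ hq hs hf hc
  exact ⟨_, (H.hv_hl hβ hq hs hf hc k Finset.Subset.rfl hχ A (H.act hs) false).2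
    (div_mul_cancel₀ _ (H.V0 hs hχ)).symm⟩

theorem hv_uniq (e : Hv J c R θ ϖ q s f t) (e' : Hv J c R θ ϖ q s f t') : t = t' := by
  obtain ⟨T, k⟩ := H.exists_abv q.support hc
  obtain ⟨χ, hχ⟩ := exists_ct T
  obtain ⟨a, A⟩ := H.exists_as hβ hq hs hf hc
  rw [H.hv_hl hβ hq hs hf hc k Finset.Subset.rfl hχ A (H.act hs) false] at e e'
  exact mul_right_cancel₀ (H.V0 hs hχ) (e.symm.trans e')

omit hq hs in
/-- **the holonomy is smooth in families** -/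
theorem sm_hv {P : Type} [NormedAddCommGroup P] [NormedSpace ℝ P] {U : Set P} (hU : IsOpen U)
    {τ : P → A' → ℝ} {g : P → Wi → ℝ} (hτ : ContDiffOn ℝ ∞ τ U)
    (hg : ∀ w, ContDiffOn ℝ ∞ (g · w) U) (hp : ∀ p ∈ U, Pm J c (τ p))
    (hb : ∀ p ∈ U, ∑ w ∈ S, |g p w| * β w < 1) : ∃ Φ : P → ℝ, ContDiffOn ℝ ∞ Φ U ∧
      ∀ p ∈ U, ∀ q : Wi →₀ ℝ, q.support ⊆ S → (∀ w ∈ S, q w = g p w) →
        Hv J c R θ ϖ q (τ p) f (Φ p) := by
  rcases U.eq_empty_or_nonempty with rfl | ⟨p₀, h₀⟩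
  · exact ⟨0, contDiffOn_empty, fun _ k => k.elim⟩
  obtain ⟨T, k⟩ := H.exists_abv S hc
  obtain ⟨χ, hχ⟩ := exists_ct T
  obtain ⟨j, hj⟩ := hβ.2 S
  have ha₀ := H.act (hp p₀ h₀)
  have e₀ := (H.en ha₀).cz_ec (hχ.mono k.T0) ((H.qe _ ha₀).ok.cη false)
  obtain ⟨ℓ, l1, l2⟩ := (fa_J (S := S) H.ok ha₀.2.2.1 hU hτ hg (fun p m => Pm.memO H.ok (hp p m))
    (H.pc (hp p₀ h₀)) fun p m => hj _ (hb p m).le c _ (hp p m)).sm_pair hf (sq_of_hcs hf.fo.sm hc)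
      (sq_of_hcs e₀.1.sm e₀.2)
  refine ⟨fun p => -ℓ p / hpr (J.xs R).D ϖ χ (aZ θ), l1.neg.div_const _, fun p m q hS e => ?_⟩
  have hq : Ball β 0 q := by
    rw [Ball, sub_zero, Finsupp.sum_of_support_subset q hS (fun w a => |a| * β w) (by simp)]
    exact (Finset.sum_congr rfl fun w hw => by rw [e w hw]).trans_lt (hb p m)
  obtain ⟨a, A⟩ := H.exists_as hβ hq (hp p m) hf hc
  rw [H.hv_hl hβ hq (hp p m) hf hc k hS hχ A ha₀ false, div_mul_cancel₀ _ (H.V0 (hp p m) hχ)]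
  exact congrArg _ (l2 p m a (by rw [ASj, ← aF_supp hS, aF_congr e] at A; exact A))

end JQ
end Crest.Agent.X212.Qab60
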