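import Crest.Agent.X212.Qab60.Cls
import Crest.Agent.X212.Clr59.Main
import Crest.Agent.X212.Dgr80.Chh
import Crest.Agent.X212.Cay24.Qa
import Crest.Agent.X212.Qa50.Add
import Crest.Agent.X212.Wrd81.LocN

/-! X212 / QAB (helper60): references, limits and levels of abelian points
(`ref0`, `lim_cl0` are copies of `Sep15.Qa.ref`, `lim_cl`). -/

set_option autoImplicit false
set_option linter.unusedSectionVars false
noncomputable section
open scoped Manifold ContDiff Topology InnerProductSpace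
open Set Function Filter MeasureTheory

namespace Crest.Agent.X212.Qab60
open An Nd18 Wz78 Pj41 Cyf70 Real Bki64 Sep15.Qa Num57 Int54
open M (Mf)
open Abel74 (Red RedOn fm)
open Tmp64 (admOn_univ)
open Dfl49 (PI nk_maps Fz)
open Neck67 (Lb)
open Eqv71 (cj)
open Rdc90 (Bs)
open Wrd81 (SameN)
open Dr59 (dM)

variable {Y : Mf 3} [CompactSpace Y.M] {κ : Type} [Fintype κ] {lam : Type} [Fintype lam]
  {D : YD Y.I Y.M κ lam} {β β' : YC Y.M κ lam} {T d : ℝ}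
  {E : Type} [NormedAddCommGroup E] [NormedSpace ℝ E] [FiniteDimensional ℝ E]
  [MeasurableSpace E] [BorelSpace E]
  {HM : Type} [TopologicalSpace HM] {I : ModelWithCorners ℝ E HM} [I.Boundaryless]
  {M : Type} [TopologicalSpace M] [ChartedSpace HM M] [IsManifold I ∞ M] [T2Space M]
  [MeasurableSpace M] [BorelSpace M] [SecondCountableTopology M]
  {B : Base M (Option κ) lam} {G G' : Geo I M (Option κ) lam} {K : Nk D B G} {r r' : ℕ}
  {c : Cfg M (Option κ) lam r} {S : Set M}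
  {θ : Y.M → Circle} {ϖ : Y.M → Rf65.V3} {ξ : M → c.m.A} {ξ₀ : Y.M → β.m.A} {h : ℝ}
  {a : M → R208.F.Ext E}

variable (D β ξ₀) in
/-- a flat connection with a parallel unit section -/
structure Ct0 : Prop where
  adm : D.Adm β
  fz : Fz D.Z (cy β) univ
  red : Red D.Z (cy β).m (cy β).W fun q => ξ₀ q.1

theorem Ctr.ct0 (C : Ctr D β ξ₀) : Ct0 D β ξ₀ := ⟨C.adm, C.fz, C.red⟩

theorem ref0 (hD : D.OK) (hB : B.OK I) (hG : G.OK B) (A : Ab B G S c ξ) (hT : Ioi T ⊆ K.J)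
    (k : K.tm ⁻¹' Ioi T ⊆ S) (f : ∀ x, T < K.tm x → fm G.F c.m c.W ξ x = 0) :
    ∃ β ξ₀, Ct0 D β ξ₀ ∧ Sd K c ξ β ξ₀ T := by
  have f' : ∀ z ∈ K.tm ⁻¹' Ioi T, c.m.Fg G.F c.W z = 0 := fun z hz => PiLp.ext fun i => by
    rw [A.rd.Fg_eq hB hG A.adm.ok A.adm.conn (k hz), ← Abel74.k2_fm hG A.adm.conn, Num57.k2, f z hz,
      Num57.e2_zero, zero_smul]
    rfl
  have mp := nk_maps hT Subset.rfl
  have a := adm_pb A.adm hT
  obtain ⟨β, u, hβ, fz, p⟩ := Dfl49.exists_cy hD isOpen_Ioi ordConnected_Ioi nonempty_Ioi a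
    fun x hx => (K.rel.Fg (mp hx).1 c.W).trans (f' _ (mp hx).2)
  have a' := (admOn_univ.2 hβ.adm).mono (subset_univ (hZ Y T))
  obtain ⟨ξ₀, h1, h2⟩ := red_cy hβ
    (Cay24.redOn_iso p.iso a.ok a'.ok a.conn a'.conn p.par (red_pb A.rd.toRedOn hT k))
  exact ⟨β, ξ₀, ⟨hβ, fz, h1⟩, hT, u, p, h2⟩

theorem lim_cl0 (P : Rf65.PR D.F θ ϖ) (A : Ab B G S c ξ) (C : Ct0 D β ξ₀) (s : Sd K c ξ β ξ₀ T)
    (k : K.tm ⁻¹' Ioi T ⊆ S) (hd : 0 < d) (N : Nf D θ T d h (Dr59.pm (IC Y.I) I K.ψ a))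
    (ζ : Circle) : ∃ v, ∀ j, ∃ Q, ∀ t ≥ T, Cl D.Z (K.pb (ada G.F c ξ a)) (cy (bs D θ β ξ₀ h)) v
      (fun _ => ζ) (hZ Y t) j (Q * exp (-d * t)) := by
  obtain ⟨u, p, e⟩ := s.ex
  obtain ⟨φ, b, h1, h2, -, h3, h4⟩ := N.ex
  have mp := nk_maps s.sub k
  have a' := (admOn_univ.2 C.adm.adm).mono (subset_univ (hZ Y T))
  have hφ : ∀ x ∈ hZ Y T, SA (IC Y.I) φ x := fun x hx => h1.contMDiffAt ((op_h T).mem_nhds hx)
  refine ⟨fun y => gx (cy β).m (fun q => ξ₀ q.1) φ y ∘L u y, fun j => ?_⟩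
  obtain ⟨Q, q0, hQ⟩ := lb_dc (fun x hx => ((PiLp.continuousLinearEquiv 2 ℝ
    fun _ : Option κ => ℝ).symm.contDiff.contMDiff _).comp x (contMDiffAt_pi_space.2 fun i =>
      Num57.sa_k1 D.Z (h2 x hx) i)) h4 hd j
  obtain ⟨Q', hQ'⟩ : BB D.Z.toPre ⊤ (fun _ : Unit => univ) j fun _ x => opL (ξ₀ x.1) :=
    BB.clm opL (BB.fst (F := D.F.toPre) (.of_forall fun _ => isOpen_univ) j
      fun y => sm_slice (t := 0) (C.red.sm (y, 0)))
  refine ⟨2 ^ j * Q * |Q'|, fun t ht => ?_⟩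
  have o := op_h (Y := Y) t
  have w : hZ Y t ⊆ hZ Y T := prod_mono_right (Ioi_subset_Ioi ht)
  refine ⟨o, (p.iso.trans (iso_gx a'.ok (C.red.on _) hφ)).mono w, fun i =>
    ((Lb.smul o (((hQ t ht).clm o (-EuclideanSpace.proj i)).mono (mul_le_of_le_one_left
      (by positivity) (ContinuousLinearMap.opNorm_le_bound _ zero_le_one fun v => by
        simpa using PiLp.norm_apply_le v i))) (hQ'.exists.choose_spec.2.sub (subset_univ _))).mono
      (le_of_eq ?_)).congr o fun x hx => ?_,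
    ((Lb.const o 0).mono (by rw [norm_zero]; positivity)).congr o fun x hx => ?_⟩
  · rw [abs_of_nonneg (by positivity)]; ring
  · refine (dA_gx (c := K.pb c) (c' := cy β) (ξ := fun x => ξ (K.ψ x)) a' p (C.red.on _) hφ (w hx)
      (A.rd.mem _ (mp (w hx)).2) (e x (w hx)) (fun x => c1 G.F a (K.ψ x))
      (fun x => h • c1 D.Z (aZ θ) (x.1, 0)) i).trans ?_
    have e1 : c1 D.Z (Dr59.pm (IC Y.I) I K.ψ a) x = c1 D.Z (h • aZ θ + Dr59.df (IC Y.I) φ + b) x := by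
      unfold c1 Num57.k1; rw [h3 (w hx)]
    rw [← Sep15.Qa.c1_pm (mp (w hx)).1, e1, c1_add, c1_add, c1_smul]
    simp only [Pi.add_apply, Pi.smul_apply, PiLp.add_apply, PiLp.smul_apply, c1_df, c1_aZ P]
    congr 1
    change D.Z.D i φ x + _ - _ = -c1 D.Z b x i
    ring
  · rw [dP, show (K.pb (ada G.F c ξ a)).Φ x = 0 from (add_zero _).trans (A.z _ (mp (w hx)).2),
      show (cy (bs D θ β ξ₀ h)).Φ x = 0 from (add_zero _).trans (C.fz.Φ x trivial), map_zero]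
    simp [cs]

theorem lim0 (P : Rf65.PR D.F θ ϖ) (A : Ab B G S c ξ) (C : Ct0 D β ξ₀) (s : Sd K c ξ β ξ₀ T)
    (k : K.tm ⁻¹' Ioi T ⊆ S) (hd : 0 < d) (N : Nf D θ T d h (Dr59.pm (IC Y.I) I K.ψ a))
    (ζ : Circle) : K.Lim (ada G.F c ξ a) (bs D θ β ξ₀ h) ζ atTop := by
  obtain ⟨v, hv⟩ := lim_cl0 P A C s k hd N ζ
  refine ⟨v, fun j η hη => ?_⟩
  obtain ⟨Q, hQ⟩ := hv j
  have : Tendsto (fun t => Q * exp (-d * t)) atTop (𝓝 0) := by
    simpa using (tendsto_exp_atBot.comp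
      (tendsto_id.const_mul_atTop_of_neg (neg_lt_zero.2 hd))).const_mul Q
  obtain ⟨t, t1, t2⟩ := ((this.eventually_le_const hη).and (eventually_ge_atTop T)).exists
  have H := (hQ t t2).mono (op_h t) Subset.rfl le_rfl t1
  have sub := (Ioi_subset_Ioi t2).trans s.sub
  exact ⟨_, Ioi_mem_atTop t, sub, isOpen_Ioi, H.iso.mEq (adm_pb A.adm sub).ok (OK.on C.adm.adm.ok _),
    fun a => (H.A a).Dw, H.P.Dw⟩

theorem Sd.mono (s : Sd K c ξ β ξ₀ T) {T' : ℝ} (k : T ≤ T') : Sd K c ξ β ξ₀ T' :=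
  let ⟨u, p, e⟩ := s.ex
  have w : hZ Y T' ⊆ hZ Y T := prod_mono_right (Ioi_subset_Ioi k)
  ⟨(Ioi_subset_Ioi k).trans s.sub, u, p.mono w, fun x hx => e x (w hx)⟩

theorem Sd.trn (s : Sd K c ξ β ξ₀ T) {K' : Nk D B G'} (e : SameN K K') {W : c.m.Cn}
    (hW : ∀ i, ∀ x ∈ K.ψ.target, W i x = c.W i x) : Sd K' ⟨c.m, W, c.Φ, c.z⟩ ξ β ξ₀ T := by
  obtain ⟨u, p, k⟩ := s.ex
  have m : ∀ z ∈ hZ Y T, z ∈ K.ψ.source := fun z hz => K.mem_src.2 (s.sub hz.2)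
  have a : ∀ z ∈ hZ Y T, K'.ψ z = K.ψ z := fun z hz => e.ψ (m z hz)
  refine ⟨e.J ▸ s.sub, u, ⟨⟨p.iso.su, fun z hz => ?_, p.iso.J, fun z hz b => (p.iso.ρ z hz b).trans ?_,
    fun z hz t => (p.iso.j z hz t).trans ?_⟩, fun z hz i => Eq.trans ?_ (p.par z hz i)⟩,
    fun z hz => (k z hz).trans (congrArg (fun x => cj (u z) (ξ x)) (a z hz).symm)⟩
  · exact (congrArg (fun x => CIso (u z) (c.m.p x) (β.m.p z.1)) (a z hz)).mpr (p.iso.iso z hz)
  · exact congrArg (fun x => u z ∘L c.m.ρ b x) (a z hz).symm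
  · exact congrArg (fun x => u z ∘L c.m.j x t) (a z hz).symm
  · exact congrArg (fun L : CL (K.pb c).m.V (K.pb c).m.V =>
      D.Z.D i u z + (cy β).W i z ∘L u z - u z ∘L L)
      ((congrArg (W i) (a z hz)).trans (hW i _ (K.ψ.map_source (m z hz))))

theorem SameN.agr {K' : Nk D B G'} (e : SameN K K') (i : Option κ) {x : M} (hx : x ∈ K.ψ.target) :
    G'.F.e i x = G.F.e i x ∧ G'.a i x = G.a i x := by
  obtain ⟨z, hz, rfl⟩ := K.ψ.image_source_eq_target.ge hx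
  have hz' : z ∈ K'.ψ.source := e.src ▸ hz
  refine ⟨?_, by rw [K.a i z hz, ← e.ψ hz, K'.a i z hz']⟩
  have k := K'.iso.e i z hz'
  rw [(Filter.EventuallyEq.mfderiv_eq (mem_of_superset (K.ψ.open_source.mem_nhds hz) e.ψ) :
    mfderiv _ _ K'.ψ z = mfderiv _ _ K.ψ z), e.ψ hz] at k
  exact k.symm.trans (K.iso.e i z hz)

theorem Ct0.bs (hD : D.OK) (P : Rf65.PR D.F θ ϖ) (C : Ct0 D β ξ₀) (t : ℝ) :
    Bs D (bs D θ β ξ₀ t) :=
  Clr59.bs_eq P ξ₀ t ▸ Clr59.bs_tw (Clr59.psc P) (Clr59.bs_of hD C.adm C.fz)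
    (Clr59.of_red hD C.adm C.red).1 t

theorem Ct0.tw {hol} (C : Ct0 D β ξ₀) (hD : D.OK) (P : Rf65.PR D.F θ ϖ) (L : Clr59.Clr D θ hol) :
    ∃ σ : ℝ, (σ = 1 ∨ σ = -1) ∧
      ∀ t, cos (2 * π * hol (Qab60.bs D θ β ξ₀ t)) = cos (2 * π * (hol β + σ * t)) := by
  simp only [Clr59.bs_eq P]
  exact L.tw (Clr59.bs_of hD C.adm C.fz) (Clr59.of_red hD C.adm C.red).1
    (Clr59.of_red hD C.adm C.red).2

theorem Ctr.cen {hol} (C : Ctr D β ξ₀) (hD : D.OK) (P : Rf65.PR D.F θ ϖ) (L : Clr59.Clr D θ hol) :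
    hol β = 0 ∨ hol β = 1 / 2 := by
  obtain ⟨η, h1, h2⟩ := C.ex
  obtain ⟨y⟩ := Clr59.ne P
  have k := Clr59.of_red hD C.adm C.red
  have k' := Clr59.of_red hD C.adm h1
  exact L.cen_of P (Clr59.bs_of hD C.adm C.fz) k.1 k'.1 (y := y)
    (fun e => by simpa [e] using k.2 y) (fun e => by simpa [e] using k'.2 y) (h2 y)

/-- **the limits** of an abelian point that is isomorphic to `c + a ξ` -/
theorem lim_iff {hol} (hD : D.OK) (hB : B.OK I) (hG : G.OK B) (P : Rf65.PR D.F θ ϖ)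
    (L : Clr59.Clr D θ hol) (A : Ab B G S c ξ) (C : Ct0 D β ξ₀) (s : Sd K c ξ β ξ₀ T)
    (k : K.tm ⁻¹' Ioi T ⊆ S) (hd : 0 < d) (N : Nf D θ T d h (Dr59.pm (IC Y.I) I K.ψ a))
    (A' : Ab B G S (ada G.F c ξ a) ξ) {x : Cfg M (Option κ) lam r} {ξ' u} (Ax : Ab B G S x ξ')
    (p : PI G.F x (ada G.F c ξ a) S u) (b : Bs D β') (ζ : Circle) :
    K.Lim x β' ζ atTop ↔ cos (2 * π * hol β') = cos (2 * π * hol (Qab60.bs D θ β ξ₀ h)) := by
  have b0 := C.bs hD P h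
  refine ⟨fun H => congrArg (fun t => cos (2 * π * t)) ((L.eqv b b0).1 ?_), fun H => ?_⟩
  · exact (Sep15.Qa.lim r B G K S x hD hB hG Ax.adm).2 r _ u _ _ ζ 1 T A'.adm b.adm b0.adm s.sub
      (p.mono k) (fun z hz => ⟨Ax.z z (k hz), A'.z z (k hz)⟩) H (lim0 P A C s k hd N 1)
  · obtain ⟨g, η, e⟩ := Dgr80.stb_of_eqv hD b0.adm b.adm
      ((L.eqv b0 b).2 (Clr59.cos_inj (L.mem _) (L.mem _) H).symm)
    have := Dgr80.lim_stb b0.adm b.adm A'.adm e (lim0 P A C s k hd N (η⁻¹ * ζ))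
    rw [mul_inv_cancel_left] at this
    exact Lns95.Same.lim ⟨rfl, rfl, rfl, rfl, rfl⟩ b.adm A'.adm Ax.adm isOpen_Ioi (Ioi_mem_atTop T)
      (p.mono k).iso (p.mono k).par
      (fun z hz => by rw [Ax.z z (k hz), A'.z z (k hz), map_zero]) this

section lev
variable (hB : B.OK I) (hG : G.OK B) (tm : Tam G.F B.o) (hS : IsClopen S) (A : Ab B G S c ξ)
include hB hG hS A

theorem Ab.cz : Cz I S (fm G.F c.m c.W ξ) := (Qa50.addStmt I M _ lam r B G S c ξ hB hG hS A).2.2.1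

theorem Ab.kd (x : M) : ⟪c2 G.F (fm G.F c.m c.W ξ) x, st B.o x (c2 G.F (fm G.F c.m c.W ξ) x)⟫_ℝ =
    S.indicator (fun x => -(8 * π ^ 2) * c.m.kd B G.F c.W x) x := by
  by_cases hx : x ∈ S
  · rw [indicator_of_mem hx, Lns95.kd_ab hB hG A hx]; field_simp
  · rw [indicator_of_notMem hx, c2_of_zero ((A.cz hB hG hS).off x hx), inner_zero_left]

include tm

theorem Ab.sq {L : Set M} (hL : IsCompact L)
    (e : ∀ x ∈ S, x ∉ L → hs G.F B.o x (c2 G.F (fm G.F c.m c.W ξ) x) = 0)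
    (i : IntegrableOn (c.m.kd B G.F c.W) S G.F.μ) : Sq G.F (fm G.F c.m c.W ξ) := by
  have z := A.cz hB hG hS
  have sm := sm_c2 (F := G.F) z.fo.sm
  have i1 : Integrable (fun x => ‖hs G.F B.o x (c2 G.F (fm G.F c.m c.W ξ) x)‖ ^ 2) G.F.μ :=
    ((tm.cb_hs.choose_spec.1.continuous.clm_apply sm.continuous).norm.pow 2).integrable_of_hasCompactSupport
      (HasCompactSupport.intro hL fun x hx => by
        by_cases m : x ∈ S
        · simp [e x m hx]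
        · simp [c2_of_zero (z.off x m)])
  refine (memLp_two_iff_integrable_sq_norm sm.continuous.aestronglyMeasurable).2
    (((i1.const_mul 2).sub ((integrable_indicator_iff hS.isOpen.measurableSet).2
      (i.const_mul (-(8 * π ^ 2))))).congr (.of_forall fun x => ?_))
  have := A.kd hB hG hS x
  rw [inner_st tm.ok] at this
  simp only [Pi.sub_apply, norm_c2_sq tm.ok]
  linarith

theorem Ab.lev (q : Sq G.F (fm G.F c.m c.W ξ)) : IntegrableOn (c.m.kd B G.F c.W) S G.F.μ ∧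
    ∫ x in S, c.m.kd B G.F c.W x ∂G.F.μ =
      -(4 * π ^ 2)⁻¹ * integ I (vol G.F B.o) (fm G.F c.m c.W ξ * fm G.F c.m c.W ξ) := by
  have z := A.cz hB hG hS
  have m := hS.isOpen.measurableSet
  constructor
  · have i : Integrable (fun x => ⟪c2 G.F (fm G.F c.m c.W ξ) x,
        st B.o x (c2 G.F (fm G.F c.m c.W ξ) x)⟫_ℝ) G.F.μ := by
      simp only [inner_st tm.ok]
      have k : ∀ {o}, Tam G.F o → Integrable (fun x => ‖hs G.F o x (c2 G.F (fm G.F c.m c.W ξ) x)‖ ^ 2)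
          G.F.μ := fun t => (q.integrable_norm_pow two_ne_zero).mono'
        ((t.cb_hs.choose_spec.1.continuous.clm_apply (sm_c2 z.fo.sm).continuous).norm.pow
          2).aestronglyMeasurable (.of_forall fun x => by
            rw [Real.norm_eq_abs, abs_sq]; gcongr; exact norm_hs_le t.ok x _)
      exact (k tm).sub (k tm.neg)
    simp only [A.kd hB hG hS] at i
    have := ((integrable_indicator_iff m).1 i).const_mul (-(8 * π ^ 2))⁻¹
    refine this.congr (.of_forall fun x => ?_)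
    beta_reduce
    rw [← mul_assoc, inv_mul_cancel₀ (neg_ne_zero.2 (by positivity)), one_mul]
  · rw [integ_mul tm.ok z.fo.dg]
    simp only [A.kd hB hG hS]
    rw [integral_indicator m, integral_const_mul]
    field_simp
    ring

end lev
end Crest.Agent.X212.Qab60
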