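import Crest.Agent.X212.Qab60.Hol
import Crest.Agent.X212.Qab60.Abl
import Crest.Agent.X212.Sep15.Gau
import Crest.Agent.X212.Ink3.Main

/-! X212 / QAB (helper60): abelian solutions of a job and the problem on forms. -/

set_option autoImplicit false
set_option linter.unusedSectionVars false
noncomputable section
open scoped Manifold ContDiff Topology InnerProductSpace Real
open MeasureTheory Set Function Filter
open Crest.Agent.R208.F (Ext)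

namespace Crest.Agent.X212.Qab60
open An Prm93 Num57 M Nd18 Rf65 G75 Ins26 Cyf70
open Int54 (integ Ori SameOn)
open Dr59 (Cs dM pm)
open Fin37 (Pm)
open Abel74 (fm)
open Tmp64 (AdmOn Eq0 admOn_univ)
open Dfl49 (PI)
open Wrd81 (TmIn)

theorem tn_eq {α V : Type} [NormedAddCommGroup V] [NormedSpace ℝ V] {u v : Fm α ℝ} {ξ : V}
    (h : ξ ≠ 0) : tn u ξ - tn v ξ = 0 ↔ u = v :=
  ⟨fun e => PiLp.ext fun s => smul_left_injective ℝ h (sub_eq_zero.1 (congrArg (· s) e :)),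
    fun e => e ▸ sub_self _⟩

variable {Wi : Type} {X : Mf 4} {A κ lam : Type} [Fintype A] [Fintype κ] [Fintype lam]
  [DecidableEq lam] {M : Mark X A κ} {W : World M} {N : ML M lam} {Λ : Lns W N}
  {A' h : Type} [Fintype A'] [DecidableEq A'] [Fintype h] {r n : ℕ}
  {J : Job Wi Λ A' h r n} {c : M.Cl} {R : A} {ν : Type} [Fintype ν] [DecidableEq ν]
  {Q : QT (W.Z c).E (W.Z c).M ν} {θ : (J.xs R).Y.M → Circle} {ϖ : (J.xs R).Y.M → V3}
  {q : Wi →₀ ℝ} {s s' : A' → ℝ} {f a : (W.Z c).M → Ext (W.Z c).E} {k : ℝ}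
  {x : Cg' W c lam r} {ξ : (W.Z c).M → x.m.A} {z : (W.Z c).M}

/-- the leaf MOD on `Z c` -/
abbrev ModZ (W : World M) (c : M.Cl) (lam : Type) [Fintype lam] [DecidableEq lam] : Prop :=
  ModStmt (W.Z c).I (W.Z c).M (Option κ) lam

namespace JQ
variable (H : JQ J c R Q θ ϖ)
include H

theorem cl : IsClopen (oI W c R) := Cyl58.isClopen_pc W.toCaps (H.one ▸ Mp86.St.piece_hp false)

theorem hB : (J.B c).OK (W.Z c).I := Λ.B_ok _ _

variable (hs : Pm J c s)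
include hs

theorem hG : (J.G c s).OK (J.B c) := Λ.G_ok _ (Pm.memO H.ok hs)

theorem tam : Tam (J.G c s).F (J.B c).o := tam_W Λ (Pm.memO H.ok hs)

theorem qok : (Q.on (oI W c R)).OK (W.Z c).I (kI J c R s (H.act hs)).ψ θ ϖ (Λ.Λ J.m c).p :=
  (H.qe s _).ok

theorem integ_eq (w : (W.Z c).M → Ext (W.Z c).E) :
    integ (W.Z c).I Q.O w = integ (W.Z c).I (vol (J.G c s).F (J.B c).o) w :=
  (H.qe s (H.act hs)).integ_eq w

section ab
variable (hA : Ab (J.B c) (J.G c s) (oI W c R) x ξ)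
include hA

theorem cz : Cz (W.Z c).I (oI W c R) (xf J c s x ξ) := hA.cz H.hB (H.hG hs) H.cl

/-- **PURE**: the terms at an abelian point -/
theorem pure (hz : z ∈ oI W c R) : (J.τ c q s).D x z = 0 ∧
    (J.τ c q s).C x z = tn (aF c J q.support q s (c2 (J.G c s).F (xf J c s x ξ)) z) (ξ z) := by
  classical
  obtain ⟨σ, h1, h2, h3⟩ := id hs
  have g := fun w (k : TmIn (W.Z c).I univ (Fin37.tm J c w)) => Sep15.Gau.gau _ _ _ _ r n _ _ _ x ξ H.hB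
    (H.hG hs) (H.tam hs).tm H.cl hA _ k (Nat75.bas_tm (H.bas w)) z hz
  have i : ∀ w, J.co w s ≠ 0 → TmIn (W.Z c).I univ (Fin37.tm J c w) := fun w k =>
    (H.ok.tw_in h1 ⟨J.cl_dom h2, h3⟩ k).choose_spec.mono (subset_univ _)
  rw [Ink3.τ_nil c s (fun a => (H.nl a).1) fun a w => congrFun (H.nl a).2 w]
  refine ⟨Finset.sum_eq_zero fun w _ => ?_, PiLp.ext fun t => ?_⟩
  · change q w • J.co w s • x.tD (J.B c) (J.G c s).F (Fin37.tm J c w) z = 0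
    by_cases k : J.co w s = 0
    · rw [k, zero_smul, smul_zero]
    · rw [(g w (i w k)).1, smul_zero, smul_zero]
  · change (∑ w ∈ q.support, q w • J.co w s • x.tC (J.B c) (J.G c s).F (Fin37.tm J c w) z) t = _
    simp only [tn, aF, smF, wS, Finset.sum_filter, Finset.sum_apply, WithLp.ofLp_sum, Finset.sum_smul]
    refine Finset.sum_congr rfl fun w _ => ?_
    by_cases k : J.co w s = 0
    · simp [k]
    · simp [(g w (i w k)).2, if_pos (i w k), tn, smul_smul, mul_assoc]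

theorem eC_iff (hz : z ∈ oI W c R) : x.eC (J.B c) (J.G c s) (J.τ c q s) z = 0 ↔
    Num57.hs (J.G c s).F (J.B c).o z (c2 (J.G c s).F (xf J c s x ξ) z) =
      aF c J q.support q s (c2 (J.G c s).F (xf J c s x ξ)) z := by
  have k := Qa50.addStmt _ _ _ _ r _ _ _ x ξ H.hB (H.hG hs) H.cl hA
  rw [Cfg.eC, (k.2.1 z hz).1, (H.pure hs hA hz).2, tn_eq (k.2.2.2 z hz)]

theorem eD (hz : z ∈ oI W c R) : x.eD (J.G c s) (J.τ c q s) z = 0 := by
  rw [Cfg.eD, (H.pure hs hA hz).1, ((Qa50.addStmt _ _ _ _ r _ _ _ x ξ H.hB (H.hG hs) H.cl hA).2.1 z hz).2,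
    sub_zero]

theorem add (fo : Fo (W.Z c).I 1 a) (o : Off (oI W c R) a) :
    Ab (J.B c) (J.G c s) (oI W c R) (ada (J.G c s).F x ξ a) ξ ∧
      xf J c s (ada (J.G c s).F x ξ a) ξ = xf J c s x ξ + dM (W.Z c).I a :=
  (Qa50.addStmt _ _ _ _ r _ _ _ x ξ H.hB (H.hG hs) H.cl hA).1 a fo o

/-- solutions on forms give abelian solutions -/
theorem ai_of (hf : Cz (W.Z c).I (oI W c R) f) (hc : HasCompactSupport f) (S : ASj J c R q s f a)
    (e : xf J c s x ξ = f + dM (W.Z c).I a) :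
    AI J c R q s x (-(4 * π ^ 2)⁻¹ * integ (W.Z c).I Q.O (f * f)) ξ := by
  have l := hA.lev H.hB (H.hG hs) (H.tam hs) H.cl
    ((show fm _ _ _ _ = _ from e) ▸ (sq_of_hcs hf.fo.sm hc).add S.sq)
  refine ⟨hs, hA, fun z hz => (H.eC_iff hs hA hz).2 (e ▸ S.eq z hz), l.1, l.2.trans ?_⟩
  rw [show fm _ _ _ _ = _ from e, (H.pc hs).integ_sq hf hc S.fo S.off S.sq, H.integ_eq hs]

theorem trn (hs' : Pm J c s') : ∃ V : x.m.Cn,
    Ab (J.B c) (J.G c s') (oI W c R) ⟨x.m, V, x.Φ, x.z⟩ ξ ∧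
      xf J c s' ⟨x.m, V, x.Φ, x.z⟩ ξ = xf J c s x ξ ∧ ∀ ha ha' β ξ₀ T,
        Sd (kI J c R s ha) x ξ β ξ₀ T → Sd (kI J c R s' ha') ⟨x.m, V, x.Φ, x.z⟩ ξ β ξ₀ T :=
  let ⟨V, h1, h2, h3⟩ := Cay24.trnStmt r _ _ _ _ x ξ H.hB (H.hG hs) (H.hG hs') hA
  ⟨V, h1, h2, fun ha ha' _ _ _ k => k.trn (H.ok.end_eq ha ha') (h3 _ (kI J c R s ha).ψ.open_target
    fun i _ hx => SameN.agr (H.ok.end_eq ha ha') i hx)⟩

end ab

/-- the reference of the class `π γ` -/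
theorem exists_ref (hM : ModZ W c lam) {x' : Cg' W c lam r}
    (a' : AdmOn x' (J.B c) (J.G c s) (oI W c R)ᶜ) (fo : Fo (W.Z c).I 1 a) (o : Off (oI W c R) a) :
    ∃ (x : Cg' W c lam r) (ξ : _) (u : _), Ab (J.B c) (J.G c s) (oI W c R) x ξ ∧
      xf J c s x ξ = π • Q.γ false + dM (W.Z c).I a ∧ Eq0 (J.G c s).F x' x (oI W c R)ᶜ u := by
  have e := (Λ.Λ J.m c).B_eq (Mark.mem_Ω _ (Pm.memO H.ok hs))
  obtain ⟨m, V, η, m1, m2, m3, m4⟩ := hM ((Λ.Λ J.m c).ln (J.Θ s)) (J.G c s).F (J.B c).o (J.B c) _ _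
    (H.tam hs).ok ((Λ.Λ J.m c).ok _) (e.trans (by rw [show (J.B c).o = _ from congrArg Base.o e]; rfl))
    H.cl.isOpen (H.qok hs).ref
  obtain ⟨x, ξ, u, v, p1, p2, -, -, p3⟩ := Cay24.pstStmt r _ _ _ m V η x' H.hB (H.hG hs) H.cl
    m1 m2 m3 a'
  obtain ⟨b, b1, b2, b3⟩ := ((H.cz hs p1).sub ((cz_of_cs ((H.qok hs).cγ false)).smul π)).ex H.cl
    (let ⟨b, b1, b2⟩ := m4; ⟨b, b1, fun y hy => (b2 y hy).trans (congrArg (· - _) (p3 hy).symm)⟩)
  obtain ⟨k1, k2⟩ := H.add hs p1 (fo.sub b1) (o.sub b2)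
  refine ⟨ada (J.G c s).F x ξ (a - b), ξ, v, k1, ?_, p2.iso, fun y hy i => ?_, fun y hy => (add_zero _).trans (p2.Φ y hy), p2.z⟩
  · rw [k2, fo.d_sub b1, ← b3]; abel
  · have : (ada (J.G c s).F x ξ (a - b)).W i y = x.W i y := by
      change x.W i y + opL (c1 (J.G c s).F (a - b) y i • ξ y) = _
      rw [p1.rd.off y hy, smul_zero, map_zero, add_zero]
    rw [this]
    exact p2.par y hy i

end JQ

namespace AI
variable (H : JQ J c R Q θ ϖ) (I : AI J c R q s x k ξ)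
include H I

theorem sq : Sq (J.G c s).F (xf J c s x ξ) := by
  obtain ⟨K, hK, e⟩ := smF_supp (T := Fin37.tm J c) (ι := Option κ) (wS c J q.support) fun _ => wS_in
  exact I.ab.sq H.hB (H.hG I.pm) (H.tam I.pm) H.cl hK (fun z hz m =>
    ((H.eC_iff I.pm I.ab hz).1 (I.C z hz)).trans (e _ _ _ _ z m)) I.int

/-- abelian solutions give solutions on forms -/
theorem as (hf : Cz (W.Z c).I (oI W c R) f) (hc : HasCompactSupport f)
    (e : ∀ j, integ (W.Z c).I Q.O (xf J c s x ξ * Q.ε j) = integ (W.Z c).I Q.O (f * Q.ε j)) :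
    ∃ a, ASj J c R q s f a ∧ xf J c s x ξ = f + dM (W.Z c).I a := by
  obtain ⟨a, a1, a2, a3, a4⟩ := (H.qe s (H.act I.pm)).cls (H.cz I.pm I.ab) (I.sq H)
  obtain ⟨b, b1, b2, b3, b4⟩ := (H.qe s (H.act I.pm)).cls hf (sq_of_hcs hf.fo.sm hc)
  have k : xf J c s x ξ = f + dM (W.Z c).I (a - b) := by
    rw [a1.d_sub b1, a4, funext e]
    conv_rhs => rw [b4]
    abel
  exact ⟨a - b, ⟨a1.sub b1, a2.sub b2, a1.d_sub b1 ▸ a3.sub b3,
    fun z hz => k ▸ (H.eC_iff I.pm I.ab hz).1 (I.C z hz)⟩, k⟩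

theorem lev_eq : ∑ j, integ (W.Z c).I Q.O (xf J c s x ξ * Q.ε j) ^ 2 = 4 * π ^ 2 * k := by
  obtain ⟨a, S, e⟩ := I.as H ((H.qok I.pm).cz_fv _) ((H.qok I.pm).hc_fv _) fun j =>
    ((H.qok I.pm).per_fv (fun j => integ _ Q.O (xf J c s x ξ * Q.ε j)) j).symm
  have := (H.ai_of I.pm I.ab ((H.qok I.pm).cz_fv _) ((H.qok I.pm).hc_fv _) S e).lev
  rw [I.lev, show integ _ Q.O _ = _ from (H.qok I.pm).sq_fv _] at this
  rw [this]
  field_simp

/-- the periods are `π (a + 2 m)` -/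
theorem per_int (hM : ModZ W c lam) (j : ν) : ∃ m : ℤ, integ (W.Z c).I Q.O (xf J c s x ξ * Q.ε j) =
    π * ((if j ∈ Q.Z then -Q.a j else 0 : ℤ) + 2 * m) := by
  obtain ⟨y, η, -, A, e, -⟩ := H.exists_ref I.pm hM ((admOn_univ.2 I.ab.adm).mono (subset_univ _))
    Fo.zero fun _ _ => rfl
  obtain ⟨l, _, _, L, l1, l2⟩ := Qa50.hlStmt _ _ _ _ r r _ _ _ y η x ξ H.hB (H.hG I.pm) A I.ab
  obtain ⟨m, hm⟩ := (H.qok I.pm).int l L l1 j
  have cε := (H.qok I.pm).cε j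
  have s1 := fun z (_ : z ∈ oI W c R) => (H.cz I.pm I.ab).fo.sm z
  have s2 := fun z (_ : z ∈ oI W c R) => (H.cz I.pm A).fo.sm z
  have := cε.ip_coh (H.qok I.pm).ori (l1.cl_F H.cl.isOpen).sm (fun z hz => (s1 z hz).sub (s2 z hz)) l2
  rw [cε.ip_sub (H.qok I.pm).ori s1 s2, e, Dr59.dM_zero, add_zero,
    Dr59.ip_smul, show Dr59.ip _ _ (Q.γ false) _ = _ from (H.qok I.pm).per_γ j,
    show Dr59.ip _ _ (L.F _) _ = _ from hm] at this
  refine ⟨m, (sub_eq_iff_eq_add.1 this.symm).trans ?_⟩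
  split_ifs <;> push_cast <;> ring

end AI
end Crest.Agent.X212.Qab60
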