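import Crest.Agent.X212.Qab60.End
import Crest.Agent.X212.Sep15.QaR
import Crest.Agent.X212.Qd40.Dec
import Crest.Agent.X212.Qd40.Tail
import Crest.Agent.X212.Qd40.H1
import Crest.Agent.X212.Qa50.Hl
import Crest.Agent.X212.Uq54.Main
import Crest.Agent.X212.Lns95.Cj

/-! X212 / QAB (helper60): classes of square integrable forms, levels and limits. -/

set_option autoImplicit false
set_option linter.unusedSectionVars false
noncomputable section
open scoped Manifold ContDiff Topology InnerProductSpace Real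
open MeasureTheory Set Function Filter Module
open Crest.Agent.R208.F (Ext)

namespace Crest.Agent.X212.Qab60
open An Nd18 Num57 Int54
open M (Mf)
open Cyf70 (IC)
open Dr59 (dM df pm mf Mp Cs Ex ip)
open Abel74 (fm)
open Dfl49 (One PI)
open Rf65 (PR V3)
open Eqv71 (cj)

theorem Ct.scale {χ : ℝ → ℝ} (h : Ct 0 χ) {n : ℝ} (hn : 0 < n) : Ct 0 fun s => χ (s / n) :=
  let ⟨a, b, h0, h1, h2⟩ := h.ex
  ⟨h.sm.comp (contDiff_id.div_const n), a * n, b * n, mul_pos h0 hn,
    fun _ hs => h1 _ ((div_le_iff₀ hn).2 hs), fun _ hs => h2 _ ((le_div_iff₀ hn).2 hs)⟩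

variable {Y : Mf 3} [CompactSpace Y.M] {κ : Type} [Fintype κ] {lam : Type} [Fintype lam]
  {D : YD Y.I Y.M κ lam}
  {E : Type} [NormedAddCommGroup E] [NormedSpace ℝ E] [FiniteDimensional ℝ E]
  [MeasurableSpace E] [BorelSpace E]
  {HM : Type} [TopologicalSpace HM] {I : ModelWithCorners ℝ E HM} [I.Boundaryless]
  {M : Type} [TopologicalSpace M] [ChartedSpace HM M] [IsManifold I ∞ M] [T2Space M]
  [MeasurableSpace M] [BorelSpace M] [SecondCountableTopology M]
  {B : Base M (Option κ) lam} {G : Geo I M (Option κ) lam}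
  {ν : Type} [Fintype ν] [DecidableEq ν] {lam' : Type} [Fintype lam']

theorem c1_congr {ι : Type} [Fintype ι] {F : Fr I M ι} {a b : M → Ext E} {x : M} (h : a x = b x) :
    c1 F a x = c1 F b x := by simp only [c1, k1, h]

theorem En.meas {K : Nk D B G} {Ω : Set M} (h : En K Ω) {b : ℝ} (hb : 0 ≤ b) :
    G.F.μ.real (K.tm ⁻¹' Ioc 0 b) = D.F.μ.real univ * b := by
  obtain ⟨o, ho, -⟩ := exists_cy D.F (ori (okZ h.hD))
  have := h.bnd.integral h.hv h.hG.vol ho measurableSet_Ioc (Ioc_subset_Ioi_self (a := b)) fun _ => 1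
  rw [h.img Ioc_subset_Ioi_self] at this
  simpa [measureReal_prod_prod, hb] using this

/-- the model form with the periods `v` -/
def QT.fv (q : QT E M ν) (v : ν → ℝ) : M → Ext E := ∑ k, (-v k) • q.ε k

/-- change of the name of the piece -/
abbrev QT.on (q : QT E M ν) (Ω : Set M) : QT E M ν := { q with Ω := Ω }

namespace QT.OK
variable {q : QT E M ν} {ψ : Y.M × ℝ → M} {θ : Y.M → Circle} {ϖ : Y.M → V3}
  {p : M → Matrix lam' lam' ℂ} (h : q.OK I ψ θ ϖ p) {a : M → Ext E}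
include h

theorem hc_sum (c : ν → ℝ) : HasCompactSupport (∑ k, c k • q.ε k) :=
  Finset.sum_induction _ HasCompactSupport (fun _ _ => .add) HasCompactSupport.zero
    fun k _ => (h.cε k).hc.mono fun x hx e => hx (by rw [Pi.smul_apply, e, smul_zero])

theorem per_sum (c : ν → ℝ) (j : ν) : integ I q.O ((∑ k, c k • q.ε k) * q.ε j) = -c j := by
  simpa [Pi.single_apply] using h.gram_sum c (Pi.single j 1)

theorem cz_fv (v : ν → ℝ) : Cz I q.Ω (q.fv v) := cz_sum (fun k => cz_of_cs (h.cε k)) _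

theorem hc_fv (v : ν → ℝ) : HasCompactSupport (q.fv v) := h.hc_sum _

theorem per_fv (v : ν → ℝ) (j : ν) : integ I q.O (q.fv v * q.ε j) = v j :=
  (h.per_sum _ j).trans (neg_neg _)

theorem sq_fv (v : ν → ℝ) : integ I q.O (q.fv v * q.fv v) = -∑ k, v k ^ 2 := by
  simp only [QT.fv, h.gram_sum, neg_mul_neg, sq]

theorem per_add {f : M → Ext E} (hf : Fo I 2 f) (ha : Fo I 1 a) (j : ν) :
    integ I q.O ((f + dM I a) * q.ε j) = integ I q.O (f * q.ε j) :=
  ((h.cε j).ip_add h.ori (fun x _ => hf.sm x) fun x _ => ha.d.sm x).trans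
    (add_eq_left.2 ((h.cε j).ip_ex h.ori ⟨a, fun x _ => ha.sm x, fun _ _ => rfl⟩))

theorem per_γ (j : ν) : integ I q.O (q.γ false * q.ε j) = if j ∈ q.Z then -(q.a j : ℝ) else 0 := by
  have e : ∑ k ∈ q.Z, (q.a k : ℝ) • q.ε k = ∑ k, (if k ∈ q.Z then (q.a k : ℝ) else 0) • q.ε k := by
    simp [ite_smul, Finset.sum_ite_mem]
  have := (h.cε j).ip_coh h.ori (fun x _ => (h.cγ false).cl.sm x trivial) (fun x _ =>
    (cz_sum (fun k => cz_of_cs (h.cε k)) _).fo.sm x) (e ▸ h.exγ)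
  rw [ip, ip, h.per_sum] at this
  rw [this]; split_ifs <;> simp

end QT.OK

/-- the inside of the wall -/
structure Qe (K : Nk D B G) (q : QT E M ν) (θ : Y.M → Circle) (ϖ : Y.M → V3)
    (p : M → Matrix lam' lam' ℂ) : Prop extends En K q.Ω where
  hB : B.OK I
  ok : q.OK I K.ψ θ ϖ p
  so : SameOn q.O (vol G.F B.o) univ
  pr : PR D.F θ ϖ

theorem endS (D : YD Y.I Y.M κ lam) : EndStmt D :=
  Sep15.Qa.endS D (Qd40.decStmt D) (Qd40.tailStmt _) (Qd40.h1Stmt _)

namespace Qe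
variable {K : Nk D B G} {q : QT E M ν} {θ : Y.M → Circle} {ϖ : Y.M → V3}
  {p : M → Matrix lam' lam' ℂ} (h : Qe K q θ ϖ p) {w a : M → Ext E} {χ : ℝ → ℝ} {T : ℝ}
include h

theorem exV : ∃ V ≠ (0 : ℝ), ∀ T χ, Cf T χ → hpr D ϖ χ (aZ θ) = V :=
  let ⟨V, h1, h2, _⟩ := Sep15.Qa.flx D θ ϖ h.hD h.pr; ⟨V, h1, h2⟩

theorem pc : Pc G.F B.o q.Ω := let ⟨_, h1, h2⟩ := h.exV; h.toEn.pc h.ok h.so h1 h2

theorem ov : Ori I (vol G.F B.o) := ori h.tam.ok

theorem integ_eq (w : M → Ext E) : integ I q.O w = integ I (vol G.F B.o) w :=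
  integ_congr_ori h.ok.ori h.ov h.so w

theorem hcα : HasCompactSupport (dM I q.α) := h.ok.dα ▸ (h.ok.cγ _).hc.sub (h.ok.cγ _).hc

theorem ec_α (k : Ct 0 χ) : ec K q.Ω χ • dM I q.α = dM I q.α :=
  h.ec_smul k (h.ok.fα.2.d h.cl) fun x hx => by
    rw [h.ok.dα, Pi.sub_apply, h.toEn.γ0 h.ok _ hx, h.toEn.γ0 h.ok _ hx, sub_zero]

theorem α_η : integ I (vol G.F B.o) (dM I q.α * q.η false) ≠ 0 := by
  obtain ⟨χ, k⟩ := exists_ct 0
  obtain ⟨V, V0, hV⟩ := h.exV
  have := h.toEn.hl_α h.ok hV k false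
  rw [hl, mul_smul_comm, ← smul_mul_assoc, h.ec_α k] at this
  have x0 : (q.x : ℝ) ≠ 0 := Int.cast_ne_zero.2 fun e => by simpa [e] using h.ok.odd
  rw [this]
  exact neg_ne_zero.2 (mul_ne_zero (div_ne_zero x0 (by positivity)) V0)

/-- square integrable closed forms have no flux through the sphere -/
theorem α_orth (hw : Cz I q.Ω w) (hq : Sq G.F w) : integ I (vol G.F B.o) (dM I q.α * w) = 0 := by
  obtain ⟨χ, k⟩ := exists_ct 0
  obtain ⟨v, hv⟩ := hq.exists
  obtain ⟨C, hC⟩ := k.cf.hc.exists_bound_of_continuous (k.sm.continuous_deriv (by simp))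
  obtain ⟨-, b, -, -, hb⟩ := k.ex
  have C0 := (norm_nonneg _).trans (hC 0)
  set L := 2 * (C * |q.x / (2 * π)|)
  have key : ∀ n : ℕ, integ I (vol G.F B.o) (dM I q.α * w) ^ 2 ≤
      L ^ 2 * (D.F.μ.real univ * |b|) * ‖v‖ ^ 2 / (n + 1) := fun n => by
    have n0 := n.cast_add_one_pos (α := ℝ)
    have g := h.hgt (k.scale n0)
    have fo := (fo_df g.sm).mul h.ok.fα.1
    have hc : HasCompactSupport (df I (ec K q.Ω fun s => χ (s / (n + 1))) * q.α) :=
      (hcs_df (h.hc_ec (k.scale n0))).mul_right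
    obtain ⟨u, hu⟩ := (sq_of_hcs (F := G.F) fo.sm hc).exists
    have e := h.tam.integ_cut g.sm (h.hc_ec (k.scale n0)) h.ok.fα.1 hw.fo hw.cl
    rw [← smul_mul_assoc, h.ec_α (k.scale n0), ← mul_assoc] at e
    have e2 := h.tam.abs_Bw u v
    rw [h.tam.Bw_eq hu hv fo.dg, abs_mul, abs_two] at e2
    have pt : ∀ x, ‖c2 G.F (df I (ec K q.Ω fun s => χ (s / (n + 1))) * q.α) x‖ ^ 2 ≤
        (K.tm ⁻¹' Ioc 0 (|b| * (n + 1))).indicator (fun _ => (L / (n + 1)) ^ 2) x := fun x => by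
      by_cases hx : x ∈ K.ψ '' (univ ×ˢ Ioi 0)
      · obtain ⟨z, hz, rfl⟩ := hx
        have d1 : ‖c1 G.F (df I (ec K q.Ω fun s => χ (s / (n + 1)))) (K.ψ z)‖ =
            |deriv χ (z.2 / (n + 1))| / (n + 1) := by
          have := h.bnd.gr2_hgt g hz.2
          rw [one_mul, show deriv (fun s => χ (s / (n + 1))) z.2 = deriv χ (z.2 / (n + 1)) / (n + 1) from
            (((k.sm.differentiable (by simp) _).hasDerivAt.comp z.2
              ((hasDerivAt_id z.2).div_const _)).deriv).trans (by rw [mul_one_div]; rfl)] at this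
          rw [EuclideanSpace.norm_eq, show |deriv χ (z.2 / (n + 1))| / (n + 1) =
            |deriv χ (z.2 / (n + 1)) / (n + 1)| by rw [abs_div, abs_of_pos n0],
            ← Real.sqrt_sq_eq_abs, ← this]
          simp only [c1_df, Kah60.gr2, Real.norm_eq_abs, sq, abs_mul_abs_self]
        have d2 : ‖c1 G.F q.α (K.ψ z)‖ = |q.x / (2 * π)| := by
          rw [← h.c1_pm hz.2, c1_congr (h.ok.αE hz), c1_smul, Pi.smul_apply, norm_smul,
            Sep15.Qa.norm_aZ h.pr, mul_one, Real.norm_eq_abs]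
        have := norm_c2_mul (F := G.F) (b := q.α) ((fo_df g.sm).dg (K.ψ z))
        rw [d1, d2] at this
        by_cases m : z.2 ≤ |b| * (n + 1)
        · rw [indicator_of_mem (show K.ψ z ∈ K.tm ⁻¹' _ by rw [mem_preimage, h.tm hz.2]; exact ⟨hz.2, m⟩)]
          refine pow_le_pow_left₀ (norm_nonneg _) (this.trans ?_) 2
          rw [div_mul_eq_mul_div, ← mul_div_assoc]
          exact div_le_div_of_nonneg_right (mul_le_mul_of_nonneg_left
            (mul_le_mul_of_nonneg_right (hC _) (abs_nonneg _)) zero_le_two) n0.le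
        · have : deriv χ (z.2 / (n + 1)) = 0 := by
            refine (Filter.EventuallyEq.deriv_eq (f := fun _ => 0) ?_).trans (deriv_const _ _)
            filter_upwards [Ioi_mem_nhds ((le_abs_self b).trans_lt ((lt_div_iff₀ n0).2
              (not_le.1 m)))] with s hs using hb s (le_of_lt hs)
          simp_all [indicator_nonneg, sq_nonneg]
      · rw [c2_of_zero (by rw [Pi.mul_apply, g.off x hx, zero_mul]), norm_zero, sq, mul_zero]
        exact indicator_nonneg (fun _ _ => sq_nonneg _) _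
    have ms : MeasurableSet (K.tm ⁻¹' Ioc 0 (|b| * (n + 1))) := K.cont.measurable measurableSet_Ioc
    have fin : G.F.μ (K.tm ⁻¹' Ioc 0 (|b| * (n + 1))) ≠ ⊤ := (lt_of_le_of_lt
      (measure_mono fun x hx => And.intro (h.mem hx.1) hx.2) (h.cpt (|b| * (n + 1))).measure_lt_top).ne
    have := integral_mono (hu.memLp.integrable_norm_pow two_ne_zero)
      ((integrableOn_const fin).integrable_indicator ms) pt
    rw [← is_norm hu, integral_indicator_const _ ms, h.meas (by positivity), smul_eq_mul] at this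
    rw [e, neg_sq, ← sq_abs]
    calc _ ≤ (‖u‖ * ‖v‖) ^ 2 := by gcongr; linarith
      _ ≤ _ := by
        rw [mul_pow, mul_div_right_comm]
        exact mul_le_mul_of_nonneg_right (this.trans_eq (by field_simp)) (sq_nonneg _)
  exact pow_eq_zero_iff two_ne_zero |>.1 (le_antisymm (ge_of_tendsto'
    ((tendsto_const_div_atTop_nhds_zero_nat _).comp (tendsto_add_atTop_nat 1))
      fun n => by simpa using key n) (sq_nonneg _))

/-- the class of a square integrable closed form -/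
theorem cls (hw : Cz I q.Ω w) (hq : Sq G.F w) : ∃ a, Fo I 1 a ∧ Off q.Ω a ∧ Sq G.F (dM I a) ∧
    w = q.fv (fun j => integ I q.O (w * q.ε j)) + dM I a := by
  obtain ⟨c, r, e⟩ := h.ok.span w hw
  have cε := cz_sum (fun k => cz_of_cs (h.ok.cε k)) c
  obtain ⟨a, a1, a2, a3⟩ := ((hw.sub cε).sub ((h.ok.cη false).smul r)).ex h.cl e
  have cα : Cs I 2 q.Ω (dM I q.α) := (cz_d h.cl h.ok.fα.1 h.ok.fα.2).cs h.cl h.hcα
  have sm : ∀ {f}, Cz I q.Ω f → Dr59.Sm I q.Ω f := fun k x _ => k.fo.sm x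
  have k := cα.ip_ex h.ov e
  rw [cα.ip_sub h.ov (sm (hw.sub cε)) (sm ((h.ok.cη false).smul r)), cα.ip_sub h.ov (sm hw) (sm cε),
    Dr59.ip_smul, ip, ip, ip, hw.fo.comm2, h.α_orth hw hq, cε.fo.comm2, (h.ok.cη false).fo.comm2,
    integ_d h.ov h.ok.fα.1 cε.fo cε.cl (h.ok.hc_sum c).mul_left, sub_zero, zero_sub, neg_eq_zero] at k
  obtain rfl : r = 0 := (mul_eq_zero.1 k).resolve_right h.α_η
  rw [zero_smul, sub_zero] at a3 e
  have ec : c = fun j => -integ I q.O (w * q.ε j) := funext fun j => by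
    have := (h.ok.cε j).ip_ex h.ok.ori e
    rw [(h.ok.cε j).ip_sub h.ok.ori (sm hw) (sm cε), ip, ip, h.ok.per_sum] at this
    linarith
  refine ⟨a, a1, a2, a3 ▸ hq.sub (sq_of_hcs cε.fo.sm (h.ok.hc_sum c)), ?_⟩
  rw [← a3, ec, QT.fv, add_sub_cancel]

end Qe
end Crest.Agent.X212.Qab60
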