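import Crest.Agent.X212.Qab60.Lq
import Crest.Agent.X212.Qab60.Cls
import Crest.Agent.X212.Qt4.Top
import Crest.Agent.X212.Mp86.St

/-! X212 / QAB (helper60): the abelian problem on forms; the leaves of `HiStmt`. -/

set_option autoImplicit false
set_option linter.unusedSectionVars false
noncomputable section
open scoped Manifold ContDiff Topology InnerProductSpace Real
open MeasureTheory Set Function Filter
open Crest.Agent.R208.F (Ext)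

namespace Crest.Agent.X212.Qab60
open An Prm93 Num57 M Nd18 Rf65 G75 Ins26 Cyf70
open Int54 (integ Ori SameOn)
open Dr59 (Cs dM pm)
open Abel74 (fm)
open Hol14 (flux)
open Fin37 (Pm)
open Wrd81 (Bas)

section job
variable {Wi : Type} {X : Mf 4} {A κ lam : Type} [Fintype A] [Fintype κ] [Fintype lam]
  [DecidableEq lam] {M : Mark X A κ} {W : World M} {N : ML M lam} {Λ : Lns W N}
  {A' h : Type} [Fintype A'] [DecidableEq A'] [Fintype h] {r n : ℕ}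
  (J : Job Wi Λ A' h r n) (c : M.Cl) (R : A)

/-- `b` bounds the terms: on the `b`-ball the abelian perturbation has norm `≤ 1/4` -/
def OpB (b : Wi → ℝ) : Prop := (∀ w, 0 ≤ b w) ∧ ∀ S : Finset Wi, ∃ k,
  ∀ q : Wi → ℝ, ∑ w ∈ S, |q w| * b w ≤ 1 → ∀ c s, Pm J c s →
    Op (J.G c s).F (J.B c).o (aH c J S q s) (aF c J S q s) (1 / 4) k

section
variable (θ : (J.xs R).Y.M → Circle) (ϖ : (J.xs R).Y.M → V3) (q : Wi →₀ ℝ) (s : A' → ℝ)
  (f : (W.Z c).M → Ext (W.Z c).E)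

/-- `f + d a` solves the perturbed anti-self-duality equation inside the wall -/
abbrev ASj (a : (W.Z c).M → Ext (W.Z c).E) : Prop :=
  AS (J.G c s).F (J.B c).o (oI W c R) (aF c J q.support q s) f a

/-- `t` is the holonomy at infinity of the potential of the solution in the class of `f` -/
def Hv (t : ℝ) : Prop := ∃ T, ∀ χ, Ct T χ → ∀ a, ASj J c R q s f a → ∀ ha,
  hpr (J.xs R).D ϖ χ (pm (IC (J.xs R).Y.I) (W.Z c).I (kI J c R s ha).ψ a) =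
    t * hpr (J.xs R).D ϖ χ (aZ θ)

/-- `TAf` for the form `f` (`TAf J c R q s x σ d ξ` is `TAg J c R q s (xf J c s x ξ) σ d`) -/
def TAg (σ : Cel A') (d : ℝ) : Prop :=
  ∀ ha : Act J.m c R (some false) (J.Θ s), ∀ T, ∃ Λ₀ : HK (J.G c s).F 0 →L[ℝ] ℝ,
    (∀ g u, Tst J c R s ha T g → Sob92.Is (J.G c s).F.toPre 0 _ u g → Λ₀ u = 0 →
      ∃ a T', Fo (W.Z c).I 1 a ∧ Off (oI W c R) a ∧
        (∀ z ∈ oI W c R, aE J c q s (dM (W.Z c).I a) z = g z) ∧ 0 ≤ T' ∧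
        Dc (J.xs R).D.F T' d (c1 (J.xs R).D.Z
          (pm (IC (J.xs R).Y.I) (W.Z c).I (kI J c R s ha).ψ a))) ∧
    (Λ₀ = 0 ∨ ∃ i, σ i = none ∧ (∃ e ∈ M.sys.inn (hp R false), J.hd i = some e) ∧ s i ∈ Ioo (0 : ℝ) 1 ∧
      ∃ (u : ℝ → HK (J.G c s).F 0) (u' : HK (J.G c s).F 0), HasDerivAt u u' (s i) ∧ Λ₀ u' ≠ 0 ∧
        ∀ᶠ t in 𝓝 (s i), Sob92.Is (J.G c s).F.toPre 0 _ (u t)
          ((oI W c R).indicator (aE J c q (update s i t) f)))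

end

theorem taf_iff (q s) (x : Cg' W c lam r) (σ d ξ) :
    TAf J c R q s x σ d ξ ↔ TAg J c R q s (xf J c s x ξ) σ d := Iff.rfl

/-- **the job inside the wall** -/
structure JQ {ν : Type} [Fintype ν] [DecidableEq ν] (Q : QT (W.Z c).E (W.Z c).M ν)
    (θ : (J.xs R).Y.M → Circle) (ϖ : (J.xs R).Y.M → V3) : Prop where
  ok : J.OK
  nl : ∀ a, Nl J a
  bas : ∀ w, Bas (J.tw w)
  one : c.1 = {R}
  np : ¬M.pin R
  O : Q.O = W.o c
  qe : ∀ s ha, Qe (kI J c R s ha) (Q.on (oI W c R)) θ ϖ (Λ.Λ J.m c).p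

variable {J c R}

theorem U_hp (b : Bool) : M.sys.U (hp R b) = (M.sys.w R).sd b :=
  Subset.antisymm (fun _ k => k R b (Mp86.St.hp_some.2 ⟨rfl, rfl⟩)) fun _ k _ _ e =>
    (Mp86.St.hp_some.1 e).1 ▸ (Mp86.St.hp_some.1 e).2 ▸ k

theorem oI_eq (np : ¬M.pin R) : oI W c R = W.φ c '' (M.sys.w R).sd false := by
  rw [oI, Caps.pc, U_hp, union_eq_left]
  rintro _ ⟨a, b, h1, h2, -⟩
  exact (np ((Mp86.St.hp_some.1 h2).1 ▸ h1)).elim

theorem JQ.act {ν : Type} [Fintype ν] [DecidableEq ν] {Q : QT (W.Z c).E (W.Z c).M ν} {θ ϖ}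
    (H : JQ J c R Q θ ϖ) {s : A' → ℝ} (hs : Pm J c s) : Act J.m c R (some false) (J.Θ s) :=
  let ⟨_, h1, h2, h3⟩ := hs
  ⟨H.np, H.ok.memBr h1 ⟨J.cl_dom h2, h3⟩, H.ok.memO h1 ⟨J.cl_dom h2, h3⟩, H.one.ge rfl⟩

end job

section scene
variable {κ lam : Type} [Fintype κ] [Fintype lam] [DecidableEq lam] {Lm : LM κ lam}

attribute [local instance] QD.dι

section
variable {S : Scene Lm} {D : S.Dat} {i : S.L} {Wi : Type} {r n : ℕ}
  (J : Job Wi (D.Λ i) (S.A ⊕ Unit) S.ls r n) {c : S.M.Cl} {R : S.A} {e : Bool → S.A} (Q : QD S R e)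

/-- the angle on the cross-section of the job -/
abbrev θJ : (J.xs R).Y.M → Circle := Q.θ ∘ J.g R
/-- the point of the sphere -/
abbrev ϖJ : (J.xs R).Y.M → V3 := Q.ϖ ∘ J.g R
/-- the coordinates of the two pinch walls -/
abbrev eI (e : Bool → S.A) (b : Bool) : S.A ⊕ Unit := .inl (e b)

variable {J Q}

theorem jq_of {E b z j n₀ T} (hQ : Q.OK i) (H : JR J R E b z j n₀ T) (h1 : c.1 = {R}) :
    JQ J c R (qt D.W c Q) (θJ J Q) (ϖJ J Q) := by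
  have o : Dfl49.Only S.M c.1 R false := fun a ha => .inl (h1.le ha)
  refine ⟨H.gx.ok, fun a => H.gx.nil a (by simp), H.gx.loc.bas, h1, hQ.np, rfl, fun s ha => ?_⟩
  have k := H.gx.ok.nk _ _ _ _ ha
  obtain ⟨t1, t2⟩ := Qt4.top S i R e Q hQ hQ.int D.W (D.Λ i) J.m c (h1.ge rfl) o ⟨_, ha.2.1⟩ Wi _
    (J.g R) (H.gx.ok.iso R hQ.np)
  have en := en_W ha k (H.gx.ok.xs R).1 o
  rw [oI_eq hQ.np]
  refine ⟨en, (D.Λ i).B_ok _ _, t1.congr fun y hy => ?_, (ok_W _ J.m ha.2.2.1).2, t2⟩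
  rw [Cht98.isNk_ψ ha k (en.J hy.2), show (J.Θ s).2 R = 1 from ha.2.1.2 ha.2.2.2]
  rfl

end

variable (Lm) in
/-- a property of all jobs of `QStmt`, with the data `Q` -/
def AllR (Z : ∀ {S : Scene Lm} {D : S.Dat} {i Wi r n} (_ : Job Wi (D.Λ i) (S.A ⊕ Unit) S.ls r n)
    (_ : S.M.Cl) (R : S.A) (e : Bool → S.A) (_ : QD S R e), Prop) : Prop :=
  ∀ (S : Scene Lm) (D : S.Dat) i Wi r n (J : Job Wi (D.Λ i) (S.A ⊕ Unit) S.ls r n) (c : S.M.Cl) R e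
    (Q : QD S R e) j n₀ T, Q.OK i → JR J R {e false, e true} 1 Q.Z.card j n₀ T → c.1 = {R} →
    PJ J c → Z J c R e Q

variable (Lm)

/-- **LEAF H-LOC**: the inside sees the two pinch coordinates only; the pinch lines -/
def HLoc : Prop := AllR Lm fun {S D _ _ _ _} J c R e _ =>
  (∀ σ s b, Ovc J c σ s → σ (eI e b) = none → J.hd (eI e b) = some (e b) ∧
    e b ∈ S.M.sys.inn (hp R false) ∧ s (eI e b) < 1 ∧ s (eI e (!b)) = 0 ∧
      ∀ t ∈ Ico (0 : ℝ) 1, Ovc J c σ (update s (eI e b) t)) ∧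
  ∀ q σ s s' x ξ, Ovc J c σ s → Ovc J c σ s' → (∀ b, s (eI e b) = s' (eI e b)) →
    Ab (J.B c) (J.G c s) (oI D.W c R) x ξ →
    (∀ z ∈ oI D.W c R, x.eC (J.B c) (J.G c s) (J.τ c q s) z = 0) →
    ∃ V : x.m.Cn, Ab (J.B c) (J.G c s') (oI D.W c R) ⟨x.m, V, x.Φ, x.z⟩ ξ ∧
      fm (J.G c s').F x.m V ξ = fm (J.G c s).F x.m x.W ξ ∧ ∀ z ∈ oI D.W c R,
        (⟨x.m, V, x.Φ, x.z⟩ : Cg' D.W c lam _).eC (J.B c) (J.G c s') (J.τ c q s') z = 0

/-- **LEAF H-FLX**: the fluxes through the inner cuts -/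
def HFlx : Prop := AllR Lm fun {S D _ _ _ _} J c R _ Q => (∀ l, Inn J R l ↔ l.1 ∈ lsI S R) ∧
  ∀ l, Inn J R l → ∀ (v : Q.ι → ℝ) a, (∀ k ∉ Q.Z, v k = 0) → Fo (D.W.Z c).I 1 a →
    flux (D.W.Z c).I (J.cut c l) ((qt D.W c Q).fv v + dM (D.W.Z c).I a) = -∑ k ∈ Q.Z, v k * Q.a k

/-- **LEAF H-CRN**: when the pinch neck `e b` gets long, the solution in the class of `π γ b`
dies outside of the neck -/
def HCrn : Prop := AllR Lm fun {S D _ _ _ _} J c R e Q => ∀ β, OpB J β → ∀ q σ s b, Ball β 0 q →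
  Ovc J c σ s → σ (eI e b) = none → ∀ a : ℝ → (D.W.Z c).M → Ext (D.W.Z c).E,
    (∀ t ∈ Ico (0 : ℝ) 1, ASj J c R q (update s (eI e b) t) (π • (qt D.W c Q).γ b) (a t)) →
    ∀ w, Fo (D.W.Z c).I 2 w → HasCompactSupport w → Off (oI D.W c R) w →
      (∀ z ∈ D.W.φ c '' hf S.M (e b) false, w z = 0) →
      Tendsto (fun t => integ (D.W.Z c).I (D.W.o c) (dM (D.W.Z c).I (a t) * w)) (𝓝[<] 1) (𝓝 0)

/-- **LEAF H-MOV**: an inner word moves the holonomy -/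
def HMov : Prop := AllR Lm fun {S D _ _ _ _} J c R _ Q => ∀ β, OpB J β → ∀ q s f a, Ball β 0 q →
  Pm J c s → Cz (D.W.Z c).I (oI D.W c R) f → HasCompactSupport f → ASj J c R q s f a →
  f + dM (D.W.Z c).I a ≠ 0 → ∃ w, (J.tw w).Van (S.M.sys.U (hp R true)) ∧ (∀ l, J.cc l w = 0) ∧
    ∀ H : ℝ → ℝ, (∀ᶠ t in 𝓝 (0 : ℝ), Hv J c R (θJ J Q) (ϖJ J Q) (q + Finsupp.single w t) s f (H t)) →
      deriv H 0 ≠ 0

/-- **LEAF H-TAF**: the abelian part is onto where the holonomy moves -/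
def HTaf : Prop := AllR Lm fun {S D _ _ _ _} J c R _ Q => ∃ d > (0 : ℝ), ∀ β, OpB J β →
  ∀ q σ s f a k, Ball β 0 q → Cz (D.W.Z c).I (oI D.W c R) f → HasCompactSupport f →
    ASj J c R q s f a → σ k = none → (∃ e ∈ S.M.sys.inn (hp R false), J.hd k = some e) →
    s k ∈ Ioo (0 : ℝ) 1 → (∀ t ∈ Ioo (0 : ℝ) 1, Pm J c (update s k t)) → ∀ H : ℝ → ℝ,
    (∀ t ∈ Ioo (0 : ℝ) 1, Hv J c R (θJ J Q) (ϖJ J Q) q (update s k t) f (H t)) →
    deriv H (s k) ≠ 0 → TAg J c R q s (f + dM (D.W.Z c).I a) σ d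

end scene
end Crest.Agent.X212.Qab60
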