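import Crest.Agent.X212.Qab60.Lin
import Crest.Agent.X212.Wrd81.Ap
import Crest.Agent.X212.Mp86.Wd
import Crest.Agent.X212.Abel74.Red

/-! X212 / QAB (helper60): scalar words as operators on `L²`; commutators with cut-offs. -/

set_option autoImplicit false
set_option linter.unusedSectionVars false
noncomputable section
open scoped Manifold ContDiff Topology InnerProductSpace
open MeasureTheory Finset Function Filter

namespace Crest.Agent.X212.Qab60
open An Sob92 Map77 Num57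
open Wrd81 (RH GH QH lap1 wd)
open Kah60 (gr2)
open Abel74 (G0 la0)
open Mp86 (G1 LLSz LaSz)

variable {E : Type} [NormedAddCommGroup E] [NormedSpace ℝ E] [FiniteDimensional ℝ E]
  [MeasurableSpace E] [BorelSpace E]
  {HM : Type} [TopologicalSpace HM] {I : ModelWithCorners ℝ E HM} [I.Boundaryless]
  {M : Type} [TopologicalSpace M] [ChartedSpace HM M] [IsManifold I ∞ M] [T2Space M]
  [MeasurableSpace M] [BorelSpace M] [SecondCountableTopology M] {ι : Type} [Fintype ι]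
  {U V W : Type} [NormedAddCommGroup U] [InnerProductSpace ℝ U] [FiniteDimensional ℝ U]
  [NormedAddCommGroup V] [InnerProductSpace ℝ V] [FiniteDimensional ℝ V]
  [NormedAddCommGroup W] [InnerProductSpace ℝ W] [FiniteDimensional ℝ W]
  (F : Fr I M ι)

/-- square integrable functions -/
abbrev L2 (V : Type) [NormedAddCommGroup V] [InnerProductSpace ℝ V] : Type := F.H 0 (triv M V)

/-- the element has `j` derivatives -/
def Lg (j : ℕ) (u : L2 F V) : Prop := ∃ v : F.H j (triv M V), F.incl j 0 _ v = u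

/-- the gradient of `χ` is small against `H¹` -/
def Thin (χ : M → ℝ) (η : ℝ) : Prop := ∀ v : M → ℝ, Sm I v → HasCompactSupport v →
  ∫ x, gr2 F.toPre χ x * v x ^ 2 ∂F.μ ≤ η ^ 2 * F.ip 1 v v

/-- `A` has norm `≤ N`, contains `n` resolvents, gains `d` derivatives and extends `Af` -/
structure Wo (A : L2 F V →L[ℝ] L2 F W) (Af : (M → V) → M → W) (N : ℝ) (n d : ℕ) : Prop where
  n0 : 0 ≤ N
  le : ∀ u, ‖A u‖ ≤ N * ‖u‖
  cm : ∀ χ η, F.Cb χ → 0 ≤ η → Thin F χ η → ∀ u,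
    ‖smulH F.toPre 0 _ χ (A u) - A (smulH F.toPre 0 _ χ u)‖ ≤ 2 * n * η * N * ‖u‖
  lv : ∀ j u, Lg F j u → Lg F (j + d) (A u)
  rp : ∀ x u, (∀ j, Lg F j x) → Sm I u → Is F.toPre 0 _ x u →
    Sm I (Af u) ∧ Is F.toPre 0 _ (A x) (Af u)

/-- the scalar resolvent -/
def GS : L2 F ℝ →L[ℝ] L2 F ℝ := F.incl 2 0 _ ∘L GH F (fun _ _ => 0) 0

variable {F} {N N' : ℝ} {n n' d d' j : ℕ}

theorem Lg.mono {u : L2 F V} (h : Lg F j u) (hd : d ≤ j) : Lg F d u :=
  let ⟨v, hv⟩ := h; ⟨F.incl j d _ v, by rw [incl_incl hd d.zero_le, hv]⟩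

section wo
variable {A A' : L2 F V →L[ℝ] L2 F W} {Af Af' : (M → V) → M → W}

theorem sm_csmul (r : ℝ) {u : M → W} (h : Sm I u) : Sm I (r • u) :=
  (r • ContinuousLinearMap.id ℝ W).contMDiff.comp h

theorem Wo.mono (h : Wo F A Af N n d) (hN : N ≤ N') (hn : n ≤ n') (hd : d' ≤ d) :
    Wo F A Af N' n' d' where
  n0 := h.n0.trans hN
  le u := (h.le u).trans (by gcongr)
  cm χ η h1 h2 h3 u := (h.cm χ η h1 h2 h3 u).trans (by have := h.n0; gcongr)
  lv j u hu := (h.lv j u hu).mono (by omega)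
  rp := h.rp

theorem Wo.congr (h : Wo F A Af N n d) (e : ∀ u, Sm I u → Af' u = Af u) : Wo F A Af' N n d :=
  ⟨h.n0, h.le, h.cm, h.lv, fun x u h1 h2 h3 => e u h2 ▸ h.rp x u h1 h2 h3⟩

theorem Wo.comp {B : L2 F U →L[ℝ] L2 F V} {Bf : (M → U) → M → V} (h : Wo F A Af N n d)
    (k : Wo F B Bf N' n' d') : Wo F (A ∘L B) (fun u => Af (Bf u)) (N * N') (n + n') (d + d') where
  n0 := mul_nonneg h.n0 k.n0
  le u := (h.le _).trans (by rw [mul_assoc]; exact mul_le_mul_of_nonneg_left (k.le u) h.n0)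
  cm χ η h1 h2 h3 u := by
    have e1 := h.cm χ η h1 h2 h3 (B u)
    have e2 := (h.le _).trans (mul_le_mul_of_nonneg_left (k.cm χ η h1 h2 h3 u) h.n0)
    have e3 := mul_le_mul_of_nonneg_left (k.le u)
      (show 0 ≤ 2 * n * η * N by have := h.n0; positivity)
    rw [map_sub] at e2
    refine (norm_sub_le_norm_sub_add_norm_sub _ (A (smulH F.toPre 0 _ χ (B u))) _).trans ?_
    simp only [ContinuousLinearMap.comp_apply, Nat.cast_add]
    linarith
  lv j u hu := by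
    have := h.lv _ _ (k.lv j u hu)
    rwa [add_assoc, add_comm d'] at this
  rp x u h1 h2 h3 := h.rp _ _ (fun j => (k.lv j x (h1 j)).mono (by omega))
    (k.rp x u h1 h2 h3).1 (k.rp x u h1 h2 h3).2

theorem Wo.add (h : Wo F A Af N n d) (k : Wo F A' Af' N' n d) :
    Wo F (A + A') (fun u => Af u + Af' u) (N + N') n d where
  n0 := add_nonneg h.n0 k.n0
  le u := by rw [add_apply]; exact (norm_add_le _ _).trans (by linarith [h.le u, k.le u])
  cm χ η h1 h2 h3 u := by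
    rw [add_apply, add_apply, map_add, add_sub_add_comm]
    exact (norm_add_le _ _).trans (by linarith [h.cm χ η h1 h2 h3 u, k.cm χ η h1 h2 h3 u])
  lv j u hu := let ⟨x, hx⟩ := h.lv j u hu; let ⟨y, hy⟩ := k.lv j u hu
    ⟨x + y, by rw [map_add, hx, hy]; rfl⟩
  rp x u h1 h2 h3 :=
    have := FiniteDimensional.complete ℝ W
    ⟨(h.rp x u h1 h2 h3).1.add (k.rp x u h1 h2 h3).1,
      (h.rp x u h1 h2 h3).2.add (k.rp x u h1 h2 h3).2⟩

theorem Wo.smul (h : Wo F A Af N n d) (r : ℝ) :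
    Wo F (r • A) (fun u => r • Af u) (|r| * N) n d where
  n0 := mul_nonneg (abs_nonneg r) h.n0
  le u := by
    rw [smul_apply, norm_smul, mul_assoc]
    exact mul_le_mul_of_nonneg_left (h.le u) (abs_nonneg r)
  cm χ η h1 h2 h3 u := by
    rw [smul_apply, smul_apply, map_smul, ← smul_sub, norm_smul]
    exact (mul_le_mul_of_nonneg_left (h.cm χ η h1 h2 h3 u) (abs_nonneg r)).trans_eq (by ring)
  lv j u hu := let ⟨x, hx⟩ := h.lv j u hu; ⟨r • x, by rw [map_smul, hx]; rfl⟩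
  rp x u h1 h2 h3 :=
    have := FiniteDimensional.complete ℝ W
    ⟨sm_csmul r (h.rp x u h1 h2 h3).1, (h.rp x u h1 h2 h3).2.smul r⟩

theorem wo_zero : Wo F (0 : L2 F V →L[ℝ] L2 F W) (fun _ => 0) 0 n d where
  n0 := le_rfl
  le u := by simp
  cm χ η _ _ _ u := by simp
  lv j u _ := ⟨0, map_zero _⟩
  rp x u _ _ _ := have := FiniteDimensional.complete ℝ W; ⟨contMDiff_const, Is.zero⟩

theorem wo_sum {κ : Type} (s : Finset κ) {A : κ → L2 F V →L[ℝ] L2 F W}
    {Af : κ → (M → V) → M → W} {N : κ → ℝ} (h : ∀ i ∈ s, Wo F (A i) (Af i) (N i) n d) :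
    Wo F (∑ i ∈ s, A i) (fun u => ∑ i ∈ s, Af i u) (∑ i ∈ s, N i) n d := by
  classical
  induction s using Finset.induction_on with
  | empty => simpa using wo_zero
  | insert a s ha ih =>
    simp only [sum_insert ha]
    exact (h a (by simp)).add (ih fun i hi => h i (by simp [hi]))

theorem wo_mul {f : M → V →L[ℝ] W} (hf : F.Cb f) (hN : 0 ≤ N) (h : ∀ x v, ‖f x v‖ ≤ N * ‖v‖) :
    Wo F (F.mulH 0 _ _ f) (fun u x => f x (u x)) N 0 0 := by
  have := FiniteDimensional.complete ℝ V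
  have := FiniteDimensional.complete ℝ W
  refine ⟨hN, fun u => ?_, fun χ η h1 _ _ u => ?_, fun j u ⟨v, hv⟩ => ⟨F.mulH j _ _ f v,
    (incl_mulH hf (Maps.triv _) j.zero_le v).trans (congrArg _ hv)⟩,
    fun x u _ h2 h3 => ⟨hf.choose_spec.1.clm_apply h2, h3.mulH hf (Maps.triv _)⟩⟩
  · have k := (is_self u).mulH (q := triv M W) hf (Maps.triv _)
    refine abs_le_of_sq_le_sq' ?_ (by positivity) |>.2
    rw [is_norm k, mul_pow, is_norm (is_self u), ← integral_const_mul]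
    refine integral_mono_of_nonneg (.of_forall fun _ => sq_nonneg _)
      ((is_self u).memLp.norm.integrable_sq.const_mul _) (.of_forall fun x => ?_)
    simp only [← mul_pow]
    exact pow_le_pow_left₀ (norm_nonneg _) (h x _) 2
  · rw [(((is_self u).mulH hf (Maps.triv _)).smulH h1).unique ((((is_self u).smulH h1).mulH hf
      (Maps.triv _)).congr (.of_forall fun x => map_smul _ _ _)), sub_self, norm_zero]
    simp

theorem wo_smul {f : M → ℝ} (hf : F.Cb f) (hN : 0 ≤ N) (h : ∀ x, |f x| ≤ N) :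
    Wo F (smulH F.toPre 0 (triv M ℝ) f) (fun u x => f x * u x) N 0 0 :=
  wo_mul (f := fun x => f x • ContinuousLinearMap.id ℝ ℝ) (Cb_smul hf (Cb_const _)) hN fun x v => by
    rw [smul_apply, norm_smul]
    exact mul_le_mul_of_nonneg_right (h x) (norm_nonneg _)

end wo

/-! ### the resolvent -/

theorem thin_ind {Ω : Set M} (hΩ : IsClopen Ω) : Thin F (Ω.indicator 1) 0 := fun v _ _ => by
  have : ∀ x, gr2 F.toPre (Ω.indicator (1 : M → ℝ)) x = 0 := fun x => sum_eq_zero fun a _ => by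
    rw [Pre.D_def, dv_congr (ind_ev hΩ x), dv_const]; simp
  simp [this]

theorem Thin.H {χ : M → ℝ} {η : ℝ} (h : Thin F χ η) (hχ : F.Cb χ) (x : F.H 1 (triv M ℝ)) :
    ∑ a, ‖smulH F.toPre 0 _ (F.D a χ) (F.incl 1 0 _ x)‖ ^ 2 ≤ η ^ 2 * ‖x‖ ^ 2 := by
  induction x using H_ind with
  | hP => exact isClosed_le (by fun_prop) (by fun_prop)
  | h v =>
    have k := fun a => ((Is.toH (F := F.toPre) (k := 1) v).incl zero_le_one).smulH (Cb_D hχ a)
    simp only [fun a => is_norm (k a)]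
    rw [← integral_finsetSum _ fun a _ => (k a).memLp.norm.integrable_sq,
      ← real_inner_self_eq_norm_sq, Pre.inner_toH]
    refine le_of_eq_of_le (integral_congr_ae (.of_forall fun x => ?_)) (h v.1 v.2.1 v.2.2.1)
    simp only [gr2, sum_mul, norm_smul, Real.norm_eq_abs, mul_pow, sq_abs, sq (F.D _ _ _)]

theorem DH_smul {χ : M → ℝ} (hχ : F.Cb χ) (a : ι) (x : F.H 1 (triv M ℝ)) :
    DH F.toPre 0 _ a (smulH F.toPre 1 _ χ x) = smulH F.toPre 0 _ (F.D a χ) (F.incl 1 0 _ x) +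
      smulH F.toPre 0 _ χ (DH F.toPre 0 _ a x) :=
  DFunLike.congr_fun (RepT_eq (RepT_comp (rep_DH a) (rep_smulH hχ))
    (RepT_add (RepT_comp (rep_smulH (Cb_D hχ a)) (rep_incl zero_le_one))
      (RepT_comp (rep_smulH hχ) (rep_DH a))) fun u => funext fun y => by
    simp only [smul_eq_mul, id, Pi.add_apply, Pre.D_def]
    rw [Wz78.dv_mul (hχ.choose_spec.1 y) (u.2.1 y)]) x

theorem smul_symm {χ : M → ℝ} (hχ : F.Cb χ) (x y : L2 F V) :
    ⟪smulH F.toPre 0 _ χ x, y⟫_ℝ = ⟪x, smulH F.toPre 0 _ χ y⟫_ℝ := by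
  have := FiniteDimensional.complete ℝ V
  rw [is_inner ((is_self x).smulH hχ) (is_self y), is_inner (is_self x) ((is_self y).smulH hχ)]
  simp only [real_inner_smul_left, real_inner_smul_right]

theorem incl_smul {χ : M → ℝ} (hχ : F.Cb χ) {k : ℕ} (h : j ≤ k) (x : F.H k (triv M ℝ)) :
    F.incl k j _ (smulH F.toPre k _ χ x) = smulH F.toPre j _ χ (F.incl k j _ x) :=
  Rep_incl (rep_smulH hχ) (rep_smulH hχ) h h x

theorem Thin.comm {χ : M → ℝ} {η : ℝ} (h : Thin F χ η) (hχ : F.Cb χ) (h0 : 0 ≤ η)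
    (x y : F.H 1 (triv M ℝ)) :
    ⟪smulH F.toPre 1 _ χ x, y⟫_ℝ - ⟪x, smulH F.toPre 1 _ χ y⟫_ℝ ≤ 2 * η * (‖x‖ * ‖y‖) := by
  have e : ∀ x y : F.H 1 (triv M ℝ), |∑ a, ⟪smulH F.toPre 0 _ (F.D a χ) (F.incl 1 0 _ x),
      DH F.toPre 0 _ a y⟫_ℝ| ≤ η * (‖x‖ * ‖y‖) := fun x y => by
    refine (abs_sum_le_sum_abs _ _).trans ((sum_le_sum fun a _ => abs_real_inner_le_norm _ _).trans
      ((Real.sum_mul_le_sqrt_mul_sqrt _ _ _).trans ?_))
    rw [← mul_assoc]
    refine mul_le_mul (Real.sqrt_le_iff.2 ⟨by positivity, mul_pow η _ 2 ▸ h.H hχ x⟩)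
      (Real.sqrt_le_iff.2 ⟨norm_nonneg _, ?_⟩) (Real.sqrt_nonneg _) (by positivity)
    rw [norm_succ_sq y]
    exact le_add_of_nonneg_left (sq_nonneg _)
  have h1 := (abs_le.1 (e x y)).2
  have h2 := (abs_le.1 (e y x)).1
  have i : ∀ x y : F.H 1 (triv M ℝ), ⟪x, y⟫_ℝ = ⟪F.incl 1 0 _ x, F.incl 1 0 _ y⟫_ℝ +
    ∑ a, ⟪DH F.toPre 0 _ a x, DH F.toPre 0 _ a y⟫_ℝ := inner_succ (k := 0)
  rw [i, i x]
  simp only [incl_smul hχ zero_le_one, DH_smul hχ, inner_add_left, inner_add_right,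
    smul_symm hχ, sum_add_distrib, real_inner_comm (smulH F.toPre 0 _ (F.D _ χ) (F.incl 1 0 _ y))]
  linarith

section res
variable {C : ℕ → ℝ} (hF : F.Tame C)
include hF

theorem rh0 : RH F fun _ _ => (0 : ℝ →L[ℝ] ℝ) :=
  Wrd81.rh_of_tame hF (fun _ => Cb_const _) (fun _ _ v w => by simp) fun _ _ => by simp

theorem inner_QH (z : F.H 2 (triv M ℝ)) (y : F.H 1 (triv M ℝ)) :
    ⟪QH F (fun _ _ => 0) 0 z, F.incl 1 0 _ y⟫_ℝ = ⟪F.incl 2 1 _ z, y⟫_ℝ := by
  induction z, y using H_ind₂ with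
  | hP => exact isClosed_eq (by fun_prop) (by fun_prop)
  | h u v =>
    have h := Wz78.integral_lap (F := F) (A := fun _ _ => (0 : ℝ →L[ℝ] ℝ))
      (fun _ => contMDiff_const) (fun _ _ v w => by simp) u.2.1 v.2.1 v.2.2.1
    rw [RepT_toH ((rh0 hF).ell.spec 0).1, incl_toH zero_le_one, incl_toH one_le_two, Pre.inner_toH,
      Pre.inner_toH]
    have i : ∀ {f : M → ℝ}, Sm I f → Integrable (fun x => ⟪f x, v.1 x⟫_ℝ) F.μ := fun hf => by
      simpa only [real_inner_comm] using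
        F.integrable_inner v.2.1.continuous v.2.2.1 hf.continuous
    simp only [Pre.ip, Wrd81.lap1_eq, inner_add_left]
    rw [integral_add (i u.2.1) (i (Wz78.sm_lap (fun _ => contMDiff_const) u.2.1)), h,
      integral_finsetSum]
    · simp only [Wz78.nab, zero_apply, add_zero, Pre.D_def]
    · exact fun a _ => F.integrable_inner (Wz78.sm_nab (fun _ => contMDiff_const) a u.2.1).continuous
        (Wz78.hcs_nab a u.2.2.1) (Wz78.sm_nab (fun _ => contMDiff_const) a v.2.1).continuous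

theorem wo_GS : Wo F (GS F) (G0 F) 1 1 2 := by
  have r := rh0 hF
  let R : L2 F ℝ → F.H 1 (triv M ℝ) := fun u => F.incl 2 1 _ (GH F (fun _ _ => 0) 0 u)
  have h1 : ∀ u y, ⟪R u, y⟫_ℝ = ⟪u, F.incl 1 0 _ y⟫_ℝ := fun u y => by
    rw [← inner_QH hF, r.ell.Q_G]
  have h2 : ∀ u, F.incl 1 0 _ (R u) = GS F u := fun u => incl_incl one_le_two zero_le_one _
  have ab : ∀ {a b : ℝ}, 0 ≤ a → 0 ≤ b → a ^ 2 ≤ b * a → a ≤ b := fun ha hb h => by nlinarith
  have h3 : ∀ u, ‖R u‖ ≤ ‖u‖ := fun u => ab (norm_nonneg _) (norm_nonneg _) (by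
    rw [← real_inner_self_eq_norm_sq, h1]
    exact (real_inner_le_norm _ _).trans
      (mul_le_mul_of_nonneg_left (norm_incl_le zero_le_one _) (norm_nonneg _)))
  have h4 : ∀ j u, Lg F j u → Lg F (j + 2) (GS F u) := fun j u ⟨v, hv⟩ =>
    ⟨GH F _ j v, hv ▸ (r.G0_incl j v).symm⟩
  refine ⟨zero_le_one, fun u => ?_, fun χ η c1 c2 c3 u => ?_, h4, fun x u k1 k2 k3 => ?_⟩
  · rw [← h2, one_mul]; exact (norm_incl_le zero_le_one _).trans (h3 u)
  · set w := smulH F.toPre 1 _ χ (R u) - R (smulH F.toPre 0 _ χ u) with hw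
    have e1 : ‖w‖ ^ 2 ≤ 2 * η * ‖u‖ * ‖w‖ := by
      have e := c3.comm c1 c2 (R u) w
      rw [h1 u, incl_smul c1 zero_le_one, ← smul_symm c1, ← h1, ← inner_sub_left, ← hw,
        real_inner_self_eq_norm_sq] at e
      refine e.trans ?_
      rw [mul_assoc (2 * η)]
      gcongr
      exact h3 u
    rw [← h2, ← h2, ← incl_smul c1 zero_le_one, ← map_sub, ← hw]
    simpa using (norm_incl_le zero_le_one w).trans (ab (norm_nonneg _) (by positivity) e1)
  · obtain ⟨v, v1, -, -, v2⟩ := Ell97.smooth_of_all hF (k := 0) (x := GS F x)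
      fun j _ => (h4 j x (k1 j)).mono (by omega)
    have sv := v1.choose_spec.1
    have := lfm F.toPre
    have e : u = lap1 F (fun _ _ => 0) v := by
      have s2 := Wrd81.sm_lap1 F r.mc.sm sv
      refine (Continuous.ae_eq_iff_eq F.μ k2.continuous s2.continuous).1 (ae_eq_of_ip
        k2.continuous.locallyIntegrable s2.continuous.locallyIntegrable fun φ => ?_)
      have e1 := r.inner_Q (GH F (fun _ _ => 0) 0 x) (F.toH 2 _ φ)
      rw [r.ell.Q_G, RepT_toH (r.ell.spec 0).1, incl_toH (Nat.zero_le 2),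
        is_inner k3 (Is.toH φ)] at e1
      have e2 := (is_inner v2 (Is.toH _)).symm.trans e1
      have e3 := Wrd81.ibp_lap1 F r.mc.sm r.mc.sk φ.2.1 φ.2.2.1 sv
      simp only [Pre.ip, real_inner_comm (φ.1 _) (lap1 F _ v _)]
      rw [← e2, ← e3]
      simp only [real_inner_comm]
    have e' : G0 F u = v := Mp86.res_eq r.bmp r.mc ⟨sv, ⟨_, CB_zero.1 (v1.choose_spec.2 0)⟩,
      fun x => by rw [e, Wrd81.lap1_eq]⟩
    rw [e']
    exact ⟨sv, v2⟩

end res

/-! ### words -/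

variable (F) in
/-- `dg ⊗ dh` -/
def dd2 (g h : M → ℝ) (x : M) : V2 ι := WithLp.toLp 2 fun s => F.D s.1 g x * F.D s.2 h x

theorem norm_dd2 {g h : M → ℝ} (h0 : 0 ≤ N) (hg : G1 F N g) (hh : G1 F N h) (x : M) :
    ‖dd2 F g h x‖ ≤ N := by
  refine abs_le_of_sq_le_sq' ?_ h0 |>.2
  rw [EuclideanSpace.norm_sq_eq, Fintype.sum_prod_type]
  simp only [dd2, Real.norm_eq_abs, sq_abs, mul_pow, ← sum_mul_sum]
  rw [sq N]
  exact mul_le_mul (hg x) (hh x) (sum_nonneg fun _ _ => sq_nonneg _) h0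

theorem cb_dd2 {g h : M → ℝ} (hg : F.Cd g) (hh : F.Cd h) : F.Cb (dd2 F g h) := by
  classical
  have : dd2 F g h = fun x => ∑ s : ι × ι,
      (F.D s.1 g x • F.D s.2 h x) • (WithLp.toLp 2 (Pi.single s 1) : V2 ι) := by
    funext x
    refine fm_ext fun t => ?_
    simp [dd2, Pi.single_apply]
  rw [this]
  exact Cb_sum _ fun s _ => Cb_smul (Cb_smul (hg.2 _) (hh.2 _)) (Cb_const _)

variable (F) in
/-- letters -/
def laH : La M → L2 F ℝ →L[ℝ] L2 F ℝ
  | .mul f => smulH F.toPre 0 _ f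
  | .G => GS F

variable (F) in
/-- lists of letters -/
def llH : List (La M) → L2 F ℝ →L[ℝ] L2 F ℝ
  | [] => smulH F.toPre 0 _ fun _ => 1
  | t :: l => laH F t ∘L llH l

variable {lam : Type} [Fintype lam] {r m : ℕ} (o : ι → ι → ι → ι → M → ℝ)

variable (F) in
/-- the linear part of a term -/
def tmH : Tm M lam r m → HK F 0 →L[ℝ] HK F 0
  | .ad g h ⟨.cv f g' h', l⟩ =>
    F.mulH 0 _ _ (fun x => ContinuousLinearMap.toSpanSingleton ℝ (hs F o x (dd2 F g h x))) ∘L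
      llH F l ∘L GS F ∘L GS F ∘L F.mulH 0 _ _ fun x => innerSL ℝ (f x • dd2 F g' h' x)
  | _ => 0

variable (F) in
/-- the same on functions -/
def tmF : Tm M lam r m → (M → V2 ι) → M → V2 ι
  | .ad g h ⟨.cv f g' h', l⟩ => fun u x => wd (la0 F)
      (G0 F (G0 F fun y => ⟪f y • dd2 F g' h' y, u y⟫_ℝ)) l x • hs F o x (dd2 F g h x)
  | _ => fun _ => 0

variable {o} {K : ℕ}

theorem wo_ll {C : ℕ → ℝ} (hF : F.Tame C) (hK : 1 ≤ K) : ∀ l : List (La M), (∀ t ∈ l, La.OK F t) →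
    (∀ t ∈ l, LaSz K t) → Wo F (llH F l) (fun u => wd (la0 F) u l) (K ^ l.length) l.length 0
  | [], _, _ => (wo_smul (Cb_const _) (by simp) (by simp)).congr fun u _ => by simp
  | t :: l, h1, h2 => by
    have ih := wo_ll hF hK l (fun t ht => h1 t (by simp [ht])) fun t ht => h2 t (by simp [ht])
    have k1 : (1 : ℝ) ≤ K := by exact_mod_cast hK
    have : Wo F (laH F t) (la0 F t) K 1 0 := by
      cases t with
      | mul f => exact (wo_smul (h1 (.mul f) (by simp)) (by positivity)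
          (h2 (.mul f) (by simp))).mono le_rfl zero_le_one le_rfl
      | G => exact (wo_GS hF).mono k1 le_rfl (by omega)
    exact (this.comp ih).mono (by rw [List.length_cons, pow_succ']) (by simp; omega) le_rfl

theorem Tam.wo_tm {G : Geo I M ι lam} (h : Tam G.F o) (hK : 1 ≤ K) {T : Tm M lam r m}
    (h1 : T.OK G.F) (h2 : Mp86.TmSz G K T) :
    Wo G.F (tmH G.F o T) (tmF G.F o T) (K ^ (K + 3)) (K + 2) 1 := by
  have k1 : (1 : ℝ) ≤ K := by exact_mod_cast hK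
  have z : Wo G.F (0 : HK G.F 0 →L[ℝ] HK G.F 0) (fun _ => 0) (K ^ (K + 3)) (K + 2) 1 :=
    wo_zero.mono (by positivity) le_rfl le_rfl
  obtain ⟨C, hF⟩ := h.tm
  rcases T with _ | _ | ⟨g, g2, ⟨_ | ⟨f, g', h'⟩, l⟩⟩ | _ | _ | _ | _ <;> try exact z
  obtain ⟨a1, a2, ⟨a3, a4, a5⟩, a6⟩ := h1
  obtain ⟨b1, b2, ⟨b3, b4, b5⟩, b6, b7⟩ := h2
  have b8 : l.length ≤ K := b6
  have c1 := wo_mul (F := G.F) (N := K) (f := fun x => ContinuousLinearMap.toSpanSingleton ℝ
      (hs G.F o x (dd2 G.F g g2 x))) (Cb_clm (ContinuousLinearMap.smulRightL ℝ ℝ (V2 ι) 1)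
      (Cb_app h.cb_hs (cb_dd2 a1 a2))) (by positivity) fun x v => by
    rw [ContinuousLinearMap.toSpanSingleton_apply, norm_smul, mul_comm]
    exact mul_le_mul_of_nonneg_right ((norm_hs_le h.ok x _).trans
      (norm_dd2 (by positivity) b1 b2 x)) (norm_nonneg _)
  have c2 := wo_mul (F := G.F) (N := K * K) (f := fun x => innerSL ℝ (f x • dd2 G.F g' h' x))
      (Cb_clm (innerSL ℝ) (Cb_smul a3 (cb_dd2 a4 a5))) (by positivity) fun x v => by
    rw [innerSL_apply_apply]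
    refine (abs_real_inner_le_norm _ _).trans (mul_le_mul_of_nonneg_right ?_ (norm_nonneg _))
    rw [norm_smul]
    exact mul_le_mul (abs_le_of_sq_le_sq' ((b3 x).trans (by nlinarith)) (by positivity) |> abs_le.2)
      (norm_dd2 (by positivity) b4 b5 x) (norm_nonneg _) (by positivity)
  refine (c1.comp ((wo_ll hF hK l a6 b7).comp ((wo_GS hF).comp ((wo_GS hF).comp c2)))).mono ?_
    (by omega) (by omega)
  calc _ = (K : ℝ) ^ (l.length + 3) := by ring
    _ ≤ _ := pow_le_pow_right₀ k1 (by omega)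

theorem Tam.PH_tm (h : Tam F o) {T : Tm M lam r m} (h1 : T.OK F) (u : HK F 0) :
    PH F o 0 (tmH F o T u) = tmH F o T u := by
  rcases T with _ | _ | ⟨g, g2, ⟨_ | ⟨f, g', h'⟩, l⟩⟩ | _ | _ | _ | _ <;> try exact map_zero _
  have k := (is_self (llH F l (GS F (GS F (F.mulH 0 _ _
    (fun x => innerSL ℝ (f x • dd2 F g' h' x)) u))))).mulH (q := triv M (V2 ι))
    (f := fun x => ContinuousLinearMap.toSpanSingleton ℝ (hs F o x (dd2 F g g2 x)))
    (Cb_clm (ContinuousLinearMap.smulRightL ℝ ℝ (V2 ι) 1) (Cb_app h.cb_hs (cb_dd2 h1.1 h1.2.1)))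
    (Maps.triv _)
  exact (h.is_PH k).unique (k.congr (.of_forall fun x => by
    simp only [ContinuousLinearMap.toSpanSingleton_apply, map_smul, hs_idem h.ok]))

theorem Wo.per {T : HK F 0 →L[ℝ] HK F 0} {Tf : (M → V2 ι) → M → V2 ι} {Ω : Set M}
    (h : Wo F T Tf N n 1) (hΩ : IsClopen Ω) (hp : ∀ u, PH F o 0 (T u) = T u) (hN : √2 * N < 1) :
    Per F o Ω T N where
  mem u hu := ⟨hp u, by
    have := h.cm _ 0 (cb_ind hΩ) le_rfl (thin_ind hΩ) u
    rw [show smulH F.toPre 0 _ (Ω.indicator 1) u = u from hu] at this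
    exact sub_eq_zero.1 (norm_le_zero_iff.1 (this.trans_eq (by simp)))⟩
  le u _ := h.le u
  lv := h.lv
  e0 := h.n0
  e1 := hN

end Crest.Agent.X212.Qab60
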