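import Crest.Agent.X212.Qab60.Neck
import Crest.Agent.X212.Qab60.Wrd

/-! X212 / QAB (helper60): Hardy's inequality on a band; the solution behind a long neck. -/

set_option autoImplicit false
set_option linter.unusedSectionVars false
noncomputable section
open scoped Manifold ContDiff Topology InnerProductSpace
open MeasureTheory Function Filter Set Module
open Crest.Agent.R208.F (Ext io pb ii)

namespace Crest.Agent.X212.Qab60
open An Sob92 Num57 Int54
open Dr59 (SmAt dM df CAt pm mf)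
open Cyf70 (IC ce cyl)
open Met55 (Co atx)
open Kah60 (gr2 gr2_nonneg sm_gr2)

variable {E : Type} [NormedAddCommGroup E] [NormedSpace ℝ E] [FiniteDimensional ℝ E]
  [MeasurableSpace E] [BorelSpace E]
  {HM : Type} [TopologicalSpace HM] {I : ModelWithCorners ℝ E HM} [I.Boundaryless]
  {Y : Type} [TopologicalSpace Y] [ChartedSpace HM Y] [IsManifold I ∞ Y]
  [MeasurableSpace Y] [BorelSpace Y] [SecondCountableTopology Y] [T2Space Y]
  {κ : Type} [Fintype κ]
  {E' : Type} [NormedAddCommGroup E'] [NormedSpace ℝ E'] [FiniteDimensional ℝ E']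
  [MeasurableSpace E'] [BorelSpace E']
  {HN : Type} [TopologicalSpace HN] {J : ModelWithCorners ℝ E' HN} [J.Boundaryless]
  {N : Type} [TopologicalSpace N] [ChartedSpace HN N] [IsManifold J ∞ N]
  [MeasurableSpace N] [BorelSpace N] [SecondCountableTopology N] [T2Space N]
  {ι : Type} [Fintype ι]

section hardy
variable {G : Fr I Y κ} {F : Fr J N ι} {j : Y × ℝ → N} {w0 w1 χ : ℝ → ℝ} {S : Set ℝ} {v g : N → ℝ}

theorem Bnd.gr2_eq (h : Bnd G F j w0 w1 S) (hv : Sm J v) {q : Y × ℝ} (hq : q.2 ∈ S) :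
    gr2 F.toPre v (j q) = (w0 q.2 * mf (IC I) 𝓘(ℝ, ℝ) (v ∘ j) q (0, 1)) ^ 2 +
      ∑ a, (w1 q.2 * mf (IC I) 𝓘(ℝ, ℝ) (v ∘ j) q (atx G.e q.1 a, 0)) ^ 2 := by
  have e := co_e1 (h.co q hq) (df J v (j q))
  simp only [df, e1_io, map_smul, Fintype.sum_option, wv, smul_eq_mul, ContinuousLinearMap.coe_coe]
    at e
  rw [Dr59.mf_comp ((hv _).mdifferentiableAt (by simp)) ((h.sm q hq).mdifferentiableAt (by simp))]
  simp only [gr2, ← sq]
  exact e.symm

theorem Bnd.hasDeriv (h : Bnd G F j w0 w1 S) (hv : Sm J v) (y : Y) {t : ℝ} (ht : t ∈ S) :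
    HasDerivAt (fun s => v (j (y, s))) (mf (IC I) 𝓘(ℝ, ℝ) (v ∘ j) (y, t) (0, 1)) t := by
  have h1 : MDifferentiableAt (IC I) 𝓘(ℝ, ℝ) (v ∘ j) (y, t) :=
    ((hv _).comp _ (h.sm (y, t) ht)).mdifferentiableAt (by simp)
  have h2 := h1.hasMFDerivAt.comp t ((hasMFDerivAt_const (I := 𝓘(ℝ, ℝ)) y t).prodMk
    (hasMFDerivAt_id t))
  have h3 : HasFDerivAt (fun s : ℝ => v (j (y, s))) ((mf (IC I) 𝓘(ℝ, ℝ) (v ∘ j) (y, t)).comp
      ((0 : ℝ →L[ℝ] E).prod (ContinuousLinearMap.id ℝ ℝ))) t := hasMFDerivAt_iff_hasFDerivAt.1 h2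
  simpa using h3.hasDerivAt

theorem Bnd.gr2_hgt (h : Bnd G F j w0 w1 S) (hg : Hgt J j S χ g) {q : Y × ℝ} (hq : q.2 ∈ S) :
    gr2 F.toPre g (j q) = (w0 q.2 * deriv χ q.2) ^ 2 := by
  have e : mf (IC I) 𝓘(ℝ, ℝ) (g ∘ j) q = mf (IC I) 𝓘(ℝ, ℝ) (χ ∘ Prod.snd) q := Dr59.mf_congr (by
    filter_upwards [(h.op.preimage continuous_snd).mem_nhds hq] with z hz using hg.eq z hz)
  have e2 : ∀ w : E × ℝ, mf (IC I) 𝓘(ℝ, ℝ) (χ ∘ Prod.snd) q w = w.2 * deriv χ q.2 := fun w => by
    have := ((hg.sχ.differentiable (by simp) q.2).hasDerivAt.hasFDerivAt.hasMFDerivAt.comp q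
      (hasMFDerivAt_snd (I := I) (I' := 𝓘(ℝ, ℝ)) q)).mfderiv
    rw [mf, this]; rfl
  rw [h.gr2_eq hg.sm hq, e]
  simp [e2]

variable (w0 w1 S) in
/-- a Hardy field on `[a, b]` -/
structure Hd (a b C : ℝ) (R R' : ℝ → ℝ) : Prop where
  ab : a ≤ b
  sub : Icc a b ⊆ S
  der : ∀ s, HasDerivAt R (R' s) s
  ra : R a = 0
  rb : R b = 0
  le : ∀ s ∈ Icc a b, |R s| * w1 s ^ 2 ≤ C
  ge : ∀ s ∈ Icc a b, w1 s ^ 2 ≤ R' s * (w0 s * w1 s ^ 3) + C

variable [CompactSpace Y] {o : Y → Ext E} {δ a b C : ℝ} {R R' : ℝ → ℝ}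

/-- **Hardy.** -/
theorem Bnd.thin (h : Bnd G F j w0 w1 S) (hg : Hgt J j S χ g) (h3 : finrank ℝ E = 3)
    (hG : G.IsVol) (hF : F.IsVol) (ho : Ori I o) (hd : Hd w0 w1 S a b C R R') (hC : 1 ≤ C)
    (hs : tsupport (deriv χ) ⊆ Icc a b) (hδ : ∀ s ∈ S, |deriv χ s| * w0 s ≤ δ * w1 s) :
    Thin F g (2 * C * δ) := fun v hv hc => by
  let B := j '' (univ ×ˢ Icc a b)
  have hj : ContinuousOn j (univ ×ˢ Icc a b) := fun q hq =>
    (h.sm q (hd.sub hq.2)).continuousAt.continuousWithinAt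
  have hB : IsCompact B := (isCompact_univ.prod isCompact_Icc).image_of_continuousOn hj
  have c1 : Continuous fun x => gr2 F.toPre g x * v x ^ 2 :=
    (sm_gr2 _ hg.sm).continuous.mul (hv.continuous.pow 2)
  have c2 : Continuous fun x => (2 * C * δ) ^ 2 * (v x ^ 2 + gr2 F.toPre v x) :=
    continuous_const.mul ((hv.continuous.pow 2).add (sm_gr2 _ hv).continuous)
  have p : ∀ s ∈ Icc a b, 0 < w0 s * w1 s ^ 3 := fun s hs =>
    mul_pos (h.p0 s (hd.sub hs)) (pow_pos (h.p1 s (hd.sub hs)) _)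
  have cw : ContinuousOn (fun s => (w0 s * w1 s ^ 3)⁻¹) (Icc a b) :=
    ((h.c0.mul (h.c1.pow 3)).mono hd.sub).inv₀ fun s hs => (p s hs).ne'
  have i1 : Integrable (fun x => v x ^ 2) F.μ :=
    (hv.continuous.pow 2).integrable_of_hasCompactSupport (by simpa only [sq] using hc.mul_left)
  have i2 : ∀ c, Integrable (fun x => F.D c v x * F.D c v x) F.μ := fun c =>
    ((F.sm_D hv c).continuous.mul (F.sm_D hv c).continuous).integrable_of_hasCompactSupport
      (HasCompactSupport.mul_left (dv_hcs hc))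
  have i3 : Integrable (fun x => v x ^ 2 + gr2 F.toPre v x) F.μ :=
    i1.add (integrable_finsetSum _ fun c _ => i2 c)
  have e1 : F.ip 1 v v = ∫ x, (v x ^ 2 + gr2 F.toPre v x) ∂F.μ := by
    unfold gr2
    rw [integral_add i1 (integrable_finsetSum _ fun c _ => i2 c), integral_finsetSum _ fun c _ => i2 c]
    simp only [Pre.ip, RCLike.inner_apply, conj_trivial, sq]
  have e2 : ∫ x in B, (gr2 F.toPre g x * v x ^ 2 -
      (2 * C * δ) ^ 2 * (v x ^ 2 + gr2 F.toPre v x)) ∂F.μ ≤ 0 := by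
    rw [h.integral hG hF ho measurableSet_Icc hd.sub, h3]
    have hi := ContinuousOn.integrableOn_compact (μ := G.μ.prod volume)
      (isCompact_univ.prod isCompact_Icc)
      ((cw.comp continuousOn_snd fun q hq => hq.2).mul ((c1.sub c2).comp_continuousOn hj))
    rw [IntegrableOn, ← Measure.prod_restrict, Measure.restrict_univ] at hi
    rw [← Measure.prod_restrict, Measure.restrict_univ]
    refine (integral_prod _ hi).trans_le (integral_nonpos fun y => ?_)
    have cj : ContinuousOn (fun s => j (y, s)) (Icc a b) :=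
      hj.comp (continuousOn_const.prodMk continuousOn_id) fun s hs => ⟨trivial, hs⟩
    have k := intervalIntegral.integral_le_sub_of_hasDeriv_right_of_le hd.ab
      (g := fun s => 2 * δ ^ 2 * (R s * v (j (y, s)) ^ 2))
      (continuousOn_const.mul ((continuous_iff_continuousAt.2 fun s =>
        (hd.der s).continuousAt).continuousOn.mul ((hv.continuous.comp_continuousOn cj).pow 2)))
      (fun s hs => (((hd.der s).mul ((h.hasDeriv hv y (hd.sub (Ioo_subset_Icc_self hs))).pow 2)).const_mul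
        _).hasDerivWithinAt)
      (cw.mul ((c1.sub c2).comp_continuousOn cj)).integrableOn_Icc fun s hs => ?_
    · rw [hd.ra, hd.rb, intervalIntegral.integral_of_le hd.ab, ← integral_Icc_eq_integral_Ioc] at k
      exact k.trans_eq (by simp)
    have hs' := Ioo_subset_Icc_self hs
    have hS := hd.sub hs'
    have a1 := h.gr2_hgt hg (q := (y, s)) hS
    have a2 := (le_add_of_nonneg_right (Finset.sum_nonneg fun _ _ => sq_nonneg _)).trans_eq
      (h.gr2_eq hv (q := (y, s)) hS).symm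
    have a3 := pow_le_pow_left₀ (mul_nonneg (abs_nonneg _) (h.p0 s hS).le) (hδ s hS) 2
    have a4 := pow_le_pow_left₀ (by positivity) (hd.le s hs') 2
    have a5 := hd.ge s hs'
    have p0 := h.p0 s hS
    have p1 := h.p1 s hS
    simp only [Pi.mul_apply, comp_apply, Pi.sub_apply, Pi.pow_apply, a1, Nat.cast_ofNat,
      Nat.add_one_sub_one, pow_one] at a2 ⊢
    rw [inv_mul_le_iff₀ (p s hs')]
    rw [mul_pow, sq_abs] at a3 a4
    generalize mf (IC I) 𝓘(ℝ, ℝ) (v ∘ j) (y, s) (0, 1) = u' at a2 ⊢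
    generalize v (j (y, s)) = u at a2 ⊢
    generalize gr2 F.toPre v (j (y, s)) = γ at a2 ⊢
    have b1 := mul_le_mul_of_nonneg_right a3 (sq_nonneg u)
    have b2 := mul_le_mul_of_nonneg_right a5 (mul_nonneg (sq_nonneg δ) (sq_nonneg u))
    have b3 := mul_nonneg (sq_nonneg δ) (sq_nonneg (w1 s * u + 2 * R s * w1 s ^ 2 * (w0 s * u')))
    have b4 := mul_le_mul_of_nonneg_left
      (mul_le_mul a4 a2 (sq_nonneg _) (sq_nonneg _)) (sq_nonneg δ)
    have b5 := mul_le_mul_of_nonneg_right (show C ≤ C ^ 2 by nlinarith)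
      (mul_nonneg (sq_nonneg δ) (sq_nonneg u))
    have b6 := mul_nonneg (sq_nonneg C) (mul_nonneg (sq_nonneg δ) (sq_nonneg u))
    nlinarith
  have e3 : ∫ x, gr2 F.toPre g x * v x ^ 2 ∂F.μ = ∫ x in B, gr2 F.toPre g x * v x ^ 2 ∂F.μ :=
    (setIntegral_eq_integral_of_forall_compl_eq_zero fun x hx => by
      by_cases k : x ∈ j '' (univ ×ˢ S)
      · obtain ⟨q, hq, rfl⟩ := k
        rw [h.gr2_hgt hg hq.2, image_eq_zero_of_notMem_tsupport fun k =>
          hx ⟨q, ⟨trivial, hs k⟩, rfl⟩]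
        simp
      · have : ∀ c, F.D c g x = 0 := fun c => by
          rw [← c1_df, c1_of_zero (hg.off x k)]; rfl
        simp [gr2, this]).symm
  rw [integral_sub (c1.continuousOn.integrableOn_compact hB)
    (c2.continuousOn.integrableOn_compact hB), sub_nonpos] at e2
  rw [e1, e3, ← integral_const_mul]
  exact e2.trans (setIntegral_le_integral (i3.const_mul _) (.of_forall fun x =>
    mul_nonneg (sq_nonneg _) (add_nonneg (sq_nonneg _) (gr2_nonneg _ _ _))))

end hardy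

end Crest.Agent.X212.Qab60
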