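import Crest.Agent.X212.Qab60.As
import Crest.Agent.X212.Qab60.Cor

/-! X212 / QAB (helper60): solutions are small beyond a thin neck. -/

set_option autoImplicit false
set_option linter.unusedSectionVars false
noncomputable section
open scoped Manifold ContDiff Topology InnerProductSpace
open MeasureTheory Set Function Filter Module
open Crest.Agent.R208.F (Ext)

namespace Crest.Agent.X212.Qab60
open An Sob92 Map77 Num57 Cyf70 Int54
open Dr59 (dM df pm)

variable {E : Type} [NormedAddCommGroup E] [NormedSpace ℝ E] [FiniteDimensional ℝ E]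
  [MeasurableSpace E] [BorelSpace E]
  {HM : Type} [TopologicalSpace HM] {I : ModelWithCorners ℝ E HM} [I.Boundaryless]
  {M : Type} [TopologicalSpace M] [ChartedSpace HM M] [IsManifold I ∞ M] [T2Space M]
  [MeasurableSpace M] [BorelSpace M] [SecondCountableTopology M] {ι : Type} [Fintype ι]
  {F : Fr I M ι} {o : ι → ι → ι → ι → M → ℝ} {Ω : Set M} {T : HK F 0 →L[ℝ] HK F 0}
  {Tf : (M → V2 ι) → M → V2 ι} {N η ε B V : ℝ} {n : ℕ} {f0 a w : M → Ext E} {g : M → ℝ}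

variable (F o f0 w g η ε) in
/-- a cut-off along a thin neck that separates `f0` from `w` -/
structure Cut0 : Prop where
  cb : F.Cb g
  hc : HasCompactSupport (1 - g * g)
  z : g • f0 = 0
  one : g • w = w
  η0 : 0 ≤ η
  ε0 : 0 ≤ ε
  th : Thin F g η
  nk : ∀ a, Fo I 1 a → Sq F (f0 + dM I a) → |integ I (vol F o) (df I (1 - g * g) * (a * dM I a))| ≤
    ε ^ 2 * ∫ x, ‖c2 F (f0 + dM I a) x‖ ^ 2 ∂F.μ

theorem Pc.corner (h : Pc F o Ω) (hT : Op F o T Tf N n) (hN : √2 * N < 1) (hf : Cz I Ω f0)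
    (hc : HasCompactSupport f0) (ha : AS F o Ω Tf f0 a) (k : Cut0 F o η ε f0 w g) (hw : Sq F w)
    (B0 : 0 ≤ B) (hB : -2 * integ I (vol F o) (f0 * f0) ≤ (1 - 2 * N ^ 2) * B ^ 2) (V0 : 0 ≤ V)
    (hV : ∫ x, ‖c2 F w x‖ ^ 2 ∂F.μ ≤ V ^ 2) :
    (1 - √2 * N) * |integ I (vol F o) (dM I a * w)| ≤ √2 * (2 * n * η * N + ε) * B * V := by
  obtain ⟨u0, h0⟩ := (sq_of_hcs (F := F) hf.fo.sm hc).exists
  obtain ⟨v, hv⟩ := hw.exists
  obtain ⟨y, hy, iy, e⟩ := ha.sol h.toTam hT h.cl hf h0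
  have en := h.energy (hT.per h.cl hN) h0 hf hc hy e
  have iu := h0.add iy
  generalize u0 + y = u at e en iu
  have sg := k.cb.choose_spec.1
  have N0 := hT.wo.n0
  have s2 : √2 ^ 2 = 2 := Real.sq_sqrt zero_le_two
  have s0 : (0 : ℝ) ≤ √2 := Real.sqrt_nonneg 2
  have n2 : 0 < 1 - 2 * N ^ 2 := by nlinarith [mul_nonneg s0 N0]
  have uB : ‖u‖ ≤ B := abs_le_of_sq_le_sq' (le_of_mul_le_mul_left (en.trans hB) n2) B0 |>.2
  have vV : ‖v‖ ≤ V := abs_le_of_sq_le_sq' ((is_norm hv).trans_le hV) V0 |>.2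
  have ig : Isf F (smulH F.toPre 0 _ g u) (g • dM I a) := by
    rw [← zero_add (g • _), ← k.z, ← smul_add, Isf, c2_fsmul]; exact iu.smulH k.cb
  have p : PH F o 0 (smulH F.toPre 0 _ g u) = smulH F.toPre 0 _ g (T u) := by
    rw [← e]
    exact (h.is_PH ((is_self u).smulH k.cb)).unique (((h.is_PH (is_self u)).smulH k.cb).congr
      (.of_forall fun _ => (map_smul _ _ _).symm))
  set x := smulH F.toPre 0 _ g u
  have h1 : ‖PH F o 0 x‖ ≤ N * ‖x‖ + 2 * n * η * N * ‖u‖ := by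
    have := hT.wo.cm g η k.cb k.η0 k.th u
    have := hT.wo.le x
    have := norm_sub_norm_le (smulH F.toPre 0 _ g (T u)) (T x)
    rw [p]; linarith
  have h2 : -(2 * (ε * ‖u‖) ^ 2) ≤ Bw F o x x := by
    have i := h.intOn ha.fo.d.dg ha.sq ha.sq
    have sk : Sm I (1 - g * g) := contMDiff_const.sub (sg.mul sg)
    have c := h.integ_cut sk k.hc ha.fo ha.fo.d ha.fo.dd
    have e1 : g • dM I a * g • dM I a =
        dM I a * dM I a - (1 - g * g) • (dM I a * dM I a) := by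
      rw [smul_mul_smul_comm, sub_smul, one_smul, sub_sub_cancel]
    have := (abs_le.1 (k.nk a ha.fo iu.memLp)).1
    rw [h.Bw_eq ig ig (ha.fo.d.fsmul sg).dg, e1, integ_sub i (((ha.fo.d.mul ha.fo.d).fsmul sk).intOn
      (ori h.ok) k.hc.smul_right), h.bd a ha.fo ha.off ha.sq, c, mul_pow, is_norm iu]
    linarith
  have h3 : ‖x‖ ≤ √2 * ‖PH F o 0 x‖ + √2 * (ε * ‖u‖) := by
    have := k.ε0
    refine abs_le_of_sq_le_sq' ?_ (by positivity) |>.2
    rw [h.Bw_self] at h2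
    rw [h.norm_frm (h.frm ig), add_sq, mul_pow, mul_pow, s2]
    have : 0 ≤ 2 * (√2 * ‖PH F o 0 x‖) * (√2 * (ε * ‖u‖)) := by positivity
    linarith
  have h4 : |integ I (vol F o) (dM I a * w)| ≤ ‖x‖ * V := by
    have := h.abs_Bw x v
    rw [h.Bw_eq ig hv (ha.fo.d.fsmul sg).dg, smul_mul_assoc, ← mul_smul_comm, k.one, abs_mul,
      abs_two] at this
    nlinarith [norm_nonneg x]
  have h5 : (1 - √2 * N) * ‖x‖ ≤ √2 * (2 * n * η * N + ε) * B := by
    have := k.η0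
    have := k.ε0
    have := mul_le_mul_of_nonneg_left h1 s0
    have := mul_le_mul_of_nonneg_left uB (show 0 ≤ √2 * (2 * n * η * N + ε) by positivity)
    linarith
  calc _ ≤ (1 - √2 * N) * (‖x‖ * V) := mul_le_mul_of_nonneg_left h4 (by linarith)
    _ ≤ _ := by rw [← mul_assoc]; exact mul_le_mul_of_nonneg_right h5 V0

end Crest.Agent.X212.Qab60
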