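import Crest.Agent.X212.Qab60.Qp
import Crest.Agent.X212.Qab60.Crn
import Crest.Agent.X212.Loc8.Long

/-! X212 / QAB (helper60): a piece with one cylindrical end. -/

set_option autoImplicit false
set_option linter.unusedSectionVars false
noncomputable section
open scoped Manifold ContDiff Topology InnerProductSpace Real
open MeasureTheory Set Function Filter Module
open Crest.Agent.R208.F (Ext)

namespace Crest.Agent.X212.Qab60
open An Nd18 Num57 Int54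
open M (Mf)
open Cyf70 (IC)
open Dr59 (dM df pm mf Mp Cs)
open Dfl49 (One)
open Rf65 (PR V3)

/-- a cut-off of the height: one below `a > T`, zero above `b` -/
structure Ct (T : ℝ) (χ : ℝ → ℝ) : Prop where
  sm : ContDiff ℝ ∞ χ
  ex : ∃ a b, T < a ∧ (∀ s ≤ a, χ s = 1) ∧ ∀ s, b ≤ s → χ s = 0

theorem Ct.mono {T T' : ℝ} {χ : ℝ → ℝ} (h : Ct T χ) (k : T' ≤ T) : Ct T' χ :=
  ⟨h.sm, let ⟨a, b, x, y⟩ := h.ex; ⟨a, b, k.trans_lt x, y⟩⟩

theorem exists_ct (T : ℝ) : ∃ χ, Ct T χ :=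
  ⟨fun s => Real.smoothTransition (T + 2 - s), Real.smoothTransition.contDiff.comp
    (contDiff_const.sub contDiff_id), T + 1, T + 2, lt_add_one T,
    fun _ _ => Real.smoothTransition.one_of_one_le (by linarith),
    fun _ _ => Real.smoothTransition.zero_of_nonpos (by linarith)⟩

theorem Ct.cf {T : ℝ} {χ : ℝ → ℝ} (h : Ct T χ) : Cf T χ := by
  obtain ⟨a, b, ha, h1, h0⟩ := h.ex
  have ab : a < b := lt_of_not_ge fun k => one_ne_zero ((h1 b k).symm.trans (h0 b le_rfl))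
  have z : ∀ s, s ∉ Icc a b → deriv χ s = 0 := fun s hs => by
    rcases lt_or_ge s a with k | k
    · exact (Filter.EventuallyEq.deriv_eq (f := fun _ => 1) (mem_of_superset (Iio_mem_nhds k)
        fun t ht => h1 t (le_of_lt ht))).trans (deriv_const _ _)
    · exact (Filter.EventuallyEq.deriv_eq (f := fun _ => 0) (mem_of_superset (Ioi_mem_nhds
        (lt_of_not_ge fun k' => hs ⟨k, k'⟩)) fun t ht => h0 t (le_of_lt ht))).trans (deriv_const _ _)
  have t : tsupport (deriv χ) ⊆ Icc a b :=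
    closure_minimal (fun s hs => by_contra fun k => hs (z s k)) isClosed_Icc
  refine ⟨h.sm, isCompact_Icc.of_isClosed_subset (isClosed_tsupport _) t,
    t.trans fun s hs => ha.trans_le hs.1, ?_⟩
  rw [← setIntegral_eq_integral_of_forall_compl_eq_zero z, integral_Icc_eq_integral_Ioc,
    ← intervalIntegral.integral_of_le ab.le, intervalIntegral.integral_deriv_eq_sub
      (fun s _ => h.sm.differentiable (by simp) s)
      ((h.sm.continuous_deriv (by simp)).intervalIntegrable _ _), h1 a le_rfl, h0 b le_rfl, zero_sub]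

variable {Y : Mf 3} [CompactSpace Y.M] {κ : Type} [Fintype κ] {lam : Type} [Fintype lam]
  {D : YD Y.I Y.M κ lam}
  {E : Type} [NormedAddCommGroup E] [NormedSpace ℝ E] [FiniteDimensional ℝ E]
  [MeasurableSpace E] [BorelSpace E]
  {HM : Type} [TopologicalSpace HM] {I : ModelWithCorners ℝ E HM} [I.Boundaryless]
  {M : Type} [TopologicalSpace M] [ChartedSpace HM M] [IsManifold I ∞ M] [T2Space M]
  [MeasurableSpace M] [BorelSpace M] [SecondCountableTopology M]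
  {B : Base M (Option κ) lam} {G : Geo I M (Option κ) lam}

theorem fr4 (Y : Mf 3) : finrank ℝ (Y.E × ℝ) = 4 := by rw [finrank_prod, Y.dim, finrank_self]

theorem okZ (h : D.OK) : OK D.Z D.B.o := OK.of_base (G := D.G) (fr4 Y) h.B h.G

/-- the clopen set `Ω` has the single end `K` -/
structure En (K : Nk D B G) (Ω : Set M) : Prop where
  hD : D.OK
  hv : D.F.IsVol
  tam : Tam G.F B.o
  hG : G.OK B
  one : One K 1 0 Ω

/-- a function of the height on the piece -/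
def ec (K : Nk D B G) (Ω : Set M) (χ : ℝ → ℝ) : M → ℝ := Ω.indicator fun x => χ (K.tm x)

/-- the holonomy pairing -/
def hl (K : Nk D B G) (Ω : Set M) (χ : ℝ → ℝ) (η f : M → Ext E) : ℝ :=
  integ I (vol G.F B.o) (f * (ec K Ω χ • η))

namespace En
variable {K : Nk D B G} {Ω : Set M} (h : En K Ω) {q : Y.M × ℝ} {x : M} {χ : ℝ → ℝ} {T : ℝ}
  {a w η : M → Ext E} {ϖ : Y.M → V3} {θ : Y.M → Circle}
include h

theorem cl : IsClopen Ω := h.one.clopen

theorem J {s : ℝ} (hs : 0 < s) : s ∈ K.J := h.one.J (by simpa using hs)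

theorem src (hq : 0 < q.2) : q ∈ K.ψ.source := K.src ▸ ⟨trivial, h.J hq⟩

theorem tgt (hx : 0 < K.tm x) : x ∈ K.ψ.target := K.tgt ▸ h.J hx

theorem tm (hq : 0 < q.2) : K.tm (K.ψ q) = q.2 := K.tm_ψ q (h.src hq)

theorem mem (hx : 0 < K.tm x) : x ∈ Ω := h.one.sub (by simpa using hx)

theorem cpt (R : ℝ) : IsCompact (Ω ∩ {x | K.tm x ≤ R}) := by simpa using h.one.cpt R

theorem smψ (hq : 0 < q.2) : ContMDiffAt (IC Y.I) I ∞ K.ψ q :=
  K.iso.sm.contMDiffAt (K.ψ.open_source.mem_nhds (h.src hq))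

theorem symm2 (hx : 0 < K.tm x) : (K.ψ.symm x).2 = K.tm x := by
  rw [← K.tm_ψ _ (K.ψ.map_target (h.tgt hx)), K.ψ.right_inv (h.tgt hx)]

theorem img {S : Set ℝ} (hS : S ⊆ Ioi 0) : K.ψ '' (univ ×ˢ S) = K.tm ⁻¹' S :=
  Subset.antisymm (by rintro _ ⟨q, hq, rfl⟩; exact mem_preimage.2 ((h.tm (hS hq.2)).symm ▸ hq.2))
    fun x hx => ⟨K.ψ.symm x, ⟨trivial, (h.symm2 (hS hx)).symm ▸ hx⟩, K.ψ.right_inv (h.tgt (hS hx))⟩

theorem mp (hT : 0 ≤ T) : Mp (IC Y.I) I (hZ Y T) (K.tm ⁻¹' Ioi T) K.ψ :=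
  ⟨fun _ hq => h.smψ (hT.trans_lt hq.2), fun _ hq =>
    mem_preimage.2 ((h.tm (hT.trans_lt hq.2)).symm ▸ hq.2)⟩

theorem sm_tm (hx : 0 < K.tm x) : ContMDiffAt I 𝓘(ℝ, ℝ) ∞ K.tm x :=
  (contMDiffAt_snd.comp x (K.iso.sm'.contMDiffAt (K.ψ.open_target.mem_nhds (h.tgt hx)))).congr_of_eventuallyEq
    (mem_of_superset ((isOpen_lt continuous_const K.cont).mem_nhds hx) fun _ hy => (h.symm2 hy).symm)

theorem e (hq : 0 < q.2) (i : Option κ) :
    mf (IC Y.I) I K.ψ q (ee D.Z q i) = ee G.F (K.ψ q) i := K.iso.e i q (h.src hq)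

theorem bnd : Bnd D.F G.F K.ψ (fun _ => 1) (fun _ => 1) (Ioi 0) where
  dim := h.tam.ok.h4.trans (fr4 Y).symm
  op := isOpen_Ioi
  sm _ hq := h.smψ hq
  inj _ hq _ hq' := K.ψ.injOn (h.src hq.2) (h.src hq'.2)
  c0 := continuousOn_const
  c1 := continuousOn_const
  p0 _ _ := one_pos
  p1 _ _ := one_pos
  co q hq := by
    convert Met55.Co.refl (Met55.atx G.F.e (K.ψ q)) using 2 with i
    rw [show wv 1 1 i = (1 : ℝ) by cases i <;> rfl, one_smul]
    exact h.e hq i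

theorem c1_pm (hq : 0 < q.2) (a : M → Ext E) :
    c1 D.Z (pm (IC Y.I) I K.ψ a) q = c1 G.F a (K.ψ q) := Map77.fm_ext fun i => by
  change e1 _ _ = e1 _ _
  rw [← h.e hq, Dr59.pm_apply, e1, e1, R208.F.evA_pb]
  exact congrArg _ (funext fun i => by fin_cases i; rfl)

theorem c2_pm (hq : 0 < q.2) (a : M → Ext E) :
    c2 D.Z (pm (IC Y.I) I K.ψ a) q = c2 G.F a (K.ψ q) := Map77.fm_ext fun i => by
  change e2 _ _ _ = e2 _ _ _
  rw [← h.e hq, ← h.e hq, Dr59.pm_apply, e2_pb]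
  rfl

theorem hs_eq (hq : 0 < q.2) : hs D.Z D.B.o q = hs G.F B.o (K.ψ q) := by
  have e1 : D.Z.P = D.B.P := h.hD.G.P
  simp only [hs, h.hG.P, e1, K.P _ _ q (h.src hq), K.o _ _ _ _ q (h.src hq)]

theorem same : SameOn (oZ D) (pm (IC Y.I) I K.ψ (vol G.F B.o)) (hZ Y 0) :=
  sameOn_of_rat_pos fun y hy => by
    have k : ∀ a b c d, e4 (pm (IC Y.I) I K.ψ (vol G.F B.o) y) (ee D.Z y a) (ee D.Z y b)
        (ee D.Z y c) (ee D.Z y d) = D.B.o a b c d y := fun a b c d => by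
      rw [← K.o a b c d y (h.src hy.2), ← e4_vol G.F (vo h.tam.ok _), e4, e4, Dr59.pm_apply, R208.F.evA_pb]
      refine congrArg _ (funext fun i => ?_)
      fin_cases i <;> exact h.e hy.2 _
    rw [oZ, rat_vol _ (fr4 Y) (vo (okZ h.hD) y)]
    simp only [ph, k, ← sq, ((okZ h.hD).vo y).nm]
    norm_num

theorem ec_ψ (hq : 0 < q.2) : ec K Ω χ (K.ψ q) = χ q.2 := by
  rw [ec, indicator_of_mem (h.mem ((h.tm hq).symm ▸ hq)), h.tm hq]

theorem ec_lc (k : Ct T χ) (hx : K.tm x ≤ T) : ec K Ω χ =ᶠ[𝓝 x] fun _ => Ω.indicator 1 x := by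
  obtain ⟨a, b, ha, h1, -⟩ := k.ex
  filter_upwards [ind_ev h.cl x, (isOpen_lt K.cont continuous_const).mem_nhds (hx.trans_lt ha)]
    with y e hy
  rw [← e, ec, indicator, indicator, h1 _ (le_of_lt hy), Pi.one_apply]

theorem sm_ec (k : Ct 0 χ) : Sm I (ec K Ω χ) := fun x => by
  rcases le_or_gt (K.tm x) 0 with hx | hx
  · exact contMDiffAt_const.congr_of_eventuallyEq (h.ec_lc k hx)
  · exact (k.sm.contMDiff.contMDiffAt.comp x (h.sm_tm hx)).congr_of_eventuallyEq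
      (mem_of_superset (h.cl.isOpen.mem_nhds (h.mem hx)) fun y hy => indicator_of_mem hy _)

theorem ts_ec {b : ℝ} (h0 : ∀ s, b ≤ s → χ s = 0) : tsupport (ec K Ω χ) ⊆ Ω ∩ {x | K.tm x ≤ b} :=
  closure_minimal (fun x hx => by
    have m : x ∈ Ω := by_contra fun e => hx (indicator_of_notMem e _)
    exact ⟨m, le_of_not_ge fun e => hx ((indicator_of_mem m _).trans (h0 _ e))⟩) (h.cpt b).isClosed

theorem hc_ec (k : Ct T χ) : HasCompactSupport (ec K Ω χ) :=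
  let ⟨_, b, _, _, h0⟩ := k.ex
  (h.cpt b).of_isClosed_subset (isClosed_tsupport _) (h.ts_ec h0)

theorem hgt (k : Ct 0 χ) : Hgt I K.ψ (Ioi 0) χ (ec K Ω χ) :=
  ⟨h.sm_ec k, k.sm, k.cf.hc, k.cf.sub, fun _ hq => h.ec_ψ hq, fun x hx => Dr59.df_eq_zero
    (h.ec_lc k (le_of_not_gt fun e => hx ((h.img Subset.rfl).symm ▸ e)))⟩

theorem ec_smul (k : Ct T χ) (h0 : Off Ω w) (h1 : ∀ x, T < K.tm x → w x = 0) : ec K Ω χ • w = w :=
  funext fun x => by
    rcases le_or_gt (K.tm x) T with hx | hx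
    · rw [Pi.smul_apply', (h.ec_lc k hx).self_of_nhds]; exact congrFun h0.ind x
    · rw [Pi.smul_apply', h1 x hx, smul_zero]

/-- exact square integrable forms are isotropic -/
theorem bd : BD G.F B.o Ω := by
  obtain ⟨C, C0, hC⟩ := exists_log
  obtain ⟨o, ho, hs⟩ := exists_cy D.F (ori (okZ h.hD))
  obtain ⟨c, c0, hc⟩ := exists_cs (Y.dim.trans_le (by norm_num)) h.hv ho
  choose χ s1 s2 s3 s4 s5 s6 using fun n : ℕ => hC (n + 1) 1 n.cast_add_one_pos one_pos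
  have k : ∀ n, Ct 0 (1 - χ n) := fun n => ⟨contDiff_const.sub (s1 n), n + 1,
    (n + 1) * Real.exp 1, n.cast_add_one_pos,
    fun s hs => by simp [s2 n s hs], fun s hs => by simp [s3 n s hs]⟩
  have dk : ∀ n, deriv (1 - χ n) = -deriv (χ n) := fun n => funext fun s => deriv_const_sub _
  refine h.tam.bd h.cl (χ := fun n => ec K Ω (1 - χ n)) ⟨fun n => h.sm_ec (k n),
    fun n => h.hc_ec (k n), fun n => (h.ts_ec (b := (n + 1) * Real.exp 1) fun s hs => by simp [s3 n s hs]).trans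
      inter_subset_left, fun x hx => ⟨Ω ∩ {y | K.tm y < K.tm x + 1}, (h.cl.isOpen.inter
        (isOpen_lt K.cont continuous_const)).mem_nhds ⟨hx, lt_add_one (K.tm x)⟩, ?_⟩⟩
    (fun n x => ?_) (δ := fun n => c * (C / (n + 1))) ?_ fun n a ha hq => ?_
  · filter_upwards [tendsto_natCast_atTop_atTop.eventually_ge_atTop (K.tm x)] with n hn y hy
    rw [ec, indicator_of_mem hy.1, Pi.sub_apply, s2 n _ (by linarith [hy.2.out])]; simp
  · by_cases m : x ∈ Ω
    · rw [ec, indicator_of_mem m]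
      exact abs_le.2 ⟨by simpa using (s4 n _).2.trans (le_add_of_nonneg_right zero_le_one), by simpa using (s4 n _).1⟩
    · simp [ec, indicator_of_notMem m]
  · simpa using (tendsto_const_div_atTop_nhds_zero_nat C |>.comp (tendsto_add_atTop_nat 1)).const_mul c
  · refine (h.bnd.neck (h.hgt (k n)) Y.dim h.hv h.hG.vol ho (ori h.tam.ok)
      ((hs.mono (subset_univ _)).trans h.same) hc c0 (fun s _ => ?_) ha).trans
      (mul_le_mul_of_nonneg_left (setIntegral_le_integral (hq.integrable_norm_pow two_ne_zero)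
        (.of_forall fun _ => sq_nonneg _)) (by positivity))
    rw [dk, Pi.neg_apply, abs_neg, mul_one, mul_one]
    by_cases m : s ∈ tsupport (deriv (χ n))
    · have := s6 n s
      have := (s5 n m).1
      rw [le_div_iff₀ n.cast_add_one_pos]
      nlinarith [abs_nonneg (deriv (χ n) s), le_abs_self s]
    · rw [image_eq_zero_of_notMem_tsupport m, abs_zero]; positivity

/-- the holonomy pairing on the cylinder is a pairing on the piece -/
theorem hpr_eq (k : Ct 0 χ) (ha : Fo I 1 a) (hη : Cz I Ω η)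
    (e : EqOn (pm (IC Y.I) I K.ψ η) (sZ ϖ) (hZ Y 0)) :
    hpr D ϖ χ (pm (IC Y.I) I K.ψ a) = -hl K Ω χ η (dM I a) := by
  have g := h.hgt k
  rw [hl, mul_smul_comm, h.tam.integ_cut g.sm (h.hc_ec k) ha hη.fo hη.cl, neg_neg]
  refine (integ_eq_of_map h.bnd.dim (ori h.tam.ok) (ori (okZ h.hD))
    (MeasurableSet.univ.prod measurableSet_Ioi) (fun q hq => h.smψ hq.2) h.bnd.inj h.same
    (fun x hx => ?_) (fun q hq => ?_) fun q hq => ?_).symm
  · rw [Pi.mul_apply, g.off x hx, zero_mul, map_zero]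
  · obtain ⟨a, b, ha, h1, -⟩ := k.ex
    rw [Pi.mul_apply, Dr59.df_eq_zero (c := 1) (mem_of_superset ((isOpen_lt continuous_snd
      continuous_const).mem_nhds ((le_of_not_gt fun e => hq ⟨trivial, e⟩).trans_lt ha))
      fun z hz => h1 _ (le_of_lt hz)), zero_mul, map_zero]
  · rw [Dr59.pm_mul, Dr59.pm_mul, Pi.mul_apply, Pi.mul_apply, Pi.mul_apply, Pi.mul_apply, e hq,
      Dr59.pm_df ((h.smψ hq.2).mdifferentiableAt (by simp)) ((g.sm _).mdifferentiableAt (by simp)),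
      df, df, Dr59.mf_congr (g := fun z : Y.M × ℝ => χ z.2) ?_]
    filter_upwards [(isOpen_Ioi.preimage continuous_snd).mem_nhds hq.2] with z hz using g.eq z hz

/-- anti-self-dual potentials on the end -/
theorem asd (hT : 0 ≤ T) (ha : Fo I 1 a) (hq : Sq G.F (dM I a))
    (h0 : ∀ x, T < K.tm x → hs G.F B.o x (c2 G.F (dM I a) x) = 0) :
    Asd D T (pm (IC Y.I) I K.ψ a) := by
  have m := h.mp hT
  have e : ∀ q ∈ hZ Y T, c2 D.Z (dM (IC Y.I) (pm (IC Y.I) I K.ψ a)) q = c2 G.F (dM I a) (K.ψ q) :=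
    fun q hq => by
      rw [← h.c2_pm (hT.trans_lt hq.2)]
      exact Loc8.c2_congr (Dr59.dM_pm Dr59.ne0 (m.sm q hq) (ha.sm _))
  have ms : MeasurableSet (hZ Y T) := MeasurableSet.univ.prod measurableSet_Ioi
  refine ⟨Dr59.Sm.pm (fun x _ => ha.sm x) m, Dr59.Dg.pm (fun x _ => ha.dg x) m.maps,
    fun q hq => by rw [e q hq, h.hs_eq (hT.trans_lt hq.2)]; exact h0 _ (m.maps hq), ?_⟩
  have i := (hq.integrable_norm_pow two_ne_zero).integrableOn (s := K.ψ.target)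
  rw [IntegrableOn, show G.F.μ.restrict _ = _ from K.iso.μ.symm] at i
  refine (IntegrableOn.mono_set (i.comp_aemeasurable (K.ψ.continuousOn.aemeasurable
    K.ψ.open_source.measurableSet)) fun q hq => h.src (hT.trans_lt hq.2)).congr_fun
      (fun q hq => ?_) ms
  simp only [comp, e q hq]

theorem cz_ec (k : Ct 0 χ) (hη : Cz I Ω η) : Fo I 2 (ec K Ω χ • η) ∧
    HasCompactSupport (ec K Ω χ • η) := ⟨hη.fo.fsmul (h.sm_ec k), (h.hc_ec k).smul_right⟩

theorem hl_add (k : Ct 0 χ) (hη : Cz I Ω η) {f f' : M → Ext E} (hf : Fo I 2 f) (hf' : Fo I 2 f') :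
    hl K Ω χ η (f + f') = hl K Ω χ η f + hl K Ω χ η f' := by
  have i : ∀ {f}, Fo I 2 f → IntOn I (vol G.F B.o) (f * (ec K Ω χ • η)) univ := fun hf =>
    (hf.mul (h.cz_ec k hη).1).intOn (ori h.tam.ok) (h.cz_ec k hη).2.mul_left
  rw [hl, add_mul, integ_add (i hf) (i hf')]; rfl

end En

theorem hl_smul (K : Nk D B G) (Ω : Set M) (χ : ℝ → ℝ) (η f : M → Ext E) (r : ℝ) :
    hl K Ω χ η (r • f) = r * hl K Ω χ η f := by rw [hl, smul_mul_assoc, integ_smul]; rfl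

theorem hpr_congr {T : ℝ} {χ : ℝ → ℝ} (k : Ct T χ) (ϖ : Y.M → V3) {a b : Y.M × ℝ → Ext (Y.E × ℝ)}
    (e : EqOn a b (hZ Y T)) : hpr D ϖ χ a = hpr D ϖ χ b := by
  obtain ⟨s, -, hs, h1, -⟩ := k.ex
  refine Loc8.integ_df_mul_congr (K := hZ Y T) (fun q hq => Dr59.df_eq_zero (c := 1)
    (mem_of_superset ((isOpen_lt continuous_snd continuous_const).mem_nhds
      ((le_of_not_gt fun e => hq ⟨trivial, e⟩).trans_lt hs)) fun z hz => h1 _ (le_of_lt hz)))
    fun q hq => ?_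
  rw [Pi.mul_apply, e hq, Pi.mul_apply]

theorem hpr_smul (ϖ : Y.M → V3) (χ : ℝ → ℝ) (r : ℝ) (a : Y.M × ℝ → Ext (Y.E × ℝ)) :
    hpr D ϖ χ (r • a) = r * hpr D ϖ χ a := by
  rw [hpr, smul_mul_assoc, mul_smul_comm, integ_smul]; rfl

variable {ν : Type} [Fintype ν] [DecidableEq ν] {lam' : Type} [Fintype lam'] {q : QT E M ν}
  {ψ ψ' : Y.M × ℝ → M} {θ : Y.M → Circle} {ϖ : Y.M → V3} {p : M → Matrix lam' lam' ℂ}

theorem QT.OK.congr (h : q.OK I ψ θ ϖ p) (e : EqOn ψ' ψ (hZ Y 0)) : q.OK I ψ' θ ϖ p :=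
  have k : ∀ w, EqOn (pm (IC Y.I) I ψ' w) (pm (IC Y.I) I ψ w) (hZ Y 0) := fun w z hz =>
    Dr59.pm_congr (mem_of_superset ((isOpen_univ.prod isOpen_Ioi).mem_nhds hz) e) rfl
  { h with
    V := fun b => by rw [image_congr e]; exact h.V b
    ηE := fun b => (k _).trans (h.ηE b)
    αE := (k _).trans h.αE }

theorem QT.OK.gram_sum (h : q.OK I ψ θ ϖ p) (c d : ν → ℝ) :
    integ I q.O ((∑ k, c k • q.ε k) * ∑ k, d k • q.ε k) = -∑ k, c k * d k := by
  have i : ∀ k l, IntOn I q.O (q.ε k * q.ε l) univ := fun k l =>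
    (h.cε l).intOn h.ori fun x _ => (h.cε k).cl.sm x trivial
  simp only [Finset.sum_mul_sum, smul_mul_smul_comm, ← Fintype.sum_prod_type']
  rw [← integOn_univ, integOn_sum fun k _ => (i _ _).smul _]
  simp [integOn_univ, integ_smul, h.gram, Fintype.sum_prod_type]

namespace En
variable {K : Nk D B G} (h : En K q.Ω) (hq : q.OK I K.ψ θ ϖ p) {V : ℝ} {χ : ℝ → ℝ} {x : M}
include h hq

theorem memV (b : Bool) (hx : 0 < K.tm x) : x ∈ q.V b :=
  (hq.V b).2.2.2.1 ((h.img Subset.rfl).symm ▸ hx)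

theorem γ0 (b : Bool) (hx : 0 < K.tm x) : q.γ b x = 0 := (hq.V b).2.2.2.2 x (h.memV hq b hx)

theorem hl_α (hV : ∀ T χ, Cf T χ → hpr D ϖ χ (aZ θ) = V) (k : Ct 0 χ) (b : Bool) :
    hl K q.Ω χ (q.η b) (dM I q.α) = -(q.x / (2 * π) * V) := by
  rw [← hV 0 χ k.cf, ← hpr_smul, ← hpr_congr k ϖ hq.αE, h.hpr_eq k hq.fα.1 (hq.cη b) (hq.ηE b),
    neg_neg]

theorem hl_γ (b : Bool) : hl K q.Ω χ (q.η b) (q.γ b) = 0 := by
  rw [hl, mul_smul_comm, hq.γη, smul_zero, integ_zero]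

/-- the piece inside the wall carries the linear theory -/
theorem pc (hs : SameOn q.O (vol G.F B.o) univ) (V0 : V ≠ 0)
    (hV : ∀ T χ, Cf T χ → hpr D ϖ χ (aZ θ) = V) : Pc G.F B.o q.Ω := by
  obtain ⟨χ, k⟩ := exists_ct 0
  refine ⟨h.tam, h.cl, h.bd, Neg.of_span (ori h.tam.ok) h.cl (η := fun _ : Unit => q.η false)
    (ψ := fun _ => q.α) hq.cε (fun _ => hq.cη _) (fun _ => ⟨hq.fα.1, hq.fα.2,
      hq.dα ▸ (hq.cγ _).hc.sub (hq.cγ _).hc⟩) (fun _ => ?_) (fun _ _ e => (e rfl).elim)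
    (fun c hc => ?_) fun w hw => ?_⟩
  · have := h.hl_α hq hV k false
    rw [hl, mul_smul_comm, ← smul_mul_assoc, h.ec_smul k (hq.fα.2.d h.cl) fun x hx => by
      rw [hq.dα, Pi.sub_apply, h.γ0 hq _ hx, h.γ0 hq _ hx, sub_zero]] at this
    have x0 : (q.x : ℝ) ≠ 0 := Int.cast_ne_zero.2 fun e => by simpa [e] using hq.odd
    rw [this]
    exact neg_ne_zero.2 (mul_ne_zero (div_ne_zero x0 (by positivity)) V0)
  · obtain ⟨i, hi⟩ := ne_iff.1 hc
    rw [← integ_congr_ori hq.ori (ori h.tam.ok) hs, hq.gram_sum, neg_lt_zero]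
    exact Finset.sum_pos' (fun _ _ => mul_self_nonneg _) ⟨i, Finset.mem_univ _, mul_self_pos.2 hi⟩
  · obtain ⟨c, r, e⟩ := hq.span w hw
    exact ⟨c, fun _ => r, by simpa using e⟩

end En

end Crest.Agent.X212.Qab60
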