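import Crest.Agent.X212.Mon62.Abs

/-! X212 / QAB (helper60), format-free part: linear equations on an isotropic subspace, smooth
dependence on parameters, parity of the zeros of a function of one variable. -/

set_option autoImplicit false
noncomputable section
open scoped Topology ContDiff RealInnerProductSpace
open Set Function Filter

namespace Crest.Agent.X212.Qab60

section lin
variable {X Y : Type} [NormedAddCommGroup X] [NormedSpace ℝ X] [CompleteSpace X]
  [NormedAddCommGroup Y] [InnerProductSpace ℝ Y] [CompleteSpace Y]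

/-- bounded below with dense range implies onto -/
theorem surj_of_low {A : X →L[ℝ] Y} {c : ℝ} (hb : ∀ x, ‖x‖ ≤ c * ‖A x‖)
    (hd : ∀ y, (∀ x, ⟪A x, y⟫ = 0) → y = 0) : Surjective A := by
  have hA : AntilipschitzWith (Real.toNNReal c) A :=
    AddMonoidHomClass.antilipschitz_of_bound A fun y =>
      (hb y).trans (mul_le_mul_of_nonneg_right (Real.le_coe_toNNReal c) (norm_nonneg _))
  have hc : IsClosed (A.range : Set Y) := (hA.isClosed_range A.uniformContinuous)
  have := hc.completeSpace_coe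
  refine LinearMap.range_eq_top.1 (Submodule.orthogonal_eq_bot_iff.1 (eq_bot_iff.2 ?_) :
    A.range = ⊤)
  exact fun y hy => hd y fun x => hy _ ⟨x, rfl⟩

/-- a small perturbation of such a map is invertible -/
theorem inv_of_low {A D : X →L[ℝ] Y} {c θ : ℝ} (hc : 0 ≤ c) (hθ : θ < 1)
    (hb : ∀ x, ‖x‖ ≤ c * ‖A x‖) (hD : ∀ x, ‖D x‖ ≤ θ * ‖A x‖)
    (hd : ∀ y, (∀ x, ⟪A x, y⟫ = 0) → y = 0) : (A - D).IsInvertible := by
  have h1 : 0 < 1 - θ := by linarith
  have key : ∀ s ∈ Icc (0 : ℝ) 1, ∀ u, ‖u‖ ≤ c / (1 - θ) * ‖(A + s • (A - D - A)) u‖ := by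
    intro s hs u
    have e : (A + s • (A - D - A)) u = A u - s • D u := by
      simp only [add_apply, smul_apply, sub_apply, smul_sub]; abel
    have h2 : ‖s • D u‖ ≤ ‖D u‖ := by
      rw [norm_smul, Real.norm_eq_abs, abs_of_nonneg hs.1]
      exact mul_le_of_le_one_left (norm_nonneg _) hs.2
    have h3 : (1 - θ) * ‖A u‖ ≤ ‖A u - s • D u‖ := by
      linarith [norm_sub_norm_le (A u) (s • D u), hD u]
    rw [e, div_mul_eq_mul_div, le_div_iff₀ h1]
    nlinarith [hb u, mul_le_mul_of_nonneg_left h3 hc]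
  refine Mon62.isInvertible_of_bij ⟨(injective_iff_map_eq_zero _).2 fun u hu => ?_,
    Mon62.surj_of_segment (surj_of_low hb hd) (by positivity) key⟩
  have := key 1 ⟨zero_le_one, le_rfl⟩ u
  rw [one_smul, add_sub_cancel, hu, norm_zero, mul_zero] at this
  exact norm_le_zero_iff.1 this

end lin

/-- the solution of an invertible linear equation depends smoothly on parameters -/
theorem contDiffOn_solve {T X Y : Type} [NormedAddCommGroup T] [NormedSpace ℝ T]
    [NormedAddCommGroup X] [NormedSpace ℝ X] [CompleteSpace X] [NormedAddCommGroup Y]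
    [NormedSpace ℝ Y] {O : Set T} {L : T → X →L[ℝ] Y} {r : T → Y} (hL : ContDiffOn ℝ ∞ L O)
    (hr : ContDiffOn ℝ ∞ r O) (hi : ∀ t ∈ O, (L t).IsInvertible) :
    ContDiffOn ℝ ∞ (fun t => (L t).inverse (r t)) O := fun t ht => by
  obtain ⟨e, he⟩ := hi t ht
  have h : ContDiffAt ℝ ∞ ContinuousLinearMap.inverse (L t) := he ▸ contDiffAt_map_inverse e
  exact (h.comp_contDiffWithinAt t (hL t ht)).clm_apply (hr t ht)

/-! ### parity -/

/-- simple zeros on a compact interval -/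
theorem par_aux (Z : Finset ℝ) : ∀ {g : ℝ → ℝ} {a b : ℝ}, a ≤ b → ContinuousOn g (Icc a b) →
    (∀ t ∈ Icc a b, g t = 0 ↔ t ∈ Z) →
    (∀ t ∈ Z, t ∈ Ioo a b ∧ DifferentiableAt ℝ g t ∧ deriv g t ≠ 0) →
    0 < (-1) ^ Z.card * (g a * g b) := by
  classical
  induction Z using Finset.induction_on with
  | empty =>
    intro g a b hab hg h0 _
    have h : ∀ t ∈ Icc a b, g t ≠ 0 := fun t ht e => by simpa using (h0 t ht).1 e
    have ha := h a (left_mem_Icc.2 hab)
    have hb := h b (right_mem_Icc.2 hab)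
    rw [Finset.card_empty, pow_zero, one_mul]
    by_contra hn
    have hn' : g a * g b < 0 := lt_of_le_of_ne (not_lt.1 hn) (mul_ne_zero ha hb)
    have : (0 : ℝ) ∈ uIcc (g a) (g b) := by
      rcases mul_neg_iff.1 hn' with k | k
      · exact mem_uIcc.2 (.inr ⟨k.2.le, k.1.le⟩)
      · exact mem_uIcc.2 (.inl ⟨k.1.le, k.2.le⟩)
    obtain ⟨t, ht, e⟩ := intermediate_value_uIcc (by rwa [uIcc_of_le hab]) this
    exact h t (by rwa [uIcc_of_le hab] at ht) e
  | insert z Z hz ih =>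
    intro g a b hab hg h0 h1
    obtain ⟨hz1, hz2, hz3⟩ := h1 z (Finset.mem_insert_self z Z)
    have gz : g z = 0 := (h0 z (Ioo_subset_Icc_self hz1)).2 (Finset.mem_insert_self z Z)
    have e : ∀ t, g t = (t - z) * dslope g z t := fun t => by
      have := sub_smul_dslope g z t
      rw [gz, sub_zero, smul_eq_mul] at this
      exact this.symm
    have h := ih (g := dslope g z) hab
      ((continuousOn_dslope (Icc_mem_nhds hz1.1 hz1.2)).2 ⟨hg, hz2⟩) (fun t ht => ?_) fun t ht => ?_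
    · rw [Finset.card_insert_of_notMem hz, pow_succ, e a, e b]
      have : 0 < -((a - z) * (b - z)) := by nlinarith [hz1.1, hz1.2]
      nlinarith [mul_pos h this]
    · rcases eq_or_ne t z with rfl | htz
      · simp [hz3, hz]
      · rw [← or_iff_right htz (b := t ∈ Z), ← Finset.mem_insert, ← h0 t ht, e t, mul_eq_zero,
          or_iff_right (sub_ne_zero.2 htz)]
    · obtain ⟨k1, k2, k3⟩ := h1 t (Finset.mem_insert_of_mem ht)
      have htz : t ≠ z := fun h => hz (h ▸ ht)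
      have k4 := (differentiableAt_dslope_of_ne htz).2 k2
      refine ⟨k1, k4, fun k => k3 ?_⟩
      have k5 : dslope g z t = 0 := by
        have := (h0 t (Ioo_subset_Icc_self k1)).2 (Finset.mem_insert_of_mem ht)
        rw [e t] at this
        exact (mul_eq_zero.1 this).resolve_left (sub_ne_zero.2 htz)
      have := (((hasDerivAt_id t).sub_const z).mul k4.hasDerivAt).deriv
      rw [funext e]
      exact this.trans (by simp [k, k5])

theorem ev_ne {g : ℝ → ℝ} {t : ℝ} (h : DifferentiableAt ℝ g t) (h' : deriv g t ≠ 0) :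
    ∀ᶠ s in 𝓝[≠] t, g s ≠ g t := h.hasDerivAt.eventually_ne h'

/-- **Parity.** Simple zeros on `[a, b)`, none at `a`, and the sign `σ` near `b`. -/
theorem parity {g : ℝ → ℝ} {a b σ : ℝ} (hab : a < b) (hg : ContinuousOn g (Ico a b))
    (ha : g a ≠ 0) (hb : ∀ᶠ t in 𝓝[<] b, 0 < σ * g t)
    (h : ∀ t ∈ Ioo a b, g t = 0 → DifferentiableAt ℝ g t ∧ deriv g t ≠ 0) :
    {t ∈ Ico a b | g t = 0}.Finite ∧ 0 < (-1) ^ {t ∈ Ico a b | g t = 0}.ncard * (σ * g a) := by
  obtain ⟨c, hc, hs⟩ := (mem_nhdsLT_iff_exists_mem_Ico_Ioo_subset hab).1 hb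
  obtain ⟨d, hd1, hd2⟩ := exists_between hc.2
  have had : a ≤ d := hc.1.trans hd1.le
  have hsub : Icc a d ⊆ Ico a b := Icc_subset_Ico_right hd2
  have hne : ∀ t ∈ Ico d b, g t ≠ 0 := fun t ht e => by
    have : 0 < σ * g t := hs ⟨hd1.trans_le ht.1, ht.2⟩
    simp [e] at this
  have e : {t ∈ Ico a b | g t = 0} = Icc a d ∩ g ⁻¹' {0} := by
    ext t
    exact ⟨fun ht => ⟨⟨ht.1.1, not_lt.1 fun k => hne t ⟨k.le, ht.1.2⟩ ht.2⟩, ht.2⟩,
      fun ht => ⟨hsub ht.1, ht.2⟩⟩
  have hin : ∀ t ∈ Icc a d ∩ g ⁻¹' {0}, t ∈ Ioo a d := fun t ht =>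
    ⟨lt_of_le_of_ne ht.1.1 fun k => ha (k ▸ ht.2),
      lt_of_le_of_ne ht.1.2 fun k => hne d ⟨le_rfl, hd2⟩ (k ▸ ht.2)⟩
  have hK : IsCompact (Icc a d ∩ g ⁻¹' {0}) := isCompact_Icc.of_isClosed_subset
    ((hg.mono hsub).preimage_isClosed_of_isClosed isClosed_Icc isClosed_singleton)
    inter_subset_left
  have hf : (Icc a d ∩ g ⁻¹' {0}).Finite := by
    refine hK.finite (isDiscrete_iff_nhdsNE.2 fun t ht => ?_)
    obtain ⟨k1, k2⟩ := h t ⟨(hin t ht).1, (hin t ht).2.trans hd2⟩ ht.2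
    rw [inf_principal_eq_bot]
    exact (ev_ne k1 k2).mono fun s hs hs' => hs (hs'.2.trans ht.2.symm)
  refine ⟨e ▸ hf, ?_⟩
  have h1 := par_aux hf.toFinset had (hg.mono hsub) (fun t ht => by simp [ht.1, ht.2])
    fun t ht => by
      have ht' := hf.mem_toFinset.1 ht
      exact ⟨hin t ht', h t ⟨(hin t ht').1, (hin t ht').2.trans hd2⟩ ht'.2⟩
  have h2 : 0 < σ * g d := hs ⟨hd1, hd2⟩
  have h3 : 0 < g d * g d := mul_self_pos.2 (hne d ⟨le_rfl, hd2⟩)
  rw [e, ncard_eq_toFinset_card _ hf]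
  exact (mul_pos_iff_of_pos_right h3).1 ((mul_pos h1 h2).trans_eq (by ring))

end Crest.Agent.X212.Qab60
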