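import Crest.Agent.X212.Qab60.As
import Crest.Agent.X212.Mon62.RE

/-! X212 / QAB (helper60): smooth dependence on the background. -/

set_option autoImplicit false
set_option linter.unusedSectionVars false
noncomputable section
open scoped Manifold ContDiff Topology InnerProductSpace
open MeasureTheory Finset Function Filter
open Crest.Agent.R208.F (Ext)

namespace Crest.Agent.X212.Qab60
open An Sob92 Map77 Num57 Prm93
open Dr59 (dM)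
open Int54 (integ SameOn)
open Wrd81 (TmIn GH QH)
open Mon62 (QQ Nb Dt)

variable {E : Type} [NormedAddCommGroup E] [NormedSpace ℝ E] [FiniteDimensional ℝ E]
  [MeasurableSpace E] [BorelSpace E]
  {HM : Type} [TopologicalSpace HM] {I : ModelWithCorners ℝ E HM} [I.Boundaryless]
  {M : Type} [TopologicalSpace M] [ChartedSpace HM M] [IsManifold I ∞ M] [T2Space M]
  [MeasurableSpace M] [BorelSpace M] [SecondCountableTopology M] {ι : Type} [Fintype ι]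
  {U V W : Type} [NormedAddCommGroup U] [InnerProductSpace ℝ U] [FiniteDimensional ℝ U]
  [NormedAddCommGroup V] [InnerProductSpace ℝ V] [FiniteDimensional ℝ V]
  [NormedAddCommGroup W] [InnerProductSpace ℝ W] [FiniteDimensional ℝ W]

section two
variable (F F' : Fr I M ι)

variable (V) in
/-- the identity between the `L²` spaces of two frames -/
def jj : L2 F V →L[ℝ] L2 F' V := F.toPre.liftT 0 0 _ F'.toPre _ id

/-- change of the components of two-forms -/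
def l2 (S : ι → ι → M → ℝ) (x : M) : V2 ι →L[ℝ] V2 ι :=
  idx (fun s t : ι × ι => S s.1 t.1 x * S s.2 t.2 x) (ContinuousLinearMap.id ℝ ℝ)

/-- transport of two-forms -/
def tf (S : ι → ι → M → ℝ) : HK F 0 →L[ℝ] HK F' 0 := jj (V2 ι) F F' ∘L F.mulH 0 _ _ (l2 S)

variable {F F'} {S : ι → ι → M → ℝ} {o : ι → ι → ι → ι → M → ℝ} {Ω : Set M} {w : M → Ext E}

theorem is_jj (h : Dom F.toPre F'.toPre) {x : L2 F V} {f : M → V} (H : Is F.toPre 0 _ x f) :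
    Is F'.toPre 0 _ (jj V F F' x) f := by
  obtain ⟨c, hc⟩ := h.2
  have hc' : F'.μ ≤ (c : ENNReal) • F.μ := hc
  have ac := Measure.absolutelyContinuous_of_le_smul hc'
  let j : Lp V 2 F.μ →L[ℝ] Lp V 2 F'.μ := Lp.LpToLpOfMeasureLeSMul ENNReal.coe_ne_top hc'
  have k : ∀ g, j g =ᵐ[F'.μ] g := Lp.coeFn_LpToLpOfMeasureLeSMul _ _
  have e : ∀ x, F'.toL2 0 _ (jj V F F' x) = j (F.toL2 0 _ x) := fun x => by
    induction x using H_ind with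
    | hP => exact isClosed_eq (by fun_prop) (by fun_prop)
    | h u =>
      rw [jj, RepT_toH h.rep]
      exact Lp.ext ((Is.toH _).trans ((k _).trans (ac.ae_eq (Is.toH u))).symm)
  rw [Is, e]
  exact (k _).trans (ac.ae_eq H)

theorem jj_jj (h : Cmp F.toPre F'.toPre) (x : L2 F V) : jj V F' F (jj V F F' x) = x :=
  (is_jj h.2 (is_jj h.1 (is_self x))).unique (is_self x)

theorem jj_mul (h : Cmp F.toPre F'.toPre) {f : M → V →L[ℝ] W} (hf : F.Cb f) (x : L2 F V) :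
    jj W F F' (F.mulH 0 _ _ f x) = F'.mulH 0 _ _ f (jj V F F' x) :=
  have := FiniteDimensional.complete ℝ W
  (is_jj h.1 ((is_self x).mulH hf (Maps.triv _))).unique
    ((is_jj h.1 (is_self x)).mulH (h.Cb_iff.1 hf) (Maps.triv _))

theorem jj_π (h : Cmp F.toPre F'.toPre) (hΩ : IsClopen Ω) (x : HK F 0) :
    jj _ F F' (πH F Ω x) = πH F' Ω (jj _ F F' x) :=
  (is_jj h.1 (is_π hΩ (is_self x))).unique (is_π hΩ (is_jj h.1 (is_self x)))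

theorem hs_eq (e : F'.P = F.P) : hs F' o = hs F o := by unfold hs; rw [e]

theorem jj_PH (h : Cmp F.toPre F'.toPre) (k : Tam F o) (e : F'.P = F.P) (x : HK F 0) :
    jj _ F F' (PH F o 0 x) = PH F' o 0 (jj _ F F' x) := by
  rw [PH, PH, jj_mul h k.cb_hs, hs_eq e]

theorem c2_mix (h : Mix F.toPre F'.toPre S) (w : M → Ext E) (x : M) :
    c2 F' w x = l2 S x (c2 F w x) := fm_ext fun s => by
  have e : ∀ a, ee F' x a = ∑ b, S a b x • ee F x b := fun a => h a x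
  simp only [l2, idx_apply, c2, k2, e, e2_vsum, e2_vsum', Fintype.sum_prod_type, mul_sum,
    ContinuousLinearMap.id_apply, smul_eq_mul, mul_assoc]
  exact sum_comm.trans (sum_congr rfl fun _ _ => sum_congr rfl fun _ _ => mul_left_comm _ _ _)

theorem cls_l2 {J : Type} {P : J → Pre I M ι} {K : Cls P} {S : ι → ι → J → M → ℝ}
    (hS : ∀ a b, K.mem (S a b)) : K.mem fun j => l2 fun a b => S a b j :=
  Cls.idx (fun _ _ => Cls.mul (hS _ _) (hS _ _)) (K.const _)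

theorem cb_l2 (hS : ∀ a b, F.Cb (S a b)) : F.Cb (l2 S) :=
  cls_l2 (K := cb (fun _ : Unit => F.toPre) Set.univ) (S := fun a b _ => S a b)
    (fun a b _ _ => hS a b) () trivial

variable (F F' S) in
/-- comparable frames -/
structure Cp : Prop where
  cmp : Cmp F.toPre F'.toPre
  mix : Mix F.toPre F'.toPre S
  cb : ∀ a b, F.Cb (S a b)

namespace Cp
variable (h : Cp F F' S) {u : HK F 0}
include h

theorem isf (hu : Isf F u w) : Isf F' (tf F F' S u) w :=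
  is_jj h.cmp.1 ((hu.mulH (cb_l2 h.cb) (Maps.triv _)).congr
    (.of_forall fun x => (c2_mix h.mix w x).symm))

theorem sq (hw : Sq F w) : Sq F' w := let ⟨_, hu⟩ := hw.exists; (h.isf hu).memLp

theorem kk (hu : u ∈ KK F Ω) : tf F F' S u ∈ KK F' Ω :=
  KK_ind (P := fun u => tf F F' S u ∈ KK F' Ω)
    ((K0 F' Ω).isClosed_topologicalClosure.preimage (by fun_prop))
    (fun _ _ ha h0 k => mem_KK ha h0 (h.isf k)) hu

theorem tf_tf {S' : ι → ι → M → ℝ} (h' : Cp F' F S') (hu : u ∈ KK F Ω) :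
    tf F' F S' (tf F F' S u) = u :=
  KK_ind (P := fun u => tf F' F S' (tf F F' S u) = u) (isClosed_eq (by fun_prop) continuous_id)
    (fun _ _ _ _ k => (h'.isf (h.isf k)).unique k) hu

theorem π (hΩ : IsClopen Ω) (u : HK F 0) : πH F' Ω (tf F F' S u) = tf F F' S (πH F Ω u) := by
  rw [tf, ContinuousLinearMap.comp_apply, ← jj_π h.cmp hΩ, ContinuousLinearMap.comp_apply]
  exact congrArg _ ((is_π hΩ ((is_self u).mulH (cb_l2 h.cb) (Maps.triv _))).unique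
    (((is_π hΩ (is_self u)).mulH (cb_l2 h.cb) (Maps.triv _)).congr
      (.of_forall fun _ => map_smul _ _ _)))

theorem pc {S' : ι → ι → M → ℝ} (h' : Cp F' F S') (k : Pc F o Ω) (k' : Tam F' o)
    (so : SameOn (vol F o) (vol F' o) Set.univ) : Pc F' o Ω := by
  have e : integ I (vol F' o) = integ I (vol F o) :=
    funext fun a => (Int54.integ_congr_ori (ori k.ok) (ori k'.ok) so a).symm
  refine ⟨k', k.cl, fun a h1 h2 h3 => ?_, ?_, ?_, ?_⟩ <;> rw [e]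
  exacts [k.bd a h1 h2 (h'.sq h3), k.top.lift, k.top.neg, k.top.rad]

end Cp

end two

variable {lam : Type} [Fintype lam] {T : Type} [NormedAddCommGroup T] [NormedSpace ℝ T]
  (𝔉 : Mod61.Fam I M ι lam T)

/-- families of comparable backgrounds -/
structure FC : Prop extends 𝔉.OK where
  cmp : ∀ t ∈ 𝔉.Q, Cmp 𝔉.F0.toPre (𝔉.G t).F.toPre
  tam : Tam 𝔉.F0 𝔉.B.o

/-- an operator seen on the fixed scale -/
def tr (t : T) (A : L2 (𝔉.G t).F V →L[ℝ] L2 (𝔉.G t).F W) : L2 𝔉.F0 V →L[ℝ] L2 𝔉.F0 W :=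
  jj W _ _ ∘L A ∘L jj V _ _

/-- smooth families of operators -/
def SF (A : ∀ t, L2 (𝔉.G t).F V →L[ℝ] L2 (𝔉.G t).F W) : Prop :=
  ContDiffOn ℝ ∞ (fun t => tr 𝔉 t (A t)) 𝔉.Q

variable {𝔉} {t : T}

theorem SF.zero : SF 𝔉 fun t => (0 : L2 (𝔉.G t).F V →L[ℝ] L2 (𝔉.G t).F W) :=
  (contDiffOn_const (c := 0)).congr fun _ _ => by simp [tr]

theorem SF.sum {κ : Type} (s : Finset κ) {a : κ → T → ℝ}
    {A : κ → ∀ t, L2 (𝔉.G t).F V →L[ℝ] L2 (𝔉.G t).F W} (ha : ∀ i ∈ s, ContDiffOn ℝ ∞ (a i) 𝔉.Q)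
    (hA : ∀ i ∈ s, SF 𝔉 (A i)) : SF 𝔉 fun t => ∑ i ∈ s, a i t • A i t :=
  (ContDiffOn.sum fun i hi => (ha i hi).smul (hA i hi)).congr fun _ _ => by
    ext x; simp [tr]

namespace FC
variable (h : FC 𝔉)
include h

theorem cp (ht : t ∈ 𝔉.Q) : Cp 𝔉.F0 (𝔉.G t).F fun a b x => 𝔉.S t x a b :=
  ⟨h.cmp t ht, h.mix t ht, fun a b => (h.sS a b).cb t ht⟩

theorem cp' (ht : t ∈ 𝔉.Q) : Cp (𝔉.G t).F 𝔉.F0 fun a b x => 𝔉.Si t x a b :=
  ⟨(h.cmp t ht).symm, Mon62.mix_inv h.toOK ht,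
    fun a b => (h.cmp t ht).Cb_iff.1 ((h.sSi a b).cb t ht)⟩

theorem P (ht : t ∈ 𝔉.Q) : (𝔉.G t).F.P = 𝔉.F0.P := (h.G t ht).P.trans h.P0.symm

theorem tamG (ht : t ∈ 𝔉.Q) : Tam (𝔉.G t).F 𝔉.B.o :=
  ⟨.of_base h.tam.ok.h4 h.B (h.G t ht), h.tameG t ht,
    fun a b c d => (h.cmp t ht).Cb_iff.1 (h.co a b c d)⟩

theorem comp {A : ∀ t, L2 (𝔉.G t).F V →L[ℝ] L2 (𝔉.G t).F W}
    {B : ∀ t, L2 (𝔉.G t).F U →L[ℝ] L2 (𝔉.G t).F V} (hA : SF 𝔉 A) (hB : SF 𝔉 B) :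
    SF 𝔉 fun t => A t ∘L B t :=
  (ContDiffOn.clm_comp hA hB).congr fun t ht => ContinuousLinearMap.ext fun x => by
    simp only [tr, ContinuousLinearMap.comp_apply, jj_jj (h.cmp t ht).symm]

theorem mul {f : T → M → V →L[ℝ] W} (hf : SB 𝔉.F0.toPre 𝔉.Q f) :
    SF 𝔉 fun t => (𝔉.G t).F.mulH 0 _ _ (f t) :=
  have := FiniteDimensional.complete ℝ W
  (hf.mulH (k := 0) (p := triv M V) (q := triv M W) (Cb_const _) (fun _ _ => rfl)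
    fun _ _ => Maps.triv _).congr fun t ht => ContinuousLinearMap.ext fun x => by
      simp only [tr, ContinuousLinearMap.comp_apply]
      rw [← jj_mul (h.cmp t ht) (hf.cb t ht), jj_jj (h.cmp t ht)]

theorem smul {f : M → ℝ} (hf : 𝔉.F0.Cb f) :
    SF 𝔉 fun t => smulH (𝔉.G t).F.toPre 0 (triv M ℝ) f :=
  h.mul (SB.fixed (Cb_smul hf (Cb_const (ContinuousLinearMap.id ℝ ℝ))))

theorem gs : SF 𝔉 fun t => GS (𝔉.G t).F := by
  let q := fun t => QQ 𝔉.F0.toPre (𝔉.G t).F 0 (0 : Mon62.Mu 𝔉.F0.toPre ℝ 0)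
  have hD : ∀ j c, ContDiffOn ℝ ∞ (fun t => Dt ℝ 𝔉.F0.toPre (𝔉.G t).F j c) 𝔉.Q := fun j c =>
    (ContDiffOn.sum fun b _ => ((h.sS c b).smulH (Cb_const _) fun _ _ => rfl).clm_comp
      contDiffOn_const).congr fun t ht => Mon62.Dt_eq (h.mix t ht) (h.cp ht).cb j c
  have hq : ContDiffOn ℝ ∞ q 𝔉.Q := contDiffOn_const.sub (ContDiffOn.sum fun c _ =>
    (((hD 0 c).add contDiffOn_const).add ((((h.sdv c).smulH (Cb_const _) fun _ _ => rfl)).clm_comp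
      contDiffOn_const)).clm_comp ((hD 1 c).add contDiffOn_const))
  have r := fun t ht => (rh0 (h.tameG t ht).choose_spec).ell
  have e : ∀ t (ht : t ∈ 𝔉.Q) z, chg 0 _ (h.cmp t ht) (q t z) =
      QH (𝔉.G t).F (fun _ _ => 0) 0 (chg 2 _ (h.cmp t ht) z) := fun t ht =>
    chg_rep _ (Mon62.rep_QQ (Mon62.act_fam h.toOK ht) Mon62.repM_zero)
      (RepT_congr ((r t ht).spec 0).1 fun u => (Wrd81.lap1_eq _ _ u.1).symm)
  have hi : ∀ t ∈ 𝔉.Q, (q t).IsInvertible := fun t ht => Mon62.isInvertible_of_bij <|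
    (Bijective.of_comp_iff' (chg 0 _ (h.cmp t ht)).bijective _).1 <| by
      rw [show chg 0 _ (h.cmp t ht) ∘ q t = _ from funext (e t ht)]
      exact ((r t ht).spec 0).2.comp (chg 2 _ (h.cmp t ht)).bijective
  have hs : ContDiffOn ℝ ∞ (fun t => (q t).inverse) 𝔉.Q := fun t ht => by
    obtain ⟨e, he⟩ := hi t ht
    have k : ContDiffAt ℝ ∞ ContinuousLinearMap.inverse (q t) := he ▸ contDiffAt_map_inverse e
    exact k.comp_contDiffWithinAt t (hq t ht)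
  refine ((contDiffOn_const (c := 𝔉.F0.incl 2 0 _)).clm_comp hs).congr fun t ht =>
    ContinuousLinearMap.ext fun x => ?_
  have e1 := e t ht ((q t).inverse x)
  rw [Mon62.apply_inverse (hi t ht)] at e1
  have e2 : GS (𝔉.G t).F (chg 0 _ (h.cmp t ht) x) =
      chg 0 _ (h.cmp t ht) (𝔉.F0.incl 2 0 _ ((q t).inverse x)) := by
    rw [e1, GS, ContinuousLinearMap.comp_apply, (r t ht).G_Q, chg_incl _ (Nat.zero_le 2)]
  exact (congrArg (jj ℝ _ _) e2).trans (jj_jj (h.cmp t ht) _)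

theorem ll : ∀ l : List (La M), Wrd81.LlIn I Set.univ l → SF 𝔉 fun t => llH (𝔉.G t).F l
  | [], _ => h.smul (Cb_const _)
  | .mul f :: l, k => h.comp (h.smul (Wrd81.Tf.cb _ (k (.mul f) (by simp))))
      (ll l fun t ht => k t (by simp [ht]))
  | .G :: l, k => h.comp h.gs (ll l fun t ht => k t (by simp [ht]))

theorem sb_dd2 {f g : M → ℝ} (hf : 𝔉.F0.Cb f) (hg : 𝔉.F0.Cb g) :
    SB 𝔉.F0.toPre 𝔉.Q fun t => dd2 (𝔉.G t).F f g :=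
  Cls.toLp (K := sb 𝔉.F0.toPre h.mix h.sS) fun _ => Cls.mul
    (SB.D' h.mix h.sS (SB.fixed hf) _) (SB.D' h.mix h.sS (SB.fixed hg) _)

theorem tm {r m : ℕ} {τ : Tm M lam r m} (k : TmIn I Set.univ τ) :
    SF 𝔉 fun t => tmH (𝔉.G t).F 𝔉.B.o τ := by
  rcases τ with _ | _ | ⟨g, g2, ⟨_ | ⟨f, g', h'⟩, l⟩⟩ | _ | _ | _ | _ <;> try exact SF.zero
  obtain ⟨a1, a2, ⟨a3, a4, a5⟩, a6⟩ := k
  refine h.comp (h.mul ((((SB.fixed h.tam.cb_hs).app (h.sb_dd2 (a1.cb _) (a2.cb _))).clm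
    (ContinuousLinearMap.smulRightL ℝ ℝ (V2 ι) 1)).congr fun t ht => ?_))
    (h.comp (h.ll l a6) (h.comp h.gs (h.comp h.gs (h.mul
      (((SB.fixed (a3.cb _)).smul (h.sb_dd2 (a4.cb _) (a5.cb _))).clm (innerSL ℝ))))))
  rw [hs_eq (h.P ht)]; rfl

theorem sm {r m : ℕ} {κ : Type} (s : Finset κ) {a : κ → T → ℝ} {τ : κ → Tm M lam r m}
    (ha : ∀ i ∈ s, ContDiffOn ℝ ∞ (a i) 𝔉.Q) (k : ∀ i ∈ s, TmIn I Set.univ (τ i)) :
    SF 𝔉 fun t => smH (𝔉.G t).F 𝔉.B.o s (a · t) τ := SF.sum s ha fun i hi => h.tm (k i hi)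

end FC

/-- the projection onto the self-dual forms on the piece -/
def Pc.pr {F : Fr I M ι} {o : ι → ι → ι → ι → M → ℝ} {Ω : Set M} (h : Pc F o Ω) :
    HK F 0 →L[ℝ] HP F o Ω :=
  (PH F o 0 ∘L πH F Ω).codRestrict _ fun u => h.PH_mem (π_π h.cl u)

theorem Pc.pr_eq {F : Fr I M ι} {o : ι → ι → ι → ι → M → ℝ} {Ω : Set M} (h : Pc F o Ω)
    {u : HK F 0} (hu : u ∈ HP F o Ω) : (h.pr u : HK F 0) = u :=
  (congrArg (PH F o 0) hu.2).trans hu.1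

variable (𝔉) (Ω : Set M) (A : ∀ t, HK (𝔉.G t).F 0 →L[ℝ] HK (𝔉.G t).F 0)
  (Af : T → (M → V2 ι) → M → V2 ι)

/-- transport to the scale at `t` -/
abbrev ut (t : T) : HK 𝔉.F0 0 →L[ℝ] HK (𝔉.G t).F 0 := tf _ _ fun a b x => 𝔉.S t x a b

/-- the abelian operator on the fixed scale -/
def AO (t : T) : HK 𝔉.F0 0 →L[ℝ] HK 𝔉.F0 0 :=
  jj _ _ _ ∘L (PH (𝔉.G t).F 𝔉.B.o 0 - A t) ∘L ut 𝔉 t

/-- families of abelian problems -/
structure FA : Prop extends FC 𝔉 where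
  pc : Pc 𝔉.F0 𝔉.B.o Ω
  so : ∀ t ∈ 𝔉.Q, SameOn (vol 𝔉.F0 𝔉.B.o) (vol (𝔉.G t).F 𝔉.B.o) Set.univ
  sf : SF 𝔉 A
  op : ∀ t ∈ 𝔉.Q, ∃ N n, Op (𝔉.G t).F 𝔉.B.o (A t) (Af t) N n ∧ √2 * N < 1

variable {𝔉 Ω A Af}

theorem FC.sb_l2 (h : FC 𝔉) : SB 𝔉.F0.toPre 𝔉.Q fun t => l2 fun a b x => 𝔉.S t x a b :=
  cls_l2 (K := sb 𝔉.F0.toPre h.mix h.sS) (S := fun a b t x => 𝔉.S t x a b) h.sS

theorem FC.sm_tr (h : FC 𝔉) (hA : SF 𝔉 A) :
    ContDiffOn ℝ ∞ (fun t => jj (V2 ι) _ 𝔉.F0 ∘L A t ∘L ut 𝔉 t) 𝔉.Q := by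
  have k := h.sb_l2.mulH (k := 0) (p := triv M (V2 ι)) (q := triv M (V2 ι)) (Cb_const _)
    (fun _ _ => rfl) fun _ _ => Maps.triv _
  refine (ContDiffOn.clm_comp hA k).congr fun t _ => ?_
  rw [tr, ut, tf, ContinuousLinearMap.comp_assoc, ContinuousLinearMap.comp_assoc]

namespace FA
variable (h : FA 𝔉 Ω A Af) {u u0 k : HK 𝔉.F0 0} {f0 : M → Ext E}

/-- the operator between exact forms and self-dual forms -/
def L (t : T) : KK 𝔉.F0 Ω →L[ℝ] HP 𝔉.F0 𝔉.B.o Ω := h.pc.pr ∘L AO 𝔉 A t ∘L (KK 𝔉.F0 Ω).subtypeL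

/-- the solution -/
def sol (u0 : HK 𝔉.F0 0) (t : T) : KK 𝔉.F0 Ω := (h.L t).inverse (-h.pc.pr (AO 𝔉 A t u0))

include h

theorem pcG (ht : t ∈ 𝔉.Q) : Pc (𝔉.G t).F 𝔉.B.o Ω :=
  (h.cp ht).pc (h.cp' ht) h.pc (h.tamG ht) (h.so t ht)

theorem sm_AO : ContDiffOn ℝ ∞ (AO 𝔉 A) 𝔉.Q :=
  h.toFC.sm_tr (A := fun t => PH (𝔉.G t).F 𝔉.B.o 0 - A t)
    ((ContDiffOn.sub (h.mul (SB.fixed h.tam.cb_hs)) h.sf).congr fun t ht => by
      simp only [tr, PH, hs_eq (h.P ht), ContinuousLinearMap.comp_sub, ContinuousLinearMap.sub_comp])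

theorem sm_L : ContDiffOn ℝ ∞ h.L 𝔉.Q :=
  contDiffOn_const.clm_comp (h.sm_AO.clm_comp contDiffOn_const)

theorem jj_mem (ht : t ∈ 𝔉.Q) {v : HK (𝔉.G t).F 0} (hv : v ∈ HP (𝔉.G t).F 𝔉.B.o Ω) :
    jj _ _ 𝔉.F0 v ∈ HP 𝔉.F0 𝔉.B.o Ω :=
  ⟨by rw [← jj_PH (h.cmp t ht).symm (h.tamG ht) (h.P ht).symm, hv.1],
    by rw [← jj_π (h.cmp t ht).symm h.pc.cl, hv.2]⟩

theorem AO_mem (ht : t ∈ 𝔉.Q) (hu : πH 𝔉.F0 Ω u = u) : AO 𝔉 A t u ∈ HP 𝔉.F0 𝔉.B.o Ω := by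
  obtain ⟨N, n, h1, h2⟩ := h.op t ht
  have e : πH _ Ω (ut 𝔉 t u) = ut 𝔉 t u := by rw [(h.cp ht).π h.pc.cl, hu]
  exact h.jj_mem ht (sub_mem ((h.pcG ht).PH_mem e) ((h1.per h.pc.cl h2).mem _ e))

theorem AO_zero (ht : t ∈ 𝔉.Q) :
    AO 𝔉 A t u = 0 ↔ PH (𝔉.G t).F 𝔉.B.o 0 (ut 𝔉 t u) = A t (ut 𝔉 t u) := by
  rw [← sub_eq_zero (a := PH _ _ _ _)]
  exact ⟨fun e => (jj_jj (h.cmp t ht).symm _).symm.trans ((congrArg (jj _ _ _) e).trans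
    (map_zero _)), fun e => (congrArg (jj _ _ 𝔉.F0) e).trans (map_zero _)⟩

theorem L_eq (ht : t ∈ 𝔉.Q) (k : KK 𝔉.F0 Ω) : (h.L t k : HK 𝔉.F0 0) = AO 𝔉 A t k := by
  rw [L, ContinuousLinearMap.comp_apply, ContinuousLinearMap.comp_apply, Submodule.subtypeL_apply]
  exact h.pc.pr_eq (h.AO_mem ht (π_KK h.pc.cl k.2))

theorem inv (ht : t ∈ 𝔉.Q) : (h.L t).IsInvertible := by
  obtain ⟨N, n, h1, h2⟩ := h.op t ht
  have p := h1.per h.pc.cl h2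
  refine Mon62.isInvertible_of_bij ⟨(injective_iff_map_eq_zero _).2 fun k e => Subtype.ext ?_,
    fun v => ?_⟩
  · have e1 := (h.AO_zero ht).1 ((h.L_eq ht k).symm.trans (congrArg _ e))
    have e2 := (h.pcG ht).uniq p (u0 := 0) ((h.cp ht).kk k.2) (zero_mem _) (by rwa [zero_add])
      (by simp)
    rw [← (h.cp ht).tf_tf (h.cp' ht) k.2, e2, map_zero]; rfl
  · obtain ⟨k, hk, e⟩ := (h.pcG ht).surj p (v := jj _ 𝔉.F0 _ v.1)
      ⟨by rw [← jj_PH (h.cmp t ht) h.tam (h.P ht), v.2.1], by rw [← jj_π (h.cmp t ht) h.pc.cl, v.2.2]⟩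
    refine ⟨⟨_, (h.cp' ht).kk hk⟩, Subtype.ext ((h.L_eq ht _).trans ?_)⟩
    simp only [AO, ContinuousLinearMap.comp_apply, (h.cp' ht).tf_tf (h.cp ht) hk,
      ContinuousLinearMap.sub_apply, e, jj_jj (h.cmp t ht)]

theorem sm_sol (u0 : HK 𝔉.F0 0) : ContDiffOn ℝ ∞ (h.sol u0) 𝔉.Q :=
  contDiffOn_solve h.sm_L ((contDiffOn_const.clm_apply
    (h.sm_AO.clm_apply contDiffOn_const)).neg) fun _ ht => h.inv ht

theorem sol_iff (ht : t ∈ 𝔉.Q) (h0 : πH 𝔉.F0 Ω u0 = u0) (k : KK 𝔉.F0 Ω) :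
    h.sol u0 t = k ↔ AO 𝔉 A t (u0 + k) = 0 := by
  rw [sol, (h.inv ht).inverse_apply_eq, Subtype.ext_iff, h.L_eq ht, map_add, Submodule.coe_neg,
    h.pc.pr_eq (h.AO_mem ht h0), neg_eq_iff_add_eq_zero]

/-- **the solution represents the solutions of the abelian equation** -/
theorem isf_sol (ht : t ∈ 𝔉.Q) (hf : Cz I Ω f0) (h0 : Isf 𝔉.F0 u0 f0) {a : M → Ext E}
    (ha : AS (𝔉.G t).F 𝔉.B.o Ω (Af t) f0 a) : Isf 𝔉.F0 (h.sol u0 t) (dM I a) := by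
  obtain ⟨N, n, h1, -⟩ := h.op t ht
  obtain ⟨k, hk, i, e⟩ := ha.sol (h.tamG ht) h1 h.pc.cl hf ((h.cp ht).isf h0)
  rw [(h.sol_iff ht (h0.π_eq h.pc.cl hf.off) ⟨_, (h.cp' ht).kk hk⟩).2 ((h.AO_zero ht).2 ?_)]
  · exact (h.cp' ht).isf i
  · rwa [map_add, (h.cp' ht).tf_tf (h.cp ht) hk]

/-- pairings of the solutions with a closed form depend smoothly on the parameter -/
theorem sm_pair (hf : Cz I Ω f0) (hq : Sq 𝔉.F0 f0) {w : M → Ext E} (hw : Sq 𝔉.F0 w) :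
    ∃ ℓ : T → ℝ, ContDiffOn ℝ ∞ ℓ 𝔉.Q ∧ ∀ t ∈ 𝔉.Q, ∀ a, AS (𝔉.G t).F 𝔉.B.o Ω (Af t) f0 a →
      integ I (vol 𝔉.F0 𝔉.B.o) (dM I a * w) = ℓ t := by
  obtain ⟨u0, h0⟩ := hq.exists
  obtain ⟨v, hv⟩ := hw.exists
  have s := (KK 𝔉.F0 Ω).subtypeL.contDiff.comp_contDiffOn (h.sm_sol u0)
  refine ⟨fun t => 1 / 2 * Bw 𝔉.F0 𝔉.B.o (h.sol u0 t) v, contDiffOn_const.mul
    ((s.inner ℝ contDiffOn_const).sub (s.inner ℝ contDiffOn_const)), fun t ht a ha => ?_⟩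
  simp only [h.tam.Bw_eq (h.isf_sol ht hf h0 ha) hv ha.fo.d.dg]
  ring

end FA

end Crest.Agent.X212.Qab60
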