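import Crest.Agent.X212.Qab60.Hj
import Crest.Agent.X212.Tm38.Pq3
import Crest.Agent.X212.Mp86.Uq
import Crest.Agent.X212.Clc51.Main
import Crest.Agent.X212.Kg34.Main
import Crest.Agent.X212.Sw21.KxA
import Crest.Agent.X212.Pat85.Out
import Crest.Agent.X212.Wl34.On

/-! X212 / QAB (helper60): `Rf65.QStmt` for `TA = TAq`. -/

set_option autoImplicit false
noncomputable section
open Set

namespace Crest.Agent.X212.Qab60
open An M Rf65 G75

variable {κ lam : Type} [Fintype κ] [Fintype lam] [DecidableEq lam] (Lm : LM κ lam)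

/-- the leaf KSC for the jobs of `QStmt` -/
def KscA : Prop := AllQ Lm fun J c _ _ _ _ => KscL J c

/-- **RF-Q** -/
theorem qStmt (hm : HMov Lm) (hk : KscA Lm) (ht : TrqStmt Lm) : QStmt Lm (TAq Lm) := by
  intro S D i Wi r n J c R e Q j n₀ T hQ G c1 pj
  obtain ⟨P, hP⟩ := hiStmt Lm hm S D i Wi r n J c R e Q j n₀ T hQ G c1 pj
  have d0 := (hP.choose_spec.2 (fun _ => False) fun _ k => k.elim).d0
  have k := hk S D i Wi r n J c R e Q j n₀ T hQ G c1 pj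
  refine ⟨P.Tr fun b => .inl (e b), P.d / 2, half_pos d0, fun δ hδ => hP.mono fun Adm O =>
    ⟨Tm38.Pq.parStmt Lm (fun D => Wl34.wl D) S D i Wi r n J c R e Q j n₀ T hQ G c1 pj (Sw21.kex J c)
      P Adm O, fun σ H => ⟨Mp86.Uq.uqq G c1 (Clc51.clc J c) k O H,
        ht S D i Wi r n J c R e Q j n₀ T hQ G c1 pj (Clc51.clc J c) k (Kg34.kgen J c) P Adm δ σ O
          (fun H => Pat85.outL (Wl34.cclOn H.ok H.pj H.mem) H) H, ?_⟩⟩⟩
  rintro q y x a hy f - - ok ⟨b, ξ, hb, t0, A, C, hd, L⟩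
  obtain rfl : R = x := singleton_injective (c1.symm.trans f.1.2.1)
  have I := (H.qr _ _ _ a hy f.1 f.2.1 ok).2.1 ▸ Mp86.Uq.ai_of H.toH1 hy A
  exact ⟨P.d, hδ.2.trans_lt (half_lt_self d0), ξ, A,
    O.taf q σ _ _ ξ _ b a ⟨H.mem, hy.cell, hy.inf⟩ hb t0 I C hd,
    fun l k => ⟨(O.flx q _ _ ξ a I).2.2 (.inl C) l k, L l k⟩⟩

end Crest.Agent.X212.Qab60
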