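import Crest.Agent.X212.Qab60.Pur

/-! X212 / QAB (helper60): the interface `HD.OK` from the leaves on forms. -/

set_option autoImplicit false
set_option linter.unusedSectionVars false
noncomputable section
open scoped Manifold ContDiff Topology InnerProductSpace Real
open MeasureTheory Set Function Filter
open Crest.Agent.R208.F (Ext)

namespace Crest.Agent.X212.Qab60
open An Prm93 Num57 M Nd18 Rf65 G75 Ins26 Cyf70
open Int54 (integ Ori SameOn)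
open Dr59 (Cs dM pm)
open Fin37 (Pm)
open Abel74 (fm)
open Tmp64 (AdmOn Eq0 admOn_univ)
open Dfl49 (PI)
open Rdc90 (Bs)
open Hol14 (flux)

theorem int_cls {ν : Type} [Fintype ν] [DecidableEq ν] {Z : Finset ν} {a n : ν → ℤ}
    (ha : ∀ k ∈ Z, |a k| = 1) (hn : ∀ k ∈ Z, Odd (n k)) (hs : ∑ k, n k ^ 2 = Z.card) (k : ν) :
    n k = if k ∈ Z then (if n k = -a k then -a k else a k) else 0 := by
  have := (Finset.sum_eq_zero_iff_of_nonneg (s := Finset.univ)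
    (f := fun k => n k ^ 2 - if k ∈ Z then 1 else 0) fun k _ => by
      split_ifs with m
      · have : n k ≠ 0 := fun e => by simpa [e] using hn k m
        exact sub_nonneg.2 ((one_le_sq_iff_one_le_abs _).2 (Int.one_le_abs this))
      · simpa using sq_nonneg _).1 (by simp [Finset.sum_sub_distrib, hs]) k (Finset.mem_univ _)
  split_ifs at this ⊢ with m e
  · exact e
  · exact (sq_eq_sq_iff_eq_or_eq_neg.1 ((sub_eq_zero.1 this).trans
      (by rw [← sq_abs, ha k m, one_pow]))).resolve_right e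
  · simpa using this

variable {Wi : Type} {X : Mf 4} {A κ lam : Type} [Fintype A] [Fintype κ] [Fintype lam]
  [DecidableEq lam] {M : Mark X A κ} {W : World M} {N : ML M lam} {Λ : Lns W N}
  {A' h : Type} [Fintype A'] [DecidableEq A'] [Fintype h] {r n : ℕ}
  {J : Job Wi Λ A' h r n} {c : M.Cl} {R : A} {ν : Type} [Fintype ν] [DecidableEq ν]
  {Q : QT (W.Z c).E (W.Z c).M ν} {θ : (J.xs R).Y.M → Circle} {ϖ : (J.xs R).Y.M → V3}
  {q : Wi →₀ ℝ} {s s' : A' → ℝ} {f a : (W.Z c).M → Ext (W.Z c).E} {k d t : ℝ}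
  {x : Cg' W c lam r} {ξ : (W.Z c).M → x.m.A} {z : (W.Z c).M} {β : Wi → ℝ} {e : Bool → A'}
  {m : Finset ν} {hol : YC (J.xs R).Y.M κ (lam ⊕ lam) → ℝ} {σ : Cel A'} {S : Finset Wi} {T T' : ℝ}

theorem Abv.mono (k : Abv J c R f S T) (l : T ≤ T') : Abv J c R f S T' :=
  ⟨k.T0.trans l, fun s ha x hx => k.z s ha x (l.trans_lt hx)⟩

theorem Ovc.pm (k : Ovc J c σ s) : Pm J c s := ⟨σ, k⟩

variable (Q) in
/-- the periods of the class `m` -/
def vv (m : Finset ν) (j : ν) : ℝ :=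
  π * ((if j ∈ Q.Z then (if j ∈ m then -Q.a j else Q.a j) else 0 : ℤ) : ℝ)

variable (Q) in
/-- the model form of the class `m` -/
def FF (m : Finset ν) : (W.Z c).M → Ext (W.Z c).E :=
  if m = Finset.univ then π • Q.γ false else Q.fv (vv Q m)

variable (J c Q) in
/-- the periods of `x` are those of `m` -/
abbrev Cm (s : A' → ℝ) (x : Cg' W c lam r) (ξ : (W.Z c).M → x.m.A) (m : Finset ν) : Prop :=
  ∀ j, integ (W.Z c).I (W.o c) (xf J c s x ξ * Q.ε j) = vv Q m j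

variable (J c R Q) in
/-- the class `m` is represented -/
def Xm (m : Finset ν) : Prop := ∃ (s : A' → ℝ) (x : Cg' W c lam r) (ξ : _), Pm J c s ∧
  Ab (J.B c) (J.G c s) (oI W c R) x ξ ∧ xf J c s x ξ = FF Q m

variable (J c R θ ϖ) in
/-- the holonomy of the potential -/
def hv (q : Wi →₀ ℝ) (s : A' → ℝ) (f : (W.Z c).M → Ext (W.Z c).E) : ℝ :=
  Classical.epsilon (Hv J c R θ ϖ q s f)

variable (J c R Q θ ϖ β hol) in
/-- the constants of the class `m` -/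
def Gd (m : Finset ν) (p : ℝ × ℝ) : Prop := (p.2 = 1 ∨ p.2 = -1) ∧
  (m = Finset.univ → p.1 = 0 ∨ p.1 = 1 / 2) ∧ ∀ q s (x : Cg' W c lam r) ξ k, Ball β 0 q →
    AI J c R q s x k ξ → Cm J c Q s x ξ m → ∀ ha b ζ, Bs (J.xs R).D b →
      ((kI J c R s ha).Lim x b ζ atTop ↔ Real.cos (2 * π * hol b) =
        Real.cos (2 * π * (p.1 + p.2 * hv J c R θ ϖ q s (FF Q m))))

namespace JQ
variable (H : JQ J c R Q θ ϖ)
include H

section
variable (hs : Pm J c s) (m : Finset ν)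
include hs

theorem cz_FF : Cz (W.Z c).I (oI W c R) (FF Q m) := by
  unfold FF; split_ifs
  exacts [(cz_of_cs ((H.qok hs).cγ false)).smul π, (H.qok hs).cz_fv _]

theorem hc_FF : HasCompactSupport (FF Q m) := by
  unfold FF; split_ifs
  exacts [((H.qok hs).cγ false).hc.mono fun x hx e => hx (by
    rw [Pi.smul_apply, show Q.γ false x = 0 from e, smul_zero]), (H.qok hs).hc_fv _]

theorem per_FF (j : ν) : integ (W.Z c).I Q.O (FF Q m * Q.ε j) = vv Q m j := by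
  unfold FF; split_ifs with e
  · rw [smul_mul_assoc, Int54.integ_smul, show integ _ Q.O _ = _ from (H.qok hs).per_γ j, e, vv]
    split_ifs <;> simp_all
  · exact (H.qok hs).per_fv _ j

theorem sum_vv : ∑ j, vv Q m j ^ 2 = 4 * π ^ 2 * (Q.Z.card / 4) := by
  have : ∀ j, vv Q m j ^ 2 = π ^ 2 * if j ∈ Q.Z then 1 else 0 := fun j => by
    unfold vv; split_ifs with k
    all_goals first
      | simp [mul_pow, show (Q.a j : ℝ) ^ 2 = 1 by
          rw [← sq_abs, ← Int.cast_abs, show |Q.a j| = 1 from (H.qok hs).a1 j k]; simp]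
      | simp
  simp only [this, ← Finset.mul_sum, Finset.sum_boole, Finset.filter_mem_eq_inter,
    Finset.univ_inter]
  ring

variable {m} (hβ : OpB J β) (hq : Ball β 0 q)
include hβ hq

theorem hv_spec : Hv J c R θ ϖ q s (FF Q m) (hv J c R θ ϖ q s (FF Q m)) :=
  Classical.epsilon_spec (H.exists_hv hβ hq hs (H.cz_FF hs m) (H.hc_FF hs m))

theorem hv_eq (k : Hv J c R θ ϖ q s (FF Q m) t) : hv J c R θ ϖ q s (FF Q m) = t :=
  H.hv_uniq hβ hq hs (H.cz_FF hs m) (H.hc_FF hs m) (H.hv_spec hs hβ hq) k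

end

theorem as_cm (I : AI J c R q s x k ξ) (C : Cm J c Q s x ξ m) :
    ∃ a, ASj J c R q s (FF Q m) a ∧ xf J c s x ξ = FF Q m + dM (W.Z c).I a :=
  I.as H (H.cz_FF I.pm m) (H.hc_FF I.pm m) fun j => by rw [H.per_FF I.pm, H.O, C j]

theorem xm (I : AI J c R q s x k ξ) (C : Cm J c Q s x ξ m) : Xm J c R Q m := by
  obtain ⟨a, S, e⟩ := H.as_cm I C
  obtain ⟨k1, k2⟩ := H.add I.pm I.ab (S.fo.smul (-1)) (S.off.smul (-1))
  exact ⟨s, ada (J.G c s).F x ξ ((-1 : ℝ) • a), ξ, I.pm, k1, by rw [k2, e, S.fo.d_smul, neg_one_smul, add_neg_cancel_right]⟩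

theorem cls (hM : ModZ W c lam) (I : AI J c R q s x (Q.Z.card / 4) ξ) : ∃ m, Cm J c Q s x ξ m := by
  choose u hu using I.per_int H hM
  set n : ν → ℤ := fun j => (if j ∈ Q.Z then -Q.a j else 0) + 2 * u j
  have hn : ∀ j, integ (W.Z c).I Q.O (xf J c s x ξ * Q.ε j) = π * n j := fun j => by
    rw [hu]; simp [n]
  have l := I.lev_eq H
  simp only [hn, mul_pow, ← Finset.mul_sum] at l
  have := int_cls (n := n) (H.qok I.pm).a1 (fun j k => by
    have : Odd |Q.a j| := (show |Q.a j| = 1 from (H.qok I.pm).a1 j k) ▸ odd_one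
    simpa [n, show j ∈ Q.Z from k] using (odd_abs.1 this).neg.add_even (even_two_mul (u j)))
    (by exact_mod_cast mul_left_cancel₀ (pow_pos Real.pi_pos 2).ne'
          (l.trans (show _ = π ^ 2 * (Q.Z.card : ℝ) by ring)))
  refine ⟨Finset.univ.filter fun j => n j = -Q.a j, fun j => ?_⟩
  rw [← H.O, hn, vv, this j]
  simp only [Finset.mem_filter, Finset.mem_univ, true_and]

theorem uq {x' : Cg' W c lam r} {ξ' k'} (sc : SC (oI W c R)) (hβ : OpB J β) (hq : Ball β 0 q)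
    (I : AI J c R q s x k ξ) (I' : AI J c R q s x' k' ξ') (C : Cm J c Q s x ξ m)
    (C' : Cm J c Q s x' ξ' m) : ∃ u, PI (J.G c s).F x x' (oI W c R) u ∧
      ∀ z ∈ oI W c R, ξ' z = Eqv71.cj (u z) (ξ z) := by
  obtain ⟨a, S, e⟩ := H.as_cm I C
  obtain ⟨a', S', e'⟩ := H.as_cm I' C'
  refine Uq54.uq _ _ _ _ r r _ _ _ x ξ x' ξ' H.hB (H.hG I.pm) sc I.ab I'.ab fun z _ => congrFun ?_ z
  exact e'.trans (H.as_uniq hβ hq I.pm (H.cz_FF I.pm m) (H.hc_FF I.pm m) S S' ▸ e.symm)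

theorem ex (hM : ModZ W c lam) (hβ : OpB J β) (hq : Ball β 0 q) (hs : Pm J c s)
    {x' : Cg' W c lam r} (a' : AdmOn x' (J.B c) (J.G c s) (oI W c R)ᶜ) :
    ∃ x ξ u, AI J c R q s x (Q.Z.card / 4) ξ ∧ Cm J c Q s x ξ Finset.univ ∧
      Eq0 (J.G c s).F x' x (oI W c R)ᶜ u ∧ ∀ z ∈ oI W c R, x.eD (J.G c s) (J.τ c q s) z = 0 := by
  obtain ⟨a, S⟩ := H.exists_as hβ hq hs (H.cz_FF hs Finset.univ) (H.hc_FF hs _)
  obtain ⟨x, ξ, u, k1, k2, k3⟩ := H.exists_ref hs hM a' S.fo S.off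
  rw [show π • Q.γ false = FF Q Finset.univ from (if_pos rfl).symm] at k2
  have I := H.ai_of hs k1 (H.cz_FF hs _) (H.hc_FF hs _) S k2
  have C : Cm J c Q s x ξ Finset.univ := fun j => by
    rw [k2, ← H.O, ← H.per_FF hs]; exact (H.qok hs).per_add (H.cz_FF hs _).fo S.fo j
  have l := I.lev_eq H
  rw [Finset.sum_congr rfl fun j _ => congrArg (· ^ 2) ((H.O ▸ C j :) : _ = vv Q _ j),
    H.sum_vv hs] at l
  exact ⟨x, ξ, u, mul_left_cancel₀ (by positivity) l ▸ I, C, k3, fun z hz => H.eD hs k1 hz⟩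

theorem exists_gd (sc : SC (oI W c R)) (hβ : OpB J β) (L : Clr59.Clr (J.xs R).D θ hol)
    (m : Finset ν) : ∃ p, Gd J c R Q θ ϖ β hol m p := by
  by_cases X : Xm J c R Q m
  swap
  · exact ⟨(0, 1), .inl rfl, fun _ => .inl rfl, fun _ _ _ _ _ _ I C => (X (H.xm I C)).elim⟩
  obtain ⟨s₀, x₀, ξ₀, h₀, A₀, e₀⟩ := X
  have E₀ := H.en (H.act h₀)
  have P := (H.qe s₀ (H.act h₀)).pr
  obtain ⟨T₀, b₀, η₀, C₀, S₀, c₀⟩ : ∃ T₀ b₀ η₀, Ct0 (J.xs R).D b₀ η₀ ∧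
      Sd (kI J c R s₀ (H.act h₀)) x₀ ξ₀ b₀ η₀ T₀ ∧
        (m = Finset.univ → hol b₀ = 0 ∨ hol b₀ = 1 / 2) := by
    by_cases g : m = Finset.univ
    · obtain ⟨v1, v2, v3, -, v4⟩ := (H.qok h₀).V false
      obtain ⟨b₀, η₀, C, S⟩ := Sep15.Qa.ref r _ _ (kI J c R s₀ (H.act h₀)) _ _ x₀ ξ₀ 0 E₀.hD H.hB
        E₀.hG A₀ v1 v2 v3 (fun z hz => by
          rw [show fm _ _ _ _ = _ from e₀, g, FF, if_pos rfl, Pi.smul_apply,
            show Q.γ false z = 0 from v4 z hz, smul_zero])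
        (fun _ => E₀.J) fun z hz => En.memV (q := Q.on (oI W c R)) E₀ (H.qok h₀) false hz
      exact ⟨0, b₀, η₀, C.ct0, S, fun _ => C.cen E₀.hD P L⟩
    · obtain ⟨T, k⟩ := H.exists_abv ∅ (H.hc_FF h₀ m)
      obtain ⟨b₀, η₀, C, S⟩ := ref0 (K := kI J c R s₀ (H.act h₀)) E₀.hD H.hB E₀.hG A₀
        (fun _ l => E₀.J (k.T0.trans_lt l)) (fun _ l => E₀.mem (k.T0.trans_lt l))
        fun z hz => (congrFun e₀ z).trans (k.z _ _ z hz).1
      exact ⟨T, b₀, η₀, C, S, fun e => (g e).elim⟩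
  obtain ⟨ε, e1, e2⟩ := C₀.tw E₀.hD P L
  refine ⟨(hol b₀, ε), e1, c₀, fun q s x ξ k hq I C ha b ζ hb => ?_⟩
  obtain ⟨a, S, e⟩ := H.as_cm I C
  obtain ⟨V, v1, v2, v3⟩ := H.trn h₀ A₀ I.pm
  obtain ⟨k1, k2⟩ := H.add I.pm v1 S.fo S.off
  obtain ⟨u, p, -⟩ := Uq54.uq _ _ _ _ r r _ _ _ x ξ (ada (J.G c s).F ⟨x₀.m, V, x₀.Φ, x₀.z⟩ ξ₀ a) ξ₀ H.hB (H.hG I.pm) sc I.ab k1
    fun z _ => congrFun (k2.trans (by rw [v2, e₀]; exact e.symm)) z
  obtain ⟨T, l⟩ := H.exists_abv q.support (H.hc_FF h₀ m)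
  replace l := l.mono (le_max_left T T₀)
  obtain ⟨χ, hχ⟩ := exists_ct (max T T₀)
  obtain ⟨U, U0, d, d0, n1, n2⟩ := endS _ θ ϖ E₀.hD P
  have nf := n2 _ _ χ (H.asd l Finset.Subset.rfl S ha) hχ.cf
  rw [(H.hv_iff l Finset.Subset.rfl hχ).1 (H.hv_spec I.pm hβ hq) a S ha, n1 _ _ hχ.cf,
    mul_div_cancel_right₀ _ U0] at nf
  rw [← e2]
  exact lim_iff E₀.hD H.hB (H.hG I.pm) P L v1 C₀
    ((v3 _ ha _ _ _ S₀).mono ((le_max_right T T₀).trans (le_add_of_nonneg_right zero_le_one)))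
    (fun _ y => (H.en ha).mem (l.T0.trans_lt ((lt_add_one _).trans y))) d0 nf k1 I.ab p hb ζ

end JQ
end Crest.Agent.X212.Qab60
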