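import Crest.Agent.X212.Qab60.Hi
import Crest.Agent.X212.Tms63.Main
import Crest.Agent.X212.Clc51.Loc
import Crest.Agent.X212.Sw21.Fx
import Crest.Agent.X212.Taf6.Main
import Crest.Agent.X212.Crn56.Main
import Crest.Agent.X212.Qmd96.Mod

/-! X212 / QAB (helper60): `HiStmt` from the leaves on forms. -/

set_option autoImplicit false
set_option linter.unusedSectionVars false
noncomputable section
open scoped Manifold ContDiff Topology InnerProductSpace Real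
open MeasureTheory Set Function Filter
open Crest.Agent.R208.F (Ext)

namespace Crest.Agent.X212.Qab60
open An Prm93 Num57 M Nd18 Rf65 G75 Ins26 Cyf70
open Int54 (integ Ori SameOn)
open Dr59 (Cs dM pm)
open Fin37 (Pm)
open Abel74 (fm)
open Rdc90 (Bs)
open Hol14 (flux)

section job
variable {Wi : Type} {X : Mf 4} {A κ lam : Type} [Fintype A] [Fintype κ] [Fintype lam]
  [DecidableEq lam] {M : Mark X A κ} {W : World M} {N : ML M lam} {Λ : Lns W N}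
  {A' h : Type} [Fintype A'] [DecidableEq A'] [Fintype h] {r n : ℕ}
  {J : Job Wi Λ A' h r n} {c : M.Cl} {R : A} {ν : Type} [Fintype ν] [DecidableEq ν]
  {Q : QT (W.Z c).E (W.Z c).M ν} {θ : (J.xs R).Y.M → Circle} {ϖ : (J.xs R).Y.M → V3}
  {q : Wi →₀ ℝ} {s s' : A' → ℝ} {f a : (W.Z c).M → Ext (W.Z c).E} {k d t : ℝ}
  {x : Cg' W c lam r} {ξ : (W.Z c).M → x.m.A} {β : Wi → ℝ} {e : Bool → A'}
  {m : Finset ν} {hol : YC (J.xs R).Y.M κ (lam ⊕ lam) → ℝ} {σ : Cel A'} {b : Bool}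

variable (J c R Q θ ϖ β e d) in
/-- all facts on forms -/
structure HF : Prop extends JQ J c R Q θ ϖ where
  pr : PR (J.xs R).D.F θ ϖ
  sc : SC (oI W c R)
  cs : ∀ j, Cs (W.Z c).I 2 (oI W c R) (Q.ε j)
  ob : OpB J β
  md : ModZ W c lam
  d0 : 0 < d
  l1 : ∀ σ s b, Ovc J c σ s → σ (e b) = none → (∃ y ∈ M.sys.inn (hp R false), J.hd (e b) = some y) ∧
    s (e b) < 1 ∧ s (e (!b)) = 0 ∧ ∀ t ∈ Ico (0 : ℝ) 1, Ovc J c σ (update s (e b) t)
  l2 : ∀ q σ s s' (x : Cg' W c lam r) ξ, Ovc J c σ s → Ovc J c σ s' → (∀ b, s (e b) = s' (e b)) →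
    Ab (J.B c) (J.G c s) (oI W c R) x ξ →
    (∀ z ∈ oI W c R, x.eC (J.B c) (J.G c s) (J.τ c q s) z = 0) →
    ∃ V : x.m.Cn, Ab (J.B c) (J.G c s') (oI W c R) ⟨x.m, V, x.Φ, x.z⟩ ξ ∧
      fm (J.G c s').F x.m V ξ = fm (J.G c s).F x.m x.W ξ ∧ ∀ z ∈ oI W c R,
        (⟨x.m, V, x.Φ, x.z⟩ : Cg' W c lam r).eC (J.B c) (J.G c s') (J.τ c q s') z = 0
  f1 : ∀ l, Inn J R l → Q.Z.card = 2
  f2 : Q.Z.card = 1 ∨ ∃ l, Inn J R l
  f3 : ∀ s, Pm J c s → ∀ l, Inn J R l → ∀ (v : ν → ℝ) a, (∀ k ∉ Q.Z, v k = 0) → Fo (W.Z c).I 1 a →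
    flux (W.Z c).I (J.cut c l) (Q.fv v + dM (W.Z c).I a) = -∑ k ∈ Q.Z, v k * Q.a k
  cr : ∀ q σ s b, Ball β 0 q → Ovc J c σ s → σ (e b) = none →
    ∀ a : ℝ → (W.Z c).M → Ext (W.Z c).E,
    (∀ t ∈ Ico (0 : ℝ) 1, ASj J c R q (update s (e b) t) (π • Q.γ b) (a t)) →
    ∀ g : (W.Z c).M → ℝ, Sm (W.Z c).I g → HasCompactSupport g → Tendsto (fun t =>
      integ (W.Z c).I (W.o c) (dM (W.Z c).I (a t) * (g • Q.η b))) (𝓝[<] 1) (𝓝 0)
  mv : ∀ q s f a, Ball β 0 q → Pm J c s → Cz (W.Z c).I (oI W c R) f → HasCompactSupport f →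
    ASj J c R q s f a → f + dM (W.Z c).I a ≠ 0 → ∃ w, (J.tw w).Van (M.sys.U (hp R true)) ∧
      (∀ l, J.cc l w = 0) ∧ ∀ H : ℝ → ℝ,
        (∀ᶠ t in 𝓝 (0 : ℝ), Hv J c R θ ϖ (q + Finsupp.single w t) s f (H t)) → deriv H 0 ≠ 0
  tf : ∀ q σ s f a k, Ball β 0 q → Cz (W.Z c).I (oI W c R) f → HasCompactSupport f →
    ASj J c R q s f a → σ k = none → (∃ e ∈ M.sys.inn (hp R false), J.hd k = some e) →
    s k ∈ Ioo (0 : ℝ) 1 → (∀ t ∈ Ioo (0 : ℝ) 1, Pm J c (update s k t)) → ∀ H : ℝ → ℝ,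
    (∀ t ∈ Ioo (0 : ℝ) 1, Hv J c R θ ϖ q (update s k t) f (H t)) →
    deriv H (s k) ≠ 0 → TAg J c R q s (f + dM (W.Z c).I a) σ d

open Classical in
variable (J c R Q θ ϖ e) in
/-- the holonomy of the class `m` -/
def HH (p : Finset ν → ℝ × ℝ) (m : Finset ν) (q : Wi →₀ ℝ) (s : A' → ℝ) : ℝ :=
  if Xm J c R Q m then (p m).1 + (p m).2 * hv J c R θ ϖ q s (FF Q m) else s (e true) / 2

theorem HH_pos {p : Finset ν → ℝ × ℝ} (k : Xm J c R Q m) : HH J c R Q θ ϖ e p m q s =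
    (p m).1 + (p m).2 * hv J c R θ ϖ q s (FF Q m) := if_pos k

theorem HH_neg {p : Finset ν → ℝ × ℝ} (k : ¬Xm J c R Q m) :
    HH J c R Q θ ϖ e p m q s = s (e true) / 2 := if_neg k

theorem deriv_aff (u v y : ℝ) (g : ℝ → ℝ) : deriv (fun t => u + v * g t) y = v * deriv g y := by
  rw [deriv_const_add, deriv_const_mul_field']

variable (θ ϖ β e k) in
/-- the forms behind a point where the holonomy moves -/
def Brg (P : HD J c R) : Prop := ∀ q σ s x ξ m b, Ball β 0 q → Ovc J c σ s → σ (e b) = none →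
  AI J c R q s x k ξ → P.Cl s x ξ m → deriv (fun t => P.H m q (update s (e b) t)) (s (e b)) ≠ 0 →
  ∃ f a, Cz (W.Z c).I (oI W c R) f ∧ HasCompactSupport f ∧ ASj J c R q s f a ∧
    xf J c s x ξ = f + dM (W.Z c).I a ∧ ∃ H : ℝ → ℝ,
      (∀ t ∈ Ioo (0 : ℝ) 1, Hv J c R θ ϖ q (update s (e b) t) f (H t)) ∧ deriv H (s (e b)) ≠ 0

namespace HF
variable (H : HF J c R Q θ ϖ d β e)
include H

theorem Z0 : 0 < Q.Z.card := H.f2.elim (fun k => k ▸ one_pos) fun ⟨l, k⟩ => H.f1 l k ▸ two_pos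

theorem flx (I : AI J c R q s x k ξ) (C : Cm J c Q s x ξ m) :
    (∀ l, Inn J R l → |flux (W.Z c).I (J.cut c l) (xf J c s x ξ)| = 2 * π ∨
      flux (W.Z c).I (J.cut c l) (xf J c s x ξ) = 0) ∧
    ((∀ l, Inn J R l → |flux (W.Z c).I (J.cut c l) (xf J c s x ξ)| = 2 * π) ↔
      Cm J c Q s x ξ Finset.univ ∨ Cm J c Q s x (fun z => -ξ z) Finset.univ) := by
  have o := H.qok I.pm
  obtain ⟨a, S, e⟩ := I.as H.toJQ (o.cz_fv (vv Q m)) (o.hc_fv _) fun j => by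
    rw [H.O, C j, ← H.O]; exact (o.per_fv _ j).symm
  have a2 : ∀ j ∈ Q.Z, (Q.a j : ℝ) * Q.a j = 1 := fun j k => by
    rw [← abs_mul_abs_self, ← Int.cast_abs, show |Q.a j| = 1 from o.a1 j k]; simp
  have a0 : ∀ j ∈ Q.Z, (Q.a j : ℝ) ≠ 0 := fun j k => left_ne_zero_of_mul_eq_one (a2 j k)
  have fl : ∀ l, Inn J R l → flux (W.Z c).I (J.cut c l) (xf J c s x ξ) =
      π * ∑ j ∈ Q.Z, if j ∈ m then 1 else -1 := fun l k => by
    rw [e, show (Q.on (oI W c R)).fv _ = Q.fv _ from rfl, H.f3 s I.pm l k _ a (fun j y => by simp [vv, y]) S.fo,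
      Finset.mul_sum, ← Finset.sum_neg_distrib]
    refine Finset.sum_congr rfl fun j y => ?_
    by_cases z : j ∈ m <;> simp [vv, y, z, mul_assoc, a2 j y]
  have c1 : Cm J c Q s x ξ Finset.univ ↔ ∀ j ∈ Q.Z, j ∈ m := by
    refine forall_congr' fun j => ?_
    rw [C j]
    by_cases y : j ∈ Q.Z <;> by_cases z : j ∈ m <;>
      simp [vv, y, z, Real.pi_ne_zero, eq_neg_iff_add_eq_zero, ← mul_add, ← two_mul]
    exact_mod_cast a0 j y
  have c2 : Cm J c Q s x (fun z => -ξ z) Finset.univ ↔ ∀ j ∈ Q.Z, j ∉ m := by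
    refine forall_congr' fun j => ?_
    rw [show xf J c s x (fun z => -ξ z) = -xf J c s x ξ from Abel74.fm_neg, neg_mul,
      ← neg_one_smul ℝ, Int54.integ_smul, C j]
    by_cases y : j ∈ Q.Z <;> by_cases z : j ∈ m <;>
      simp [vv, y, z, Real.pi_ne_zero, eq_neg_iff_add_eq_zero, ← mul_add, ← two_mul]
    exact_mod_cast a0 j y
  have p2 : |π * 2| = 2 * π := by rw [mul_comm]; exact abs_of_pos Real.two_pi_pos
  have p0 : (0 : ℝ) ≠ 2 * π := Real.two_pi_pos.ne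
  rw [c1, c2]
  rcases H.f2 with k | ⟨l₀, k⟩
  · have : ∀ l, ¬Inn J R l := fun l y => by have := H.f1 l y; omega
    obtain ⟨j, hj⟩ := Finset.card_eq_one.1 k
    simp [this, hj, em]
  · obtain ⟨i, j, ij, hj⟩ := Finset.card_eq_two.1 (H.f1 l₀ k)
    simp only [hj, Finset.sum_pair ij] at fl
    refine ⟨fun l y => ?_, (⟨fun y => y l₀ k, fun y l z => (fl l z).trans (fl l₀ k).symm ▸ y⟩ :
      _ ↔ |flux (W.Z c).I (J.cut c l₀) (xf J c s x ξ)| = 2 * π).trans ?_⟩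
    · rw [fl l y]; split_ifs <;> norm_num [p2]
    · rw [fl l₀ k]
      by_cases y : i ∈ m <;> by_cases z : j ∈ m <;> norm_num [hj, y, z, p2, p0]

theorem sm (p : Finset ν → ℝ × ℝ) (m) (S : Finset Wi) {τ : ℝ → A' → ℝ} (h1 : ContDiff ℝ ∞ τ)
    (h2 : ∀ t ∈ Ioo (-1 : ℝ) 1, Pm J c (τ t)) :
    ∃ (U : Set (S → ℝ)) (Φ : (S → ℝ) × ℝ → ℝ), IsOpen U ∧ ContDiffOn ℝ ∞ Φ (U ×ˢ Ioo (-1) 1) ∧
      ∀ q, Ball β 0 q → q.support ⊆ S → (fun w : S => q w) ∈ U ∧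
        ∀ t ∈ Ioo (-1 : ℝ) 1, Φ (fun w => q w, t) = HH J c R Q θ ϖ e p m q (τ t) := by
  classical
  by_cases X : Xm J c R Q m
  swap
  · exact ⟨univ, fun y => τ y.2 (e true) / 2, isOpen_univ, (((contDiff_pi.1 h1 _).comp
      contDiff_snd).div_const 2).contDiffOn, fun q _ _ => ⟨trivial, fun t _ => (HH_neg X).symm⟩⟩
  have hU : IsOpen {g : S → ℝ | ∑ w : S, |g w| * β w < 1} := isOpen_lt (by fun_prop) continuous_const
  have h0 := h2 0 (by simp)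
  obtain ⟨Φ, k1, k2⟩ := H.sm_hv (S := S) (P := (S → ℝ) × ℝ) H.ob (H.cz_FF h0 m) (H.hc_FF h0 m) (hU.prod isOpen_Ioo)
    (τ := fun y => τ y.2) (g := fun y w => if k : w ∈ S then y.1 ⟨w, k⟩ else 0)
    (h1.comp contDiff_snd).contDiffOn (fun w => by
      split_ifs
      exacts [((contDiff_apply ℝ ℝ _).comp contDiff_fst).contDiffOn, contDiffOn_const])
    (fun y k => h2 _ k.2) fun y k => by
      rw [← Finset.sum_coe_sort]; simpa using k.1
  refine ⟨_, fun y => (p m).1 + (p m).2 * Φ y, hU, contDiffOn_const.add (contDiffOn_const.mul k1),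
    fun q hq hS => ?_⟩
  have hq' : (fun w : S => q w) ∈ {g : S → ℝ | ∑ w : S, |g w| * β w < 1} :=
    (Finset.sum_coe_sort S fun w => |q w| * β w).trans_lt (ball_le hq hS)
  exact ⟨hq', fun t ht => by
    rw [HH_pos X, H.hv_eq (h2 t ht) H.ob hq (k2 (_, t) ⟨hq', ht⟩ q hS fun w k => by simp [k])]⟩

theorem loc (p : Finset ν → ℝ × ℝ) (hq : Ball β 0 q) (o : Ovc J c σ s) (o' : Ovc J c σ s')
    (k : ∀ b, s (e b) = s' (e b)) : HH J c R Q θ ϖ e p m q s = HH J c R Q θ ϖ e p m q s' := by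
  by_cases X : Xm J c R Q m
  swap
  · rw [HH_neg X, HH_neg X, k]
  rw [HH_pos X, HH_pos X]
  obtain ⟨s₀, x₀, ξ₀, h₀, A₀, e₀⟩ := X
  have hf := H.cz_FF h₀ m
  have hc := H.hc_FF h₀ m
  obtain ⟨a, S⟩ := H.exists_as H.ob hq o.pm hf hc
  obtain ⟨V, v1, v2, -⟩ := H.trn h₀ A₀ o.pm
  obtain ⟨k1, k2⟩ := H.add o.pm v1 S.fo S.off
  rw [v2, e₀] at k2
  obtain ⟨V', w1, w2, w3⟩ := H.l2 q σ s s' _ _ o o' k k1 (H.ai_of o.pm k1 hf hc S k2).C
  have S' : ASj J c R q s' (FF Q m) a := ⟨S.fo, S.off, sq_W Λ (Pm.memO H.ok o.pm)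
    (Pm.memO H.ok o'.pm) S.sq, fun z hz => (w2.trans k2 :) ▸ (H.eC_iff o'.pm w1 hz).1 (w3 z hz)⟩
  obtain ⟨T, l⟩ := H.exists_abv q.support hc
  obtain ⟨χ, hχ⟩ := exists_ct T
  rw [H.hv_eq o'.pm H.ob hq ((H.hv_hl H.ob hq o'.pm hf hc l Finset.Subset.rfl hχ S' (H.act h₀)
    false).2 ((H.hv_hl H.ob hq o.pm hf hc l Finset.Subset.rfl hχ S (H.act h₀) false).1
      (H.hv_spec o.pm H.ob hq)))]

theorem crn0 (hq : Ball β 0 q) (o : Ovc J c σ s) (k : σ (e b) = none) :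
    Tendsto (fun t => hv J c R θ ϖ q (update s (e b) t) (FF Q Finset.univ)) (𝓝[<] 1)
      (𝓝 (if b then -(Q.x / 2 : ℝ) else 0)) := by
  have P := fun t ht => ((H.l1 σ s b o k).2.2.2 t ht).pm
  have hf := H.cz_FF o.pm Finset.univ
  have hc := H.hc_FF o.pm Finset.univ
  have qo := H.qok o.pm
  have E := H.en (H.act o.pm)
  choose! a ha using fun t ht => H.exists_as H.ob hq (P t ht) hf hc
  obtain ⟨T, l⟩ := H.exists_abv q.support hc
  obtain ⟨χ, hχ⟩ := exists_ct T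
  have h0 := hχ.mono l.T0
  obtain ⟨V, V0, hV⟩ := (H.qe s (H.act o.pm)).exV
  have ev : ∀ᶠ t in 𝓝[<] (1 : ℝ), t ∈ Ico (0 : ℝ) 1 := Ico_mem_nhdsLT one_pos
  have key : ∀ t ∈ Ico (0 : ℝ) 1, hv J c R θ ϖ q (update s (e b) t) (FF Q Finset.univ) =
      -hl (kI J c R s (H.act o.pm)) (oI W c R) χ (Q.η b) (dM (W.Z c).I (a t)) / V := fun t ht => by
    rw [(H.hv_hl H.ob hq (P t ht) hf hc l Finset.Subset.rfl hχ (ha t ht) (H.act o.pm) b).1
      (H.hv_spec (P t ht) H.ob hq), hV _ _ hχ.cf, mul_div_cancel_right₀ _ V0]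
  have eF : FF Q Finset.univ = π • Q.γ false := if_pos rfl
  have cr : ∀ a : ℝ → _, _ → Tendsto (fun t => hl (kI J c R s (H.act o.pm)) (oI W c R) χ (Q.η b)
      (dM (W.Z c).I (a t))) _ _ := fun a ha => (H.cr q σ s b hq o k a ha _ (E.sm_ec h0)
        (E.hc_ec h0)).congr fun t => (H.O ▸ H.integ_eq o.pm _ :)
  cases b
  · exact Tendsto.congr' (ev.mono fun t ht => (key t ht).symm) (by
      simpa using (cr a fun t ht => eF ▸ ha t ht).neg.div_const V)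
  · have fα := qo.fα.1.smul π
    have := (cr (fun t => π • Q.α + a t) fun t ht => AS.shift (by
      rw [qo.fα.1.d_smul, show dM _ Q.α = _ from qo.dα, smul_sub, add_sub_cancel]
      exact eF ▸ ha t ht) fα (qo.fα.2.smul π) (by
        rw [qo.fα.1.d_smul]
        exact sq_of_hcs (qo.fα.1.d.smul π).sm ((H.qe s (H.act o.pm)).hcα.mono fun x hx e => hx (by
          rw [Pi.smul_apply, show dM _ Q.α x = 0 from e, smul_zero])))).neg.div_const V |>.sub_const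
            (Q.x / 2 : ℝ)
    refine Tendsto.congr' (ev.mono fun t ht => ?_) (by simpa using this)
    have e1 := E.hl_add h0 (qo.cη true) (qo.fα.1.d.smul π) (ha t ht).fo.d
    rw [hl_smul, En.hl_α (q := Q.on (oI W c R)) E qo hV h0 true, ← qo.fα.1.d_smul,
      ← fα.d_add (ha t ht).fo] at e1
    beta_reduce
    rw [key t ht, show hl _ _ χ (Q.η true) (dM _ (π • Q.α + a t)) = _ from e1]
    field_simp
    ring

theorem crn (p : Finset ν → ℝ × ℝ) (hp : Gd J c R Q θ ϖ β hol Finset.univ (p Finset.univ)) :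
    ∃ ε₀ : ℝ, (ε₀ = 1 ∨ ε₀ = -1) ∧ ∀ q σ s b, Ball β 0 q → Ovc J c σ s → σ (e b) = none →
      Tendsto (fun t => Real.cos (2 * π * HH J c R Q θ ϖ e p Finset.univ q (update s (e b) t)))
        (𝓝[<] 1) (𝓝 (if b then -ε₀ else ε₀)) := by
  have ev : ∀ᶠ t in 𝓝[<] (1 : ℝ), t ∈ Ico (0 : ℝ) 1 := Ico_mem_nhdsLT one_pos
  by_cases X : Xm J c R Q Finset.univ
  · refine ⟨Real.cos (2 * π * (p Finset.univ).1), (hp.2.1 rfl).imp (fun k => by simp [k])
      fun k => by rw [k, mul_comm 2, mul_assoc]; simp, fun q σ s b hq o k => ?_⟩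
    simp only [HH_pos X]
    refine ((Real.continuous_cos.tendsto _).comp ((((H.crn0 hq o k).const_mul (p Finset.univ).2).const_add
      (p Finset.univ).1).const_mul (2 * π))).mono_right (le_of_eq (congrArg 𝓝 ?_))
    obtain ⟨u, hu⟩ : Odd Q.x := (H.qok o.pm).odd
    cases b
    · simp
    · rcases hp.1 with y | y <;> simp only [y, hu, if_true] <;> push_cast
      · rw [show 2 * π * ((p Finset.univ).1 + 1 * -((2 * u + 1) / 2 : ℝ)) =
          2 * π * (p Finset.univ).1 - π - u * (2 * π) by ring, Real.cos_sub_int_mul_two_pi,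
          Real.cos_sub_pi]
      · rw [show 2 * π * ((p Finset.univ).1 + -1 * -((2 * u + 1) / 2 : ℝ)) =
          2 * π * (p Finset.univ).1 + π + u * (2 * π) by ring, Real.cos_add_int_mul_two_pi,
          Real.cos_add_pi]
  · refine ⟨1, .inl rfl, fun q σ s b _ o k => ?_⟩
    simp only [HH_neg X]
    cases b
    · exact Tendsto.congr' (ev.mono fun t ht => by
        simp [show update s (e false) t (e true) = 0 from
          (H.l1 σ _ false ((H.l1 σ s _ o k).2.2.2 t ht) k).2.2.1]) tendsto_const_nhds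
    · simp only [update_self, if_true]
      have : Continuous fun t : ℝ => Real.cos (2 * π * (t / 2)) := by fun_prop
      convert (this.tendsto 1).mono_left nhdsWithin_le_nhds using 2
      rw [mul_comm 2, mul_assoc]; simp

theorem hd : ∃ P : HD J c R, Brg θ ϖ (Q.Z.card / 4) β e P ∧
    ∀ Adm : (Wi →₀ ℝ) → Prop, (∀ q, Adm q → Ball β 0 q) → P.OK Adm e (Q.Z.card / 4) := by
  obtain ⟨hol, L⟩ := Clr59.exists_clr H.pr
  choose p hp using H.exists_gd H.sc H.ob L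
  refine ⟨⟨θ, hol, ν, Q.ε, Finset ν, vv Q, Finset.univ, HH J c R Q θ ϖ e p, d⟩,
    fun q σ s x ξ m b a o k I C hd => ?_, fun Adm hA =>
    ⟨L, H.cl, H.sc, H.cs, H.d0, fun σ s b o k => (H.l1 σ s b o k).2.2.2,
      fun q s x ξ _ I => H.cls H.md I, fun q s x ξ m a I C ha b ζ hb => ?_,
      fun q s x ξ x' ξ' m a I I' C C' => H.uq H.sc H.ob (hA q a) I I' C C',
      fun q s x' a hs a' => H.ex H.md H.ob (hA q a) hs a',
      fun q s x ξ _ I => let ⟨_, C⟩ := H.cls H.md I; H.flx I C, fun m S τ h1 h2 => ?_,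
      fun m q σ s s' a => H.loc p (hA q a), ?_, fun q s x ξ m a ev I C => ?_,
      fun q σ s x ξ m b a o k s0 I C hd => ?_⟩⟩
  · obtain ⟨u, S, eu⟩ := H.as_cm I C
    simp only [HH_pos (H.xm I C), deriv_aff] at hd
    exact ⟨_, u, H.cz_FF I.pm m, H.hc_FF I.pm m, S, eu, _, fun t ht => H.hv_spec
      ((H.l1 σ s b o k).2.2.2 t (Ioo_subset_Ico_self ht)).pm H.ob a, right_ne_zero_of_mul hd⟩
  · exact ((hp m).2.2 q s x ξ _ (hA q a) I C ha b ζ hb).trans (by rw [← HH_pos (e := e) (H.xm I C)])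
  · obtain ⟨U, Φ, k1, k2, k3⟩ := H.sm p m S h1 h2
    exact ⟨U, Φ, k1, k2, fun q a => k3 q (hA q a)⟩
  · obtain ⟨ε, k1, k2⟩ := H.crn p (hp _)
    exact ⟨ε, k1, fun q σ s b a => k2 q σ s b (hA q a)⟩
  · obtain ⟨u, S, eu⟩ := H.as_cm I C
    obtain ⟨w, w1, w2, w3⟩ := H.mv q s _ u (hA q a) I.pm (H.cz_FF I.pm m) (H.hc_FF I.pm m) S
      fun z => by
        have := I.lev_eq H.toJQ
        simp only [eu, z, zero_mul, Int54.integ_zero] at this
        have := H.Z0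
        simp_all [Real.pi_ne_zero]
    refine ⟨w, w1, w2, ?_⟩
    simp only [HH_pos (H.xm I C), deriv_aff]
    exact mul_ne_zero ((hp m).1.elim (fun k => by simp [k]) fun k => by simp [k])
      (w3 _ ((ev w).mono fun t k => H.hv_spec I.pm H.ob (hA _ k)))
  · obtain ⟨u, S, eu⟩ := H.as_cm I C
    obtain ⟨l1, l2, -, l3⟩ := H.l1 σ s b o k
    have P := fun t (ht : t ∈ Ioo (0 : ℝ) 1) => (l3 t (Ioo_subset_Ico_self ht)).pm
    simp only [HH_pos (H.xm I C), deriv_aff] at hd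
    exact (taf_iff ..).2 (eu ▸ H.tf q σ s _ u _ (hA q a) (H.cz_FF I.pm m) (H.hc_FF I.pm m) S k l1
      ⟨s0, l2⟩ P _ (fun t ht => H.hv_spec (P t ht) H.ob (hA q a)) (right_ne_zero_of_mul hd))

end HF
end job

section scene
variable {κ lam : Type} [Fintype κ] [Fintype lam] [DecidableEq lam] (Lm : LM κ lam)

attribute [local instance] QD.dι

theorem exists_hf (h4 : HMov Lm) : AllR Lm fun {_ D _ _ _ _} J c R e Q =>
    ∃ d β, HF J c R (qt D.W c Q) (θJ J Q) (ϖJ J Q) d β (eI e) := by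
  intro S D i Wi r n J c R e Q j n₀ T hQ G c1 pj
  have H := jq_of hQ G c1
  obtain ⟨β, hβ⟩ := op_J G.gx.ok (Tms63.tmsz G.gx.ok)
  obtain ⟨l1, l2⟩ := Clc51.hLoc Lm S D i Wi r n J c R e Q j n₀ T hQ G c1 pj
  obtain ⟨f1, f2⟩ := Sw21.hflx' Lm S D i Wi r n J c R e Q j n₀ T hQ G c1 pj
  obtain ⟨d, d0, tf⟩ := Taf6.hTaf Lm S D i Wi r n J c R e Q j n₀ T hQ G c1 pj
  have o : Dfl49.Only S.M c.1 R false := fun a ha => .inl (c1.le ha)
  obtain ⟨t1, t2⟩ := Qt4.top S i R e Q hQ hQ.int D.W (D.Λ i) J.m c (c1.ge rfl) o (exists_br c) Wi _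
    (J.g R) (G.gx.ok.iso R hQ.np)
  exact ⟨d, β,
    { H with
      pr := t2, sc := oI_eq hQ.np ▸ t1.sc, cs := oI_eq hQ.np ▸ t1.cε, ob := hβ, d0 := d0
      md := Qmd96.modStmt _ _ _ _
      l1 := fun σ s b k k' => let ⟨a1, a2, a3⟩ := l1 σ s b k k'; ⟨⟨_, a2, a1⟩, a3⟩
      l2 := l2
      f1 := fun l k => by
        have := Finset.card_pos.2 ⟨_, (f1 l).1 k⟩
        have := hQ.card
        change Q.Z.card = 2
        omega
      f2 := (lsI S R).eq_empty_or_nonempty.imp (fun k => hQ.card.1.trans (by simp [k]))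
        fun ⟨l, k⟩ => by classical exact ⟨⟨l, (Finset.mem_filter.1 k).1⟩, (f1 _).2 k⟩
      f3 := f2
      cr := fun q σ s b hq k k' a ha g g1 g2 => Crn56.crn Lm S D i Wi r n J c R e Q j n₀ T hQ G c1 pj
        β hβ q σ s b hq k k' a ha _ ((t1.cη b).fo.fsmul g1) g2.smul_right (fun z hz => by
          rw [Pi.smul_apply', (t1.cη b).off z fun k => hz ((oI_eq hQ.np).ge k), smul_zero]) (by
            rintro _ ⟨y, hy, rfl⟩
            have m := (hQ.pin b).2.2 hy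
            rw [Pi.smul_apply', show (qt D.W c Q).η b _ = _ from indicator_of_mem
              (mem_image_of_mem _ m) _, Dr59.pm_apply, show (D.W.φ c).symm (D.W.φ c y) = y from
                (D.W.φ c).toPartialEquiv.left_inv (o.src D.W.toCaps m), hQ.η0 b y hy, map_zero,
                  smul_zero])
      mv := h4 S D i Wi r n J c R e Q j n₀ T hQ G c1 pj β hβ
      tf := tf β hβ }⟩

/-- **HI** -/
theorem hiStmt (h4 : HMov Lm) : HiStmt Lm := fun S D i Wi r n J c R e Q j n₀ T hQ G c1 pj =>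
  let ⟨_, β, F⟩ := exists_hf Lm h4 S D i Wi r n J c R e Q j n₀ T hQ G c1 pj
  let ⟨P, _, hP⟩ := F.hd
  ⟨P, β, F.ob.1, hP⟩

end scene
end Crest.Agent.X212.Qab60
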