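import Crest.Agent.X212.Qab60.Prim
import Crest.Agent.X212.Kah60.Cut
import Crest.Agent.X212.Cyf70.Pert

/-! X212 / QAB (helper60): square integrable two-forms on a tame four-manifold; the isotropic
subspace of exact forms; regularity of weakly closed forms. -/

set_option autoImplicit false
set_option linter.unusedSectionVars false
noncomputable section
open scoped Manifold ContDiff Topology InnerProductSpace
open MeasureTheory Finset Function Filter
open Crest.Agent.R208.F (Ext io)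
open Crest.Agent.R208.FI (IsDeg)

namespace Crest.Agent.X212.Qab60
open An Sob92 Map77 Num57 Int54
open Ell97 (adjH good_adj reg_up smooth_of_all)
open Dr59 (SmAt dM df CAt)

variable {E : Type} [NormedAddCommGroup E] [NormedSpace ℝ E] [FiniteDimensional ℝ E]
  [MeasurableSpace E] [BorelSpace E]
  {HM : Type} [TopologicalSpace HM] {I : ModelWithCorners ℝ E HM} [I.Boundaryless]
  {M : Type} [TopologicalSpace M] [ChartedSpace HM M] [IsManifold I ∞ M] [T2Space M]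
  [MeasurableSpace M] [BorelSpace M] [SecondCountableTopology M] {ι : Type} [Fintype ι]
  (F : Fr I M ι) (o : ι → ι → ι → ι → M → ℝ)

/-- a tame oriented Riemannian four-manifold -/
structure Tam : Prop where
  ok : OK F o
  tm : ∃ C, F.Tame C
  bo : ∀ a b c d, F.Cb (o a b c d)

/-- Sobolev spaces of two-forms -/
abbrev HK (k : ℕ) : Type := F.H k (triv M (V2 ι))
/-- the self-dual part -/
def PH (k : ℕ) : HK F k →L[ℝ] HK F k := F.mulH k _ _ (hs F o)
/-- twice the wedge pairing -/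
def Bw (u v : HK F 0) : ℝ := ⟪u, PH F o 0 v⟫_ℝ - ⟪u, PH F (ng o) 0 v⟫_ℝ
/-- the element is a two-form -/
def Frm (u : HK F 0) : Prop := PH F o 0 u + PH F (ng o) 0 u = u
/-- the element has `j` derivatives -/
def Lv (j : ℕ) (u : HK F 0) : Prop := ∃ v : HK F j, F.incl j 0 _ v = u
/-- the element is the form `w` -/
abbrev Isf (u : HK F 0) (w : M → Ext E) : Prop := Is F.toPre 0 _ u (c2 F w)
/-- square integrable forms -/
abbrev Sq (w : M → Ext E) : Prop := MemLp (c2 F w) 2 F.μ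
/-- vanishing off `Ω` -/
def Off {N : Type} [Zero N] (Ω : Set M) (a : M → N) : Prop := ∀ x ∉ Ω, a x = 0
/-- exact square integrable forms on `Ω` have square zero -/
def BD (Ω : Set M) : Prop :=
  ∀ a, Fo I 1 a → Off Ω a → Sq F (dM I a) → integ I (vol F o) (dM I a * dM I a) = 0
/-- restriction to `Ω` -/
def πH (Ω : Set M) : HK F 0 →L[ℝ] HK F 0 := smulH F.toPre 0 _ (Ω.indicator 1)
/-- weakly closed -/
def WC (u : HK F 0) : Prop := ∀ x, Bw F o (dH F 0 x) u = 0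

theorem Off.add {N : Type} [AddGroup N] {Ω : Set M} {a b : M → N} (h : Off Ω a) (k : Off Ω b) :
    Off Ω (a + b) := fun x hx => by rw [Pi.add_apply, h x hx, k x hx, add_zero]
theorem Off.sub {N : Type} [AddGroup N] {Ω : Set M} {a b : M → N} (h : Off Ω a) (k : Off Ω b) :
    Off Ω (a - b) := fun x hx => by rw [Pi.sub_apply, h x hx, k x hx, sub_zero]
theorem Off.smul {N : Type} [AddCommGroup N] [Module ℝ N] {Ω : Set M} {a : M → N} (h : Off Ω a)
    (r : ℝ) : Off Ω (r • a) := fun x hx => by rw [Pi.smul_apply, h x hx, smul_zero]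

/-- exact square integrable forms on `Ω` -/
def K0 (Ω : Set M) : Submodule ℝ (HK F 0) where
  carrier := {u | ∃ a, Fo I 1 a ∧ Off Ω a ∧ Isf F u (dM I a)}
  add_mem' := fun ⟨a, ha, ha', h⟩ ⟨b, hb, hb', k⟩ => ⟨a + b, ha.add hb, ha'.add hb', by
    rw [Isf, ha.d_add hb, c2_add]; exact h.add k⟩
  zero_mem' := ⟨0, Fo.zero, fun _ _ => rfl, by rw [Isf, Dr59.dM_zero, c2_zero]; exact Is.zero⟩
  smul_mem' := fun r _ ⟨a, ha, ha', h⟩ => ⟨r • a, ha.smul r, ha'.smul r, by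
    rw [Isf, ha.d_smul, c2_smul]; exact h.smul r⟩

/-- their closure -/
def KK (Ω : Set M) : Submodule ℝ (HK F 0) := (K0 F Ω).topologicalClosure

variable {F o} {u v : HK F 0} {w w' a b : M → Ext E} {j k : ℕ} {Ω : Set M}

instance : CompleteSpace (KK F Ω) := (K0 F Ω).isClosed_topologicalClosure.completeSpace_coe

section ind
variable (hΩ : IsClopen Ω)
include hΩ

theorem ind_ev (x : M) : Ω.indicator (1 : M → ℝ) =ᶠ[𝓝 x] fun _ => Ω.indicator 1 x := by
  by_cases hx : x ∈ Ω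
  · filter_upwards [hΩ.2.mem_nhds hx] with y hy
    simp [hx, hy]
  · filter_upwards [hΩ.1.isOpen_compl.mem_nhds hx] with y hy
    simp [hx, show y ∉ Ω from hy]

theorem sm_ind : Sm I (Ω.indicator (1 : M → ℝ)) := fun x =>
  contMDiffAt_const.congr_of_eventuallyEq (ind_ev hΩ x)

theorem cb_ind : F.Cb (Ω.indicator (1 : M → ℝ)) := by
  have h : ∀ x, ‖Ω.indicator (1 : M → ℝ) x‖ ≤ 1 := fun x => by by_cases hx : x ∈ Ω <;> simp [hx]
  refine ⟨fun _ => 1, sm_ind hΩ, fun k => ?_⟩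
  cases k with
  | zero => exact CB_zero.2 h
  | succ k =>
    refine CB_succ.2 ⟨h, fun a => ?_⟩
    rw [show F.D a (Ω.indicator (1 : M → ℝ)) = fun _ => 0 from funext fun x => by
      rw [Pre.D_def, dv_congr (ind_ev hΩ x), dv_const]; rfl]
    exact CB_mono (CB_const k (0 : ℝ)) (by simp)

theorem d_ind {k : ℕ} (ha : Fo I k a) :
    dM I (Ω.indicator (1 : M → ℝ) • a) = Ω.indicator (1 : M → ℝ) • dM I a := by
  rw [ha.d_fsmul (sm_ind hΩ), show df I (Ω.indicator (1 : M → ℝ)) = 0 from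
    funext fun x => Dr59.df_eq_zero (ind_ev hΩ x), zero_mul, zero_add]

theorem Off.d (h : Off Ω a) : Off Ω (dM I a) := fun x hx => by
  rw [Dr59.dM_congr (b := 0) (eventually_of_mem (hΩ.1.isOpen_compl.mem_nhds hx) h), Dr59.dM_zero]
  rfl

end ind

theorem off_ind (a : M → Ext E) : Off Ω (Ω.indicator (1 : M → ℝ) • a) := fun x hx => by simp [hx]

theorem Off.ind (h : Off Ω a) : Ω.indicator (1 : M → ℝ) • a = a := funext fun x => by
  by_cases hx : x ∈ Ω
  · simp [hx]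
  · simp [hx, h x hx]

section gen
variable {V : Type} [NormedAddCommGroup V] [InnerProductSpace ℝ V] [CompleteSpace V]
  {p : M → V →L[ℝ] V}

theorem is_self (x : F.H k p) : Is F.toPre k p x (F.toL2 k p x) := EventuallyEq.rfl

theorem is_inner {x y : F.H 0 p} {f g : M → V} (h : Is F.toPre 0 p x f) (h' : Is F.toPre 0 p y g) :
    ⟪x, y⟫_ℝ = ∫ z, ⟪f z, g z⟫_ℝ ∂F.μ := by
  rw [← inner_toL2, L2.inner_def]
  refine integral_congr_ae ?_
  filter_upwards [h, h'] with z h1 h2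
  rw [h1, h2]

theorem is_norm {x : F.H 0 p} {f : M → V} (h : Is F.toPre 0 p x f) :
    ‖x‖ ^ 2 = ∫ z, ‖f z‖ ^ 2 ∂F.μ := by
  simp only [← real_inner_self_eq_norm_sq, is_inner h h]

theorem int_inner {f g : M → V} (h : MemLp f 2 F.μ) (h' : MemLp g 2 F.μ) :
    Integrable (fun z => ⟪f z, g z⟫_ℝ) F.μ := by
  refine (L2.integrable_inner (𝕜 := ℝ) (h.toLp f) (h'.toLp g)).congr ?_
  filter_upwards [h.coeFn_toLp, h'.coeFn_toLp] with z h1 h2
  rw [h1, h2]

end gen

theorem Sq.exists (h : Sq F w) : ∃ u, Isf F u w :=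
  exists_Is_zero (Cb_const _) (fun _ _ => rfl) h (.of_forall fun _ => rfl)

theorem sq_of_hcs (h : ∀ x, SmAt I w x) (hc : HasCompactSupport w) : Sq F w :=
  memLp_sec (F := F.toPre) (p := triv M (V2 ι)) ⟨_, sm_c2 h, hcs_c2 hc, fun _ => rfl⟩

theorem Sq.add (h : Sq F w) (h' : Sq F w') : Sq F (w + w') := by
  rw [Sq, c2_add]; exact MemLp.add h h'
theorem Sq.sub (h : Sq F w) (h' : Sq F w') : Sq F (w - w') := by
  rw [Sq, c2_sub]; exact MemLp.sub h h'
theorem Isf.add (h : Isf F u w) (h' : Isf F v w') : Isf F (u + v) (w + w') := by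
  rw [Isf, c2_add]; exact Is.add h h'
theorem Isf.sub (h : Isf F u w) (h' : Isf F v w') : Isf F (u - v) (w - w') := by
  rw [Isf, c2_sub]; exact Is.sub h h'
theorem Isf.smul (r : ℝ) (h : Isf F u w) : Isf F (r • u) (r • w) := by
  rw [Isf, c2_smul]; exact Is.smul r h

/-- the form is determined by its class -/
theorem Isf.eq (h : Isf F u w) (h' : Isf F u w') (hw : Fo I 2 w) (hw' : Fo I 2 w') : w = w' := by
  have := openPos F.toPre
  rw [← g2_c2 (F := F) hw.dg, ← g2_c2 (F := F) hw'.dg, (Continuous.ae_eq_iff_eq F.μ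
    (sm_c2 hw.sm).continuous (sm_c2 hw'.sm).continuous).1 (h.symm.trans h')]

theorem Lv.zero (u : HK F 0) : Lv F 0 u := ⟨u, incl_self u⟩
theorem Lv.add (h : Lv F j u) (h' : Lv F j v) : Lv F j (u + v) :=
  let ⟨x, hx⟩ := h; let ⟨y, hy⟩ := h'; ⟨x + y, by rw [map_add, hx, hy]⟩
theorem Lv.sub (h : Lv F j u) (h' : Lv F j v) : Lv F j (u - v) :=
  let ⟨x, hx⟩ := h; let ⟨y, hy⟩ := h'; ⟨x - y, by rw [map_sub, hx, hy]⟩

theorem mem_KK (ha : Fo I 1 a) (h0 : Off Ω a) (h : Isf F u (dM I a)) : u ∈ KK F Ω :=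
  (K0 F Ω).le_topologicalClosure ⟨a, ha, h0, h⟩

theorem KK_ind {P : HK F 0 → Prop} (hP : IsClosed {u | P u})
    (h : ∀ u a, Fo I 1 a → Off Ω a → Isf F u (dM I a) → P u) (hu : u ∈ KK F Ω) : P u :=
  closure_minimal (s := (K0 F Ω : Set (HK F 0))) (t := {u | P u})
    (fun u (hu : u ∈ K0 F Ω) => let ⟨a, ha, h0, k⟩ := hu; h u a ha h0 k) hP hu

theorem is_π (hΩ : IsClopen Ω) {f : M → V2 ι} (h : Is F.toPre 0 _ u f) :
    Is F.toPre 0 _ (πH F Ω u) fun x => Ω.indicator (1 : M → ℝ) x • f x := h.smulH (cb_ind hΩ)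

theorem Isf.π (h : Isf F u w) (hΩ : IsClopen Ω) :
    Isf F (πH F Ω u) (Ω.indicator (1 : M → ℝ) • w) := by
  rw [Isf, c2_fsmul]; exact is_π hΩ h

theorem Isf.π_eq (h : Isf F u w) (hΩ : IsClopen Ω) (h0 : Off Ω w) : πH F Ω u = u :=
  Is.unique (h.π hΩ) (by rwa [h0.ind])

theorem Isf.off (h : Isf F u w) (hΩ : IsClopen Ω) (hw : Fo I 2 w) (h0 : πH F Ω u = u) : Off Ω w := by
  rw [h.eq (h0 ▸ h.π hΩ) hw (hw.fsmul (sm_ind hΩ))]; exact off_ind w

theorem π_symm (hΩ : IsClopen Ω) (u v : HK F 0) : ⟪πH F Ω u, v⟫_ℝ = ⟪u, πH F Ω v⟫_ℝ := by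
  rw [is_inner (is_π hΩ (is_self u)) (is_self v), is_inner (is_self u) (is_π hΩ (is_self v))]
  simp only [real_inner_smul_left, real_inner_smul_right]

theorem π_π (hΩ : IsClopen Ω) (u : HK F 0) : πH F Ω (πH F Ω u) = πH F Ω u :=
  (is_π hΩ (is_π hΩ (is_self u))).unique ((is_π hΩ (is_self u)).congr (.of_forall fun x => by
    by_cases hx : x ∈ Ω <;> simp [hx]))

theorem π_KK (hΩ : IsClopen Ω) (hu : u ∈ KK F Ω) : πH F Ω u = u :=
  KK_ind (P := fun u => πH F Ω u = u) (isClosed_eq (by fun_prop) continuous_id)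
    (fun _ _ _ h0 k => k.π_eq hΩ (h0.d hΩ)) hu

theorem hs_dd (h : OK F o) {x : M → V1 ι} (hx : Sm I x) (y : M) :
    s2 ℝ (V2 ι) ((hop F o).app F x y) = hs F o y (dd F x y) := by
  rw [s2_app hx]
  exact congrArg _ (fm_ext fun s => (dd_apply hx y s).symm)

namespace Tam
variable (h : Tam F o)
include h

theorem neg : Tam F (ng o) := ⟨h.ok.neg, h.tm, fun a b c d =>
  (cb (fun _ : Unit => F.toPre) Set.univ).neg (f := fun _ => o a b c d) (fun _ _ => h.bo a b c d)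
    () trivial⟩

theorem cb_hs : F.Cb (hs F o) := by
  obtain ⟨C, hC⟩ := h.tm
  let K := cb (fun _ : Unit => F.toPre) Set.univ
  have hP := cbP hC
  have ho : ∀ a b c d, K.mem fun _ => o a b c d := fun a b c d _ _ => h.bo a b c d
  have : K.mem fun _ => hs F o := Cls.idx (fun s t => by
    simp only [sdm, div_eq_mul_inv]
    exact Cls.mul (K.add (Cls.mul (Cls.sub (Cls.mul (hP _ _) (hP _ _)) (Cls.mul (hP _ _) (hP _ _)))
      (K.const _)) (Cls.mul (ho _ _ _ _) (K.const _))) (K.const _)) (K.const _)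
  exact this () trivial

theorem good : ∃ C, F.Tame C ∧ (hop F o).Good F C := by
  obtain ⟨C, hC⟩ := h.tm
  let K := cb (fun _ : Unit => F.toPre) Set.univ
  have hP := cbP hC
  have hs' : K.mem fun _ => hs F o := fun _ _ => h.cb_hs
  have hd : ∀ a, K.mem fun _ => F.dv a := fun a _ _ => ⟨C, hC.dv a⟩
  have h2 : K.mem fun _ => dB F := fun _ _ => cb_dB hC
  have h1 : ∀ a, K.mem fun _ => dσ F a := fun a _ _ => cb_dσ hC a
  exact good_of hC (cb_hp hC) ((Cls.ps (K.const _) hs') () trivial) (fun a => (Cls.pr2 (K := K)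
    (Cls.sum fun b => Cls.smul (hP a b) (K.const _)) (Cls.comp hs' (h1 a))) () trivial)
    ((Cls.pr2 (K := K) (Cls.sum fun a => Cls.smul (hd a) (K.const _)) (Cls.comp hs' h2))
      () trivial) h.ok.alg

theorem is_PH {x : HK F k} {f : M → V2 ι} (H : Is F.toPre k _ x f) :
    Is F.toPre k _ (PH F o k x) fun y => hs F o y (f y) := H.mulH h.cb_hs (Maps.triv _)

theorem PH_PH (x : HK F k) : PH F o k (PH F o k x) = PH F o k x :=
  (h.is_PH (h.is_PH (is_self x))).unique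
    ((h.is_PH (is_self x)).congr (.of_forall fun y => (hs_idem h.ok y _).symm))

theorem MH_PH (x : HK F k) : PH F (ng o) k (PH F o k x) = 0 :=
  (h.neg.is_PH (h.is_PH (is_self x))).unique
    (Is.zero.congr (.of_forall fun y => (hs_hs h.ok y _).symm))

theorem PH_symm (u v : HK F 0) : ⟪PH F o 0 u, v⟫_ℝ = ⟪u, PH F o 0 v⟫_ℝ := by
  rw [is_inner (h.is_PH (is_self u)) (is_self v), is_inner (is_self u) (h.is_PH (is_self v))]
  simp only [hs_symm h.ok]

theorem PH_MH (u : HK F 0) : PH F o 0 (PH F (ng o) 0 u) = 0 := by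
  rw [← inner_self_eq_zero (𝕜 := ℝ), h.PH_symm, h.PH_PH, h.neg.PH_symm, h.MH_PH, inner_zero_right]

theorem inner_PH (u : HK F 0) : ⟪u, PH F o 0 u⟫_ℝ = ‖PH F o 0 u‖ ^ 2 := by
  rw [← real_inner_self_eq_norm_sq, h.PH_symm, h.PH_PH]

theorem incl_PH (hj : j ≤ k) (x : HK F k) :
    F.incl k j _ (PH F o k x) = PH F o j (F.incl k j _ x) := incl_mulH h.cb_hs (Maps.triv _) hj x

theorem lv_PH (hu : Lv F j u) : Lv F j (PH F o 0 u) :=
  let ⟨x, hx⟩ := hu; ⟨PH F o j x, by rw [h.incl_PH j.zero_le, hx]⟩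

theorem Bw_symm (u v : HK F 0) : Bw F o u v = Bw F o v u := by
  rw [Bw, ← h.PH_symm, ← h.neg.PH_symm, real_inner_comm, real_inner_comm v (PH F (ng o) 0 u), Bw]

theorem Bw_self (u : HK F 0) : Bw F o u u = ‖PH F o 0 u‖ ^ 2 - ‖PH F (ng o) 0 u‖ ^ 2 := by
  rw [Bw, h.inner_PH, h.neg.inner_PH]

theorem Bw_PH (u : HK F 0) (hv : PH F o 0 v = v) : Bw F o u v = ⟪u, v⟫_ℝ := by
  rw [Bw, ← hv, h.PH_PH, h.MH_PH, inner_zero_right, sub_zero]

theorem norm_frm (hu : Frm F o u) : ‖u‖ ^ 2 = ‖PH F o 0 u‖ ^ 2 + ‖PH F (ng o) 0 u‖ ^ 2 := by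
  rw [← h.inner_PH, ← h.neg.inner_PH, ← inner_add_right, hu, real_inner_self_eq_norm_sq]

theorem frm (hu : Isf F u w) : Frm F o u :=
  ((h.is_PH hu).add (h.neg.is_PH hu)).unique (hu.congr (.of_forall fun y => (hs_add w y).symm))

theorem frm_of_PH (hu : PH F o 0 u = u) : Frm F o u := by
  rw [Frm, ← hu, h.PH_PH, h.MH_PH, add_zero]

theorem abs_Bw (u v : HK F 0) : |Bw F o u v| ≤ 2 * (‖u‖ * ‖v‖) := by
  have e : ∀ {o}, Tam F o → |⟪u, PH F o 0 v⟫_ℝ| ≤ ‖u‖ * ‖v‖ := fun {o} h => by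
    refine (abs_real_inner_le_norm _ _).trans (mul_le_mul_of_nonneg_left ?_ (norm_nonneg _))
    have h1 := (h.inner_PH v).symm.trans_le (real_inner_le_norm _ _)
    rcases (norm_nonneg (PH F o 0 v)).eq_or_lt with e | e
    · rw [← e]; exact norm_nonneg _
    · nlinarith
  linarith [abs_sub ⟪u, PH F o 0 v⟫_ℝ ⟪u, PH F (ng o) 0 v⟫_ℝ, e h, e h.neg, show |Bw F o u v| =
    |⟪u, PH F o 0 v⟫_ℝ - ⟪u, PH F (ng o) 0 v⟫_ℝ| from rfl]

theorem Bw_eq (hu : Isf F u w) (hv : Isf F v w') (hw : ∀ x, IsDeg 2 (w x)) :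
    Bw F o u v = 2 * integ I (vol F o) (w * w') := by
  rw [integ_mul h.ok hw, Bw, is_inner hu (h.is_PH hv), is_inner hu (h.neg.is_PH hv),
    ← integral_sub (int_inner hu.memLp (h.is_PH hv).memLp)
      (int_inner hu.memLp (h.neg.is_PH hv).memLp)]
  simp only [← inner_sub_right, hs_sub]
  ring

theorem intOn (hw : ∀ x, IsDeg 2 (w x)) (h1 : Sq F w) (h2 : Sq F w') :
    IntOn I (vol F o) (w * w') Set.univ := by
  obtain ⟨v, hv⟩ := h2.exists
  rw [(unitV h.ok).intOn_iff h.ok.isv, integrableOn_univ,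
    show rat (vol F o) (w * w') = _ from funext fun x => rat_mul h.ok (hw x)]
  simp only [← hs_sub (F := F), inner_sub_right]
  exact ((int_inner h1 (h.is_PH hv).memLp).sub (int_inner h1 (h.neg.is_PH hv).memLp)).const_mul _

theorem is_dH (φ : Sec I (hp F)) : Isf F (dH F 0 (F.toH 1 _ φ)) (dM I (g1 F φ.1)) := by
  obtain ⟨C, hC⟩ := h.tm
  rw [RepT_toH (rep_dH hC 0), Isf, c2_dM_g1 φ.2.1 φ.2.2.2]
  exact Is.toH _

theorem π_PH (hΩ : IsClopen Ω) (u : HK F 0) : πH F Ω (PH F o 0 u) = PH F o 0 (πH F Ω u) :=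
  (is_π hΩ (h.is_PH (is_self u))).unique ((h.is_PH (is_π hΩ (is_self u))).congr
    (.of_forall fun _ => map_smul _ _ _))

theorem Bw_π (hΩ : IsClopen Ω) (u v : HK F 0) : Bw F o (πH F Ω u) v = Bw F o u (πH F Ω v) := by
  rw [Bw, π_symm hΩ, π_symm hΩ, h.π_PH hΩ, h.neg.π_PH hΩ, Bw]

theorem dH_mem (hΩ : IsClopen Ω) (x : F.H 1 (hp F)) : πH F Ω (dH F 0 x) ∈ KK F Ω := by
  induction x using H_ind with
  | hP => exact (K0 F Ω).isClosed_topologicalClosure.preimage (by fun_prop)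
  | h φ =>
    refine mem_KK ((fo_g1 (F := F) φ.2.1).fsmul (sm_ind hΩ)) (off_ind _) ?_
    rw [d_ind hΩ (fo_g1 φ.2.1)]
    exact (h.is_dH φ).π hΩ

theorem frm_KK (hu : u ∈ KK F Ω) : Frm F o u :=
  KK_ind (isClosed_eq (by fun_prop) continuous_id) (fun _ _ _ _ k => h.frm k) hu

/-- **isotropy** -/
theorem iso (hb : BD F o Ω) (hu : u ∈ KK F Ω) (hv : v ∈ KK F Ω) : Bw F o u v = 0 := by
  have e : ∀ u ∈ K0 F Ω, Bw F o u u = 0 := fun u ⟨a, ha, h0, k⟩ => by
    rw [h.Bw_eq k k ha.d.dg, hb a ha h0 k.memLp, mul_zero]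
  refine KK_ind (P := fun u => Bw F o u v = 0) (isClosed_eq (by unfold Bw; fun_prop)
    continuous_const) (fun u a ha a0 k => KK_ind (P := fun v => Bw F o u v = 0)
      (isClosed_eq (by unfold Bw; fun_prop) continuous_const) (fun v b hb' b0 l => ?_) hv) hu
  have h1 := e _ ((K0 F Ω).add_mem ⟨a, ha, a0, k⟩ ⟨b, hb', b0, l⟩)
  have h2 := e _ ⟨a, ha, a0, k⟩
  have h3 := e _ ⟨b, hb', b0, l⟩
  have h4 := h.Bw_symm u v
  simp only [Bw, map_add, inner_add_left, inner_add_right] at h1 h2 h3 h4 ⊢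
  linarith

theorem norm_KK (hb : BD F o Ω) (hu : u ∈ KK F Ω) : ‖u‖ = √2 * ‖PH F o 0 u‖ := by
  have h1 := h.iso hb hu hu
  rw [h.Bw_self] at h1
  rw [← sq_eq_sq₀ (norm_nonneg _) (by positivity), mul_pow, Real.sq_sqrt zero_le_two,
    h.norm_frm (h.frm_KK hu)]
  linarith

theorem wc_KK (hΩ : IsClopen Ω) (hb : BD F o Ω) (hu : u ∈ KK F Ω) : WC F o u := fun x => by
  rw [← π_KK hΩ hu, ← h.Bw_π hΩ, h.iso hb (h.dH_mem hΩ x) hu]

/-- an exact form against a closed form, one of the factors with compact support -/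
theorem integ_d (ha : Fo I 1 a) (hw : Fo I 2 w) (hd : dM I w = 0) (hc : HasCompactSupport (a * w)) :
    integ I (vol F o) (dM I a * w) = 0 := by
  have := stokes_sm (ori h.ok) (ha.mul hw).sm hc
  rwa [ha.d_mul hw, hd, mul_zero, smul_zero, add_zero] at this

theorem wc_of_closed (hu : Isf F u w) (hw : Fo I 2 w) (hd : dM I w = 0) : WC F o u := fun x => by
  induction x using H_ind with
  | hP => exact isClosed_eq (by unfold Bw; fun_prop) continuous_const
  | h φ =>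
    rw [h.Bw_eq (h.is_dH φ) hu (fo_g1 φ.2.1).d.dg,
      h.integ_d (fo_g1 φ.2.1) hw hd (hcs_g1 φ.2.2.1).mul_right, mul_zero]

/-- closed forms with compact support are orthogonal to the exact ones -/
theorem Bw_cpt (hu : u ∈ KK F Ω) (hv : Isf F v w) (hw : Fo I 2 w) (hd : dM I w = 0)
    (hc : HasCompactSupport w) : Bw F o u v = 0 :=
  KK_ind (P := fun u => Bw F o u v = 0) (isClosed_eq (by unfold Bw; fun_prop) continuous_const)
    (fun _ _ ha _ k => by rw [h.Bw_eq k hv ha.d.dg, h.integ_d ha hw hd hc.mul_left, mul_zero]) hu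

end Tam

theorem WC.add (hu : WC F o u) (hv : WC F o v) : WC F o (u + v) := fun x => by
  have h1 := hu x
  have h2 := hv x
  simp only [Bw, map_add, inner_add_right] at h1 h2 ⊢
  linarith

theorem Frm.add (hu : Frm F o u) (hv : Frm F o v) : Frm F o (u + v) := by
  rw [Frm, map_add, map_add, add_add_add_comm, hu, hv]

end Crest.Agent.X212.Qab60
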