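import Crest.Agent.X212.Qab60.Reg
import Crest.Agent.X212.Qab60.Abs
import Crest.Agent.X212.Dr59.Lat

/-! X212 / QAB (helper60): the linear equation `f⁺ = T f` in a class, on a negative piece. -/

set_option autoImplicit false
set_option linter.unusedSectionVars false
noncomputable section
open scoped Manifold ContDiff Topology InnerProductSpace
open MeasureTheory Finset Function Filter
open Crest.Agent.R208.F (Ext io)
open Crest.Agent.R208.FI (IsDeg)

namespace Crest.Agent.X212.Qab60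
open An Sob92 Map77 Num57 Int54
open Dr59 (SmAt dM df CAt Cl Ex Cs)

variable {E : Type} [NormedAddCommGroup E] [NormedSpace ℝ E] [FiniteDimensional ℝ E]
  [MeasurableSpace E] [BorelSpace E]
  {HM : Type} [TopologicalSpace HM] {I : ModelWithCorners ℝ E HM} [I.Boundaryless]
  {M : Type} [TopologicalSpace M] [ChartedSpace HM M] [IsManifold I ∞ M] [T2Space M]
  [MeasurableSpace M] [BorelSpace M] [SecondCountableTopology M] {ι : Type} [Fintype ι]
  {F : Fr I M ι} {o : ι → ι → ι → ι → M → ℝ} {u v u0 k : HK F 0} {w w' a b η O f0 : M → Ext E}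
  {Ω : Set M}

variable (I) in
/-- closed two-forms on the piece -/
structure Cz (Ω : Set M) (w : M → Ext E) : Prop where
  fo : Fo I 2 w
  cl : dM I w = 0
  off : Off Ω w

theorem Cz.add (h : Cz I Ω w) (h' : Cz I Ω w') : Cz I Ω (w + w') :=
  ⟨h.fo.add h'.fo, by rw [h.fo.d_add h'.fo, h.cl, h'.cl, add_zero], h.off.add h'.off⟩
theorem Cz.sub (h : Cz I Ω w) (h' : Cz I Ω w') : Cz I Ω (w - w') :=
  ⟨h.fo.sub h'.fo, by rw [h.fo.d_sub h'.fo, h.cl, h'.cl, sub_zero], h.off.sub h'.off⟩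
theorem Cz.smul (h : Cz I Ω w) (r : ℝ) : Cz I Ω (r • w) :=
  ⟨h.fo.smul r, by rw [h.fo.d_smul, h.cl, smul_zero], h.off.smul r⟩
theorem cz_d (hΩ : IsClopen Ω) (ha : Fo I 1 a) (h0 : Off Ω a) : Cz I Ω (dM I a) :=
  ⟨ha.d, ha.dd, h0.d hΩ⟩
theorem cz_of_cs (h : Cs I 2 Ω w) : Cz I Ω w :=
  ⟨.of_cl h.cl, funext fun x => h.cl.cl x trivial, fun _ => h.eq_zero⟩
theorem Cz.cs (h : Cz I Ω w) (hΩ : IsClopen Ω) (hc : HasCompactSupport w) : Cs I 2 Ω w :=
  ⟨h.fo.cl h.cl, hc, closure_minimal (fun x hx => by_contra fun e => hx (h.off x e)) hΩ.1⟩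
theorem cz_sum {κ : Type} [Fintype κ] {e : κ → M → Ext E} (h : ∀ i, Cz I Ω (e i)) (c : κ → ℝ) :
    Cz I Ω (∑ i, c i • e i) :=
  Finset.sum_induction _ (Cz I Ω) (fun _ _ => Cz.add)
    ⟨Fo.zero, Dr59.dM_zero, fun _ _ => rfl⟩ fun i _ => (h i).smul _

theorem fo_ind (hΩ : IsClopen Ω) {j : ℕ} (hs : Dr59.Sm I Ω a) (hd : Dr59.Dg j Ω a) :
    Fo I j (Ω.indicator a) := ⟨fun x => by
  by_cases hx : x ∈ Ω
  · exact (hs x hx).congr (eventually_of_mem (hΩ.2.mem_nhds hx) fun y hy => Set.indicator_of_mem hy _)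
  · exact Dr59.cAt_zero.congr (eventually_of_mem (hΩ.1.isOpen_compl.mem_nhds hx) fun y hy =>
      Set.indicator_of_notMem hy _), fun x => by
  by_cases hx : x ∈ Ω
  · rw [Set.indicator_of_mem hx]; exact hd x hx
  · rw [Set.indicator_of_notMem hx]; exact .zero⟩

theorem Cz.ex (h : Cz I Ω w) (hΩ : IsClopen Ω) (he : Ex I Ω w) :
    ∃ a, Fo I 1 a ∧ Off Ω a ∧ w = dM I a := by
  obtain ⟨b, h1, h2, h3⟩ := he.deg fun x _ => h.fo.dg x
  have h0 : Off Ω (Ω.indicator b) := fun x hx => Set.indicator_of_notMem hx _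
  refine ⟨_, fo_ind hΩ h1 h2, h0, funext fun x => ?_⟩
  by_cases hx : x ∈ Ω
  · rw [← h3 x hx]
    exact Dr59.dM_congr (eventually_of_mem (hΩ.2.mem_nhds hx) fun y hy =>
      (Set.indicator_of_mem hy _).symm)
  · rw [h.off x hx, h0.d hΩ x hx]

theorem integ_d (hO : Ori I O) (ha : Fo I 1 a) (hw : Fo I 2 w) (hd : dM I w = 0)
    (hc : HasCompactSupport (a * w)) : integ I O (dM I a * w) = 0 := by
  have := stokes_sm hO (ha.mul hw).sm hc
  rwa [ha.d_mul hw, hd, mul_zero, smul_zero, add_zero] at this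

theorem Fo.intOn {j : ℕ} (h : Fo I j a) (hO : Ori I O) (hc : HasCompactSupport a) :
    IntOn I O a Set.univ := hO.intOn_of_hcs (fun x => (h.sm x).of_le (by simp)) hc _

variable (I) in
/-- **the topological input**: `b⁺ = 0`, and the exact sequence of the end -/
structure Neg (O : M → Ext E) (Ω : Set M) : Prop where
  lift : ∀ w, Cz I Ω w → (∀ b, Fo I 1 b → Off Ω b → HasCompactSupport (dM I b) →
    integ I O (dM I b * w) = 0) →
    ∃ η a, Cz I Ω η ∧ HasCompactSupport η ∧ Fo I 1 a ∧ Off Ω a ∧ w = η + dM I a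
  neg : ∀ η, Cz I Ω η → HasCompactSupport η → integ I O (η * η) ≤ 0
  rad : ∀ η, Cz I Ω η → HasCompactSupport η → integ I O (η * η) = 0 →
    ∃ a, Fo I 1 a ∧ Off Ω a ∧ η = dM I a

/-- negative classes `e i` with compact support and classes `η j` detected on the end -/
theorem Neg.of_span (hO : Ori I O) (hΩ : IsClopen Ω) {κ κ' : Type} [Fintype κ] [Fintype κ']
    {e : κ → M → Ext E} {η ψ : κ' → M → Ext E} (he : ∀ i, Cs I 2 Ω (e i)) (hη : ∀ j, Cz I Ω (η j))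
    (hψ : ∀ j, Fo I 1 (ψ j) ∧ Off Ω (ψ j) ∧ HasCompactSupport (dM I (ψ j)))
    (h1 : ∀ j, integ I O (dM I (ψ j) * η j) ≠ 0)
    (h0 : ∀ j j', j' ≠ j → integ I O (dM I (ψ j) * η j') = 0)
    (hG : ∀ c : κ → ℝ, c ≠ 0 → integ I O ((∑ i, c i • e i) * ∑ i, c i • e i) < 0)
    (hs : ∀ w, Cz I Ω w → ∃ (c : κ → ℝ) (r : κ' → ℝ),
      Ex I Ω (w - ∑ i, c i • e i - ∑ j, r j • η j)) : Neg I O Ω := by
  classical
  have hc : ∀ c : κ → ℝ, Cs I 2 Ω (∑ i, c i • e i) := fun c =>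
    Dr59.cs_sum fun i _ => (he i).smul _
  have key : ∀ w, Cz I Ω w → (∀ b, Fo I 1 b → Off Ω b → HasCompactSupport (dM I b) →
      integ I O (dM I b * w) = 0) →
      ∃ (c : κ → ℝ) (a : M → Ext E), Fo I 1 a ∧ Off Ω a ∧ w = ∑ i, c i • e i + dM I a := by
    intro w hw h
    obtain ⟨c, r, hx⟩ := hs w hw
    have z := cz_of_cs (hc c)
    obtain ⟨a, ha, a0, e1⟩ := ((hw.sub z).sub (cz_sum hη r)).ex hΩ hx
    have e2 : w = ∑ i, c i • e i + dM I a + ∑ j, r j • η j := by rw [← e1]; abel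
    have hr : r = 0 := funext fun j => by
      obtain ⟨p1, p2, p3⟩ := hψ j
      have h2 := h _ p1 p2 p3
      have i : ∀ {w}, Fo I 2 w → IntOn I O (dM I (ψ j) * w) Set.univ := fun hw =>
        (p1.d.mul hw).intOn hO p3.mul_right
      rw [e2, mul_add, mul_add, integ_add ((i z.fo).add (i ha.d)) (i (cz_sum hη r).fo),
        integ_add (i z.fo) (i ha.d), integ_d hO p1 z.fo z.cl (hc c).hc.mul_left, p1.d.comm2,
        integ_d hO ha p1.d p1.dd p3.mul_left, mul_sum,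
        integ_sum fun j' _ => i ((hη j').fo.smul _)] at h2
      simp only [mul_smul_comm, integ_smul, zero_add] at h2
      rw [sum_eq_single j (fun j' _ hj => by rw [h0 j j' hj, mul_zero]) (by simp)] at h2
      exact (mul_eq_zero.1 h2).resolve_right (h1 j)
    exact ⟨c, a, ha, a0, by simpa [hr] using e2⟩
  have sq : ∀ η, Cz I Ω η → HasCompactSupport η → ∃ (c : κ → ℝ) (a : M → Ext E), Fo I 1 a ∧
      Off Ω a ∧ η = ∑ i, c i • e i + dM I a ∧
      integ I O (η * η) = integ I O ((∑ i, c i • e i) * ∑ i, c i • e i) := fun η hη hη' => by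
    obtain ⟨c, a, ha, a0, e1⟩ := key η hη fun b hb _ _ => integ_d hO hb hη.fo hη.cl hη'.mul_left
    have z := cz_of_cs (hc c)
    have e2 : ∀ {w}, Cz I Ω w → HasCompactSupport w →
        integ I O (η * w) = integ I O ((∑ i, c i • e i) * w) := fun hw hw' => by
      conv_lhs => rw [e1]
      rw [add_mul, integ_add ((z.fo.mul hw.fo).intOn hO hw'.mul_left)
        ((ha.d.mul hw.fo).intOn hO hw'.mul_left), integ_d hO ha hw.fo hw.cl hw'.mul_left, add_zero]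
    exact ⟨c, a, ha, a0, e1, by rw [e2 hη hη', z.fo.comm2, e2 z (hc c).hc]⟩
  refine ⟨fun w hw h => ?_, fun η h h' => ?_, fun η h h' h2 => ?_⟩
  · obtain ⟨c, a, ha, a0, e1⟩ := key w hw h
    exact ⟨_, a, cz_of_cs (hc c), (hc c).hc, ha, a0, e1⟩
  · obtain ⟨c, a, -, -, -, e2⟩ := sq η h h'
    rw [e2]
    by_cases hc0 : c = 0
    · simp [hc0]
    · exact (hG c hc0).le
  · obtain ⟨c, a, ha, a0, e1, e2⟩ := sq η h h'
    have : c = 0 := by_contra fun hc0 => (hG c hc0).ne (e2.symm.trans h2)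
    exact ⟨a, ha, a0, by simpa [this] using e1⟩

variable (F o Ω) in
/-- a negative piece with conformally long ends -/
structure Pc : Prop extends Tam F o where
  cl : IsClopen Ω
  bd : BD F o Ω
  top : Neg I (vol F o) Ω

variable (F o Ω) in
/-- self-dual forms on the piece -/
def HP : Submodule ℝ (HK F 0) where
  carrier := {y | PH F o 0 y = y ∧ πH F Ω y = y}
  add_mem' h k := ⟨by rw [map_add, h.1, k.1], by rw [map_add, h.2, k.2]⟩
  zero_mem' := ⟨map_zero _, map_zero _⟩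
  smul_mem' r _ h := ⟨by rw [map_smul, h.1], by rw [map_smul, h.2]⟩

instance : CompleteSpace (HP F o Ω) :=
  ((isClosed_eq (PH F o 0).continuous continuous_id).inter
    (isClosed_eq (πH F Ω).continuous continuous_id)).completeSpace_coe

variable (F o Ω) in
/-- small smoothing perturbations with self-dual values -/
structure Per (T : HK F 0 →L[ℝ] HK F 0) (ε : ℝ) : Prop where
  mem : ∀ u, πH F Ω u = u → T u ∈ HP F o Ω
  le : ∀ u, πH F Ω u = u → ‖T u‖ ≤ ε * ‖u‖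
  lv : ∀ j u, Lv F j u → Lv F (j + 1) (T u)
  e0 : 0 ≤ ε
  e1 : √2 * ε < 1

namespace Pc
variable (h : Pc F o Ω) {T : HK F 0 →L[ℝ] HK F 0} {ε : ℝ}
include h

theorem lift (hu : Isf F u w) (hw : Cz I Ω w) (h0 : ∀ k ∈ KK F Ω, Bw F o k u = 0) :
    ∃ η v, Cz I Ω η ∧ HasCompactSupport η ∧ Isf F v η ∧ u - v ∈ K0 F Ω := by
  obtain ⟨η, a, h1, h2, ha, a0, e⟩ := h.top.lift w hw fun b hb b0 hc => by
    obtain ⟨k, hk⟩ := (sq_of_hcs (F := F) hb.d.sm hc).exists
    have := h0 k (mem_KK hb b0 hk)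
    rw [h.Bw_eq hk hu hb.d.dg] at this
    linarith
  obtain ⟨v, hv⟩ := (sq_of_hcs (F := F) h1.fo.sm h2).exists
  exact ⟨η, v, h1, h2, hv, a, ha, a0, by simpa [e] using hu.sub hv⟩

/-- no self-dual form is orthogonal to the exact forms -/
theorem orth (hu : u ∈ HP F o Ω) (h0 : ∀ k ∈ KK F Ω, ⟪k, u⟫_ℝ = 0) : u = 0 := by
  have h1 : ∀ k ∈ KK F Ω, Bw F o k u = 0 := fun k hk => (h.Bw_PH k hu.1).trans (h0 k hk)
  have wc : WC F o u := fun x => by rw [← hu.2, ← h.Bw_π h.cl, h1 _ (h.dH_mem h.cl x)]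
  have nn : ng (ng o) = o := by funext; exact neg_neg _
  have hl : ∀ j, Lv F j u := fun j => by
    have := h.neg.reg (j := j) (u := u) (fun x => ?_) (by
      rw [← hu.1, h.MH_PH]; exact ⟨0, map_zero _⟩)
    · rwa [nn, hu.1] at this
    · have := wc x
      simp only [Bw, nn] at this ⊢
      linarith
  obtain ⟨w, hw, hd, hi, -⟩ := h.smooth (h.frm_of_PH hu.1) wc hl
  obtain ⟨η, v, h2, h3, hv, hk⟩ := h.lift hi ⟨hw, hd, hi.off h.cl hw hu.2⟩ h1
  have hk' := (K0 F Ω).le_topologicalClosure hk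
  have e1 := h1 _ hk'
  have e2 := h.Bw_cpt hk' hv h2.fo h2.cl h3
  have e3 := h.Bw_eq hv hv h2.fo.dg
  have e4 := h.top.neg η h2 h3
  have e5 := h.Bw_symm u v
  have e6 := h.Bw_PH u hu.1
  simp only [Bw, inner_sub_left] at e1 e2 e3 e5 e6
  exact real_inner_self_nonpos.1 (by linarith)

/-- smooth elements of the closure are exact -/
theorem exact (hk : k ∈ KK F Ω) (hi : Isf F k w) (hw : Fo I 2 w) :
    ∃ a, Fo I 1 a ∧ Off Ω a ∧ w = dM I a := by
  obtain ⟨η, v, h2, h3, hv, hk'⟩ := h.lift hi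
    ⟨hw, h.closed (h.wc_KK h.cl h.bd hk) hi hw, hi.off h.cl hw (π_KK h.cl hk)⟩
    fun k' hk' => h.iso h.bd hk' hk
  have e1 := h.Bw_cpt hk hv h2.fo h2.cl h3
  have e2 := h.Bw_cpt ((K0 F Ω).le_topologicalClosure hk') hv h2.fo h2.cl h3
  have e3 := h.Bw_eq hv hv h2.fo.dg
  obtain ⟨b, hb, b0, e⟩ := h.top.rad η h2 h3 (by
    simp only [Bw, inner_sub_left] at e1 e2 e3; linarith)
  obtain ⟨a, ha, a0, hi'⟩ := hk'
  refine ⟨a + b, ha.add hb, a0.add b0, hi.eq ?_ hw (ha.add hb).d⟩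
  simpa [ha.d_add hb, ← e] using Isf.add hi' hv

theorem PH_mem (hu : πH F Ω u = u) : PH F o 0 u ∈ HP F o Ω :=
  ⟨h.PH_PH u, by rw [h.π_PH h.cl, hu]⟩

theorem low (hT : Per F o Ω T ε) (hk : k ∈ KK F Ω) :
    (1 - √2 * ε) * ‖k‖ ≤ √2 * ‖PH F o 0 k - T k‖ := by
  have h1 := h.norm_KK h.bd hk
  have h2 := hT.le k (π_KK h.cl hk)
  have h3 := norm_sub_norm_le (PH F o 0 k) (T k)
  have h4 : 0 < √2 := by positivity
  nlinarith

/-- **the linear equation is solvable** -/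
theorem surj (hT : Per F o Ω T ε) (hv : v ∈ HP F o Ω) : ∃ k ∈ KK F Ω, PH F o 0 k - T k = v := by
  let A : KK F Ω →L[ℝ] HP F o Ω := ((PH F o 0).comp (KK F Ω).subtypeL).codRestrict _
    fun k => h.PH_mem (π_KK h.cl k.2)
  let D : KK F Ω →L[ℝ] HP F o Ω := (T.comp (KK F Ω).subtypeL).codRestrict _
    fun k => hT.mem _ (π_KK h.cl k.2)
  obtain ⟨e, he⟩ := inv_of_low (A := A) (D := D) (c := √2) (by positivity) hT.e1
    (fun k => (h.norm_KK h.bd k.2).le) (fun k => (hT.le k (π_KK h.cl k.2)).trans (by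
      rw [h.norm_KK h.bd k.2, mul_left_comm, ← mul_assoc]; rfl))
    fun y hy => Subtype.ext (h.orth y.2 fun k hk => by
      have := hy ⟨k, hk⟩
      rwa [← y.2.1, ← h.PH_symm])
  obtain ⟨k, hk⟩ := e.surjective ⟨v, hv⟩
  exact ⟨k, k.2, congrArg Subtype.val ((DFunLike.congr_fun he k).symm.trans hk)⟩

theorem exists_sol (hT : Per F o Ω T ε) (h0 : πH F Ω u0 = u0) :
    ∃ k ∈ KK F Ω, PH F o 0 (u0 + k) = T (u0 + k) := by
  obtain ⟨k, hk, e⟩ := h.surj hT (sub_mem (hT.mem u0 h0) (h.PH_mem h0))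
  exact ⟨k, hk, by rw [map_add, map_add, eq_add_of_sub_eq e]; abel⟩

theorem uniq (hT : Per F o Ω T ε) {k' : HK F 0} (hk : k ∈ KK F Ω) (hk' : k' ∈ KK F Ω)
    (e : PH F o 0 (u0 + k) = T (u0 + k)) (e' : PH F o 0 (u0 + k') = T (u0 + k')) : k = k' := by
  have h1 := h.low hT (sub_mem hk hk')
  rw [show k - k' = (u0 + k) - (u0 + k') by abel, map_sub, map_sub, e, e', sub_self, norm_zero,
    mul_zero] at h1
  have h2 := norm_eq_zero.1 (le_antisymm
    (nonpos_of_mul_nonpos_right h1 (sub_pos.2 hT.e1)) (norm_nonneg _))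
  exact add_left_cancel (sub_eq_zero.1 h2)

/-- **solutions are smooth and lie in the class of `f0`** -/
theorem sm_sol (hT : Per F o Ω T ε) (h0 : Isf F u0 f0) (hf : Cz I Ω f0) (hk : k ∈ KK F Ω)
    {g : HK F 0} (hg : ∀ j, Lv F j g) (e : PH F o 0 (u0 + k) = T (u0 + k) + g) :
    ∃ a, Fo I 1 a ∧ Off Ω a ∧ Isf F k (dM I a) ∧ F.Cb (c2 F (f0 + dM I a)) ∧
      ∀ j, FL F.toPre j (c2 F (f0 + dM I a)) := by
  have fr := (h.frm h0).add (h.frm_KK hk)
  have wc := (h.wc_of_closed h0 hf.fo hf.cl).add (h.wc_KK h.cl h.bd hk)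
  have hl : ∀ j, Lv F j (u0 + k) := fun j => by
    induction j with
    | zero => exact Lv.zero _
    | succ j ih => exact h.reg' fr wc (e ▸ (hT.lv j _ ih).add (hg _))
  obtain ⟨w, hw, -, hi, h1, h2⟩ := h.smooth fr wc hl
  have h3 : Isf F k (w - f0) := by simpa using hi.sub h0
  obtain ⟨a, ha, a0, e'⟩ := h.exact hk h3 (hw.sub hf.fo)
  exact ⟨a, ha, a0, e' ▸ h3, by rwa [← e', add_sub_cancel], by rwa [← e', add_sub_cancel]⟩

theorem Bw_class (h0 : Isf F u0 f0) (hf : Cz I Ω f0) (hc : HasCompactSupport f0) (hk : k ∈ KK F Ω) :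
    Bw F o (u0 + k) (u0 + k) = 2 * integ I (vol F o) (f0 * f0) := by
  have e1 := h.Bw_cpt hk h0 hf.fo hf.cl hc
  have e2 := h.iso h.bd hk hk
  have e3 := h.Bw_symm u0 k
  rw [← h.Bw_eq h0 h0 hf.fo.dg]
  simp only [Bw, map_add, inner_add_left, inner_add_right] at e1 e2 e3 ⊢
  linarith

/-- the energy bound -/
theorem energy (hT : Per F o Ω T ε) (h0 : Isf F u0 f0) (hf : Cz I Ω f0) (hc : HasCompactSupport f0)
    (hk : k ∈ KK F Ω) (e : PH F o 0 (u0 + k) = T (u0 + k)) :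
    (1 - 2 * ε ^ 2) * ‖u0 + k‖ ^ 2 ≤ -2 * integ I (vol F o) (f0 * f0) := by
  have e1 := h.Bw_class h0 hf hc hk
  have e2 := h.norm_frm ((h.frm h0).add (h.frm_KK hk))
  have e3 := hT.le (u0 + k) (by rw [map_add, h0.π_eq h.cl hf.off, π_KK h.cl hk])
  rw [h.Bw_self, e] at e1
  rw [e] at e2
  have := pow_le_pow_left₀ (norm_nonneg _) e3 2
  nlinarith

end Pc

end Crest.Agent.X212.Qab60
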