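import Crest.Agent.X212.Qab60.End
import Crest.Agent.X212.Loc8.Wld

/-! X212 / QAB (helper60): cut-offs along a pinching neck. -/

set_option autoImplicit false
set_option linter.unusedSectionVars false
noncomputable section
open scoped Manifold ContDiff Topology InnerProductSpace Real
open MeasureTheory Set Function Filter Module
open Crest.Agent.R208.F (Ext)

namespace Crest.Agent.X212.Qab60
open An Sob92 Num57 Int54 M Cht98
open Cyf70 (IC)
open Dr59 (dM df)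
open Loc8 (YC)

section gen
variable {E : Type} [NormedAddCommGroup E] [NormedSpace ℝ E] [FiniteDimensional ℝ E]
  [MeasurableSpace E] [BorelSpace E]
  {HM : Type} [TopologicalSpace HM] {I : ModelWithCorners ℝ E HM} [I.Boundaryless]
  {Y : Type} [TopologicalSpace Y] [ChartedSpace HM Y] [IsManifold I ∞ Y]
  [MeasurableSpace Y] [BorelSpace Y] [SecondCountableTopology Y] [T2Space Y] [CompactSpace Y]
  {κ : Type} [Fintype κ]
  {E' : Type} [NormedAddCommGroup E'] [NormedSpace ℝ E'] [FiniteDimensional ℝ E']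
  [MeasurableSpace E'] [BorelSpace E']
  {HN : Type} [TopologicalSpace HN] {J : ModelWithCorners ℝ E' HN} [J.Boundaryless]
  {N : Type} [TopologicalSpace N] [ChartedSpace HN N] [IsManifold J ∞ N]
  [MeasurableSpace N] [BorelSpace N] [SecondCountableTopology N] [T2Space N]
  {ι : Type} [Fintype ι] {G : Fr I Y κ} {F : Fr J N ι} {j : Y × ℝ → N} {w0 w1 χ R R' : ℝ → ℝ}
  {S : Set ℝ} {g : N → ℝ} {o : ι → ι → ι → ι → N → ℝ} {oY : Y → Ext E} {c δ a b C : ℝ}
  {f0 w : N → Ext E'}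

theorem deriv_sq (h : ContDiff ℝ ∞ χ) (s : ℝ) : deriv (1 - χ * χ) s = -(2 * χ s) * deriv χ s := by
  have d := (h.differentiable (by simp) s).hasDerivAt
  exact ((hasDerivAt_const s (1 : ℝ)).sub (d.mul d)).deriv.trans (by ring)

theorem Hgt.sq (h : Hgt J j S χ g) : tsupport (deriv (1 - χ * χ)) ⊆ tsupport (deriv χ) ∧
    Hgt J j S (1 - χ * χ) (1 - g * g) := by
  have t : tsupport (deriv (1 - χ * χ)) ⊆ tsupport (deriv χ) := closure_mono fun s hs e =>
    hs (by rw [deriv_sq h.sχ, e, mul_zero])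
  refine ⟨t, contMDiff_const.sub (h.sm.mul h.sm), contDiff_const.sub (h.sχ.mul h.sχ),
    h.hc.isCompact.of_isClosed_subset (isClosed_tsupport _) t, t.trans h.sub,
    fun q hq => by simp [h.eq q hq], fun x hx => ?_⟩
  rw [Dr59.df_one_sub (h.sm.mul h.sm x), Loc8.df_mul_self h.sm, h.off x hx, smul_zero, neg_zero]

theorem Bnd.cut0 (h : Bnd G F j w0 w1 S) (hg : Hgt J j S χ g) (h3 : finrank ℝ E = 3)
    (hG : G.IsVol) (hF : OK F o) (ho : Ori I oY)
    (hp : SameOn (cy oY) (Dr59.pm (IC I) J j (vol F o)) (univ ×ˢ S)) (hc : CS G oY c) (c0 : 0 ≤ c)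
    (hd : Hd w0 w1 S a b C R R') (hC : 1 ≤ C) (hs : tsupport (deriv χ) ⊆ Icc a b) (δ0 : 0 ≤ δ)
    (hδ : ∀ s ∈ S, |deriv χ s| * w0 s ≤ δ * w1 s) (h01 : ∀ s, |χ s| ≤ 1)
    (hk : HasCompactSupport (1 - g)) (z : g • f0 = 0)
    (z' : ∀ q : Y × ℝ, q.2 ∈ tsupport (deriv χ) → f0 (j q) = 0) (one : g • w = w) :
    Cut0 F o (2 * C * δ) (√(c * (2 * δ))) f0 w g := by
  obtain ⟨t, k⟩ := hg.sq
  have cb : F.Cb (1 - (1 - g)) := Cb_sub (Cb_const 1) (Cb_of_hcs (contMDiff_const.sub hg.sm) hk)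
  have e : (1 + g) * (1 - g) = 1 - g * g := by ring
  rw [sub_sub_cancel] at cb
  refine ⟨cb, e ▸ hk.mul_left (f := 1 + g), z, one, by positivity,
    Real.sqrt_nonneg _, h.thin hg h3 hG hF.isv ho hd hC hs hδ, fun a ha hq => ?_⟩
  have hj : ContinuousOn j (univ ×ˢ tsupport (deriv (1 - χ * χ))) := fun q hq =>
    (h.sm q (k.sub hq.2)).continuousAt.continuousWithinAt
  rw [Real.sq_sqrt (by positivity)]
  refine (h.neck k h3 hG hF.isv ho (ori hF) hp hc c0 (fun s hs => ?_) ha).trans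
    (mul_le_mul_of_nonneg_left (le_of_eq_of_le (setIntegral_congr_fun
      ((isCompact_univ.prod k.hc.isCompact).image_of_continuousOn hj).measurableSet ?_)
      (setIntegral_le_integral (hq.integrable_norm_pow two_ne_zero)
        (.of_forall fun _ => sq_nonneg _))) (by positivity))
  · have := hδ s hs
    have := h01 s
    rw [deriv_sq hg.sχ, abs_mul, abs_neg, abs_mul, abs_two]
    nlinarith [mul_nonneg (abs_nonneg (deriv χ s)) (h.p0 s hs).le]
  · rintro _ ⟨q, hq, rfl⟩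
    simp only [c2_add, Pi.add_apply, c2_of_zero (z' q (t hq.2)), zero_add]

end gen

theorem hd_rad {t : ℝ} (ht : t < 1) : Hd (fun _ => 1) (fun s => (rad t s)⁻¹) (Ioo (-1) 1)
    (-(1 / 2)) (1 / 2) 12 (fun s => (1 - 4 * s ^ 2) * s * rad t s)
    fun s => (1 - 12 * s ^ 2) * rad t s + (1 - 4 * s ^ 2) * s * (s / rad t s) := by
  have p : ∀ s, 0 < rad t s := fun s => rad_pos (.inl ht)
  have q : ∀ s, |s| ≤ rad t s := fun s => Real.abs_le_sqrt (by nlinarith [sq_nonneg (1 - t)])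
  have q2 : ∀ s, s ^ 2 ≤ rad t s ^ 2 := fun s => by rw [rad_sq]; nlinarith [sq_nonneg (1 - t)]
  have u : ∀ s ∈ Icc (-(1 / 2) : ℝ) (1 / 2), 0 ≤ 1 - 4 * s ^ 2 := fun s hs => by
    nlinarith [hs.1, hs.2]
  refine ⟨by norm_num, Icc_subset_Ioo (by norm_num) (by norm_num), fun s => ?_, by norm_num,
    by norm_num, fun s hs => ?_, fun s hs => ?_⟩
  · have d1 : HasDerivAt (fun s : ℝ => (1 - 4 * s ^ 2) * s) (1 - 12 * s ^ 2) s := by
      refine ((((hasDerivAt_pow 2 s).const_mul 4).const_sub 1).mul (hasDerivAt_id' s)).congr_deriv ?_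
      norm_num; ring
    have d2 : HasDerivAt (rad t) (s / rad t s) s := by
      refine (((hasDerivAt_pow 2 s).add_const ((1 - t) ^ 2)).sqrt
        (rad_sq_pos (.inl ht)).ne').congr_deriv ?_
      norm_num; exact mul_div_mul_left _ _ two_ne_zero
    exact d1.mul d2
  · have := p s
    rw [abs_mul, abs_mul, abs_of_nonneg (u s hs), abs_of_pos this, inv_pow, ← div_eq_mul_inv,
      div_le_iff₀ (by positivity)]
    nlinarith [mul_le_mul_of_nonneg_right (q s) this.le, mul_nonneg (sq_nonneg s)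
      (mul_nonneg (abs_nonneg s) this.le)]
  · have := p s
    have e : (1 - 12 * s ^ 2) * rad t s * (1 * (rad t s)⁻¹ ^ 3) =
        (rad t s)⁻¹ ^ 2 - 12 * (s ^ 2 / rad t s ^ 2) := by field_simp
    have := (div_le_one (pow_pos this 2)).2 (q2 s)
    have : 0 ≤ (1 - 4 * s ^ 2) * s * (s / rad t s) * (1 * (rad t s)⁻¹ ^ 3) := by
      rw [mul_assoc _ s, ← mul_div_assoc]
      exact mul_nonneg (mul_nonneg (u s hs) (div_nonneg (mul_self_nonneg s) (p s).le)) (by positivity)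
    rw [add_mul, e]; linarith

variable {X : Mf 4} {A κ : Type} [Fintype A] [Fintype κ] {M : Mark X A κ}

/-- a pinching neck -/
structure Pn (c : M.Cl) (p : Prm A) (r : ℝ) (a : A) : Prop where
  fr : a ∈ M.sys.fr c.1
  pin : M.pin a
  par : p.2 ∈ M.sys.Par
  O : p ∈ M.O c.1
  half : 1 / 2 ≤ p.2 a
  lng : 1 - p.2 a ≤ r

variable (W : World M) (m : M.Cl) {c : M.Cl} {p : Prm A} {r δ cs : ℝ} {a : A} (h : Pn c p r a)
  {χ : ℝ → ℝ} {o : Option κ → Option κ → Option κ → Option κ → (W.Z c).M → ℝ}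
  {f0 w : (W.Z c).M → Ext (W.Z c).E}
include h

theorem Pn.bnd : Bnd (M.gY a) (W.F m c p) (W.nj c a) (fun _ => 1) (fun s => (rad (p.2 a) s)⁻¹)
    (Ioo (-1) 1) where
  dim := (W.Z c).dim.trans (Mark.finrank_cyl a).symm
  op := isOpen_Ioo
  sm _ _ := (W.ld_nj (Mark.j_not_mem c (.inr h.fr))).contMDiffAt
  inj _ _ _ _ e := (M.bn a).oe.inj
    (W.inj (Mark.j_not_mem c (.inr h.fr)) (Mark.j_not_mem c (.inr h.fr)) e)
  c0 := continuousOn_const
  c1 := (Continuous.inv₀ (by unfold rad; fun_prop)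
    fun _ => (rad_pos (.inl (h.O a h.fr))).ne').continuousOn
  p0 _ _ := one_pos
  p1 _ _ := inv_pos.2 (rad_pos (.inl (h.O a h.fr)))
  co q hq := by
    have := W.neck' m (Mark.lt_of_br h.par h.fr h.half) (abs_lt.2 hq).le
      (by rw [Mark.tv_fr h.fr]; exact .inl (h.O a h.fr)) p.1
    rw [Mark.tv_fr h.fr, ← (W.L m c).F_e (Mark.mem_Ω _ h.O)] at this
    convert this using 3 with i
    cases i
    exacts [congrArg (· • _) (Mark.wt_none' h.pin _ _).symm,
      congrArg (· • _) (Mark.wt_some' h.pin _ _ _).symm]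

theorem Pn.cut0 (hc : YC M a cs) (hχ : Loc8.Lg χ r δ) (hF : OK (W.F m c p) o)
    (hs : SameOn (W.o c) (vol (W.F m c p) o) univ)
    (hK : IsCompact {z | Cht98.hZ W.toCaps c a z ≤ 1 / 2})
    (z : ∀ x, 0 < Cht98.hZ W.toCaps c a x → f0 x = 0)
    (one : ∀ x, Cht98.hZ W.toCaps c a x < 3 → w x = 0) :
    Cut0 (W.F m c p) o (2 * 12 * (2 * δ)) (√(cs * (2 * (2 * δ)))) f0 w
      fun x => χ (Cht98.hZ W.toCaps c a x) := by
  obtain ⟨h0, oY, ho, hs', hc⟩ := hc
  have nm := fun q => Mark.j_not_mem c (q := q) (.inr h.fr)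
  have t : tsupport (deriv χ) ⊆ Icc r (1 / 2) := closure_minimal
    (fun s hs => by_contra fun k => hs (hχ.lc.deriv k)) isClosed_Icc
  have t0 : Icc r (1 / 2) ⊆ Icc (-(1 / 2)) (1 / 2) := Icc_subset_Icc_left (by linarith [hχ.r0])
  have t1 : Icc r (1 / 2) ⊆ Ioo (-1 : ℝ) 1 := t0.trans (Icc_subset_Ioo (by norm_num) (by norm_num))
  have sh := sm_hZ W.toCaps (.inr h.fr)
  have e : ∀ q : (M.bn a).Y.M × ℝ, q.2 ∈ Ioo (-1 : ℝ) 1 →
      Cht98.hZ W.toCaps c a (W.nj c a q) = q.2 := fun q hq =>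
    hZ_nj _ (.inr h.fr) (nm q) ((abs_lt.2 hq).le.trans (by norm_num))
  have b := h.bnd W m
  refine b.cut0 (χ := χ) ⟨hχ.sm.contMDiff.comp sh, hχ.sm, isCompact_Icc.of_isClosed_subset
      (isClosed_tsupport _) t, t.trans t1, fun q hq => by rw [e q hq], fun x hx =>
      Dr59.df_eq_zero (hχ.lc.comp sh.continuous x fun k => hx ?_)⟩ (M.bn a).Y.dim (M.gvol a) hF ho
    (((hs'.mono (subset_univ _)).trans fun q _ => W.same_nj (nm q)).trans (hs.pm
      (fun q _ => W.ld_nj (nm q)) (mapsTo_univ _ _))) hc h0 (hd_rad (h.O a h.fr)) (by norm_num)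
    (t.trans t0) (by linarith [hχ.d0]) (fun s _ => ?_)
    (fun s => abs_le.2 ⟨by linarith [(hχ.mem s).1], (hχ.mem s).2⟩)
    (HasCompactSupport.intro hK fun x hx => sub_eq_zero.2 (hχ.hi _ (le_of_not_ge hx)).symm)
    (funext fun x => ?_) (fun q hq => z _ (by rw [e q (t1 (t hq))]; exact hχ.r0.trans_le (t hq).1))
    (funext fun x => ?_)
  · obtain ⟨y, -, hy⟩ := exists_of_hZ W.toCaps (.inr h.fr) ((abs_lt.2 (t1 k)).trans (by norm_num))
    exact ⟨_, ⟨trivial, t1 (mem_preimage.1 k)⟩, hy⟩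
  · rw [mul_one, ← div_eq_mul_inv, le_div_iff₀ (rad_pos (.inl (h.O a h.fr)))]
    by_cases k : s ∈ Icc r (1 / 2)
    · have : rad (p.2 a) s ≤ 2 * |s| := abs_le_of_sq_le_sq' (by
        have := h.O a h.fr
        rw [rad_sq, mul_pow, sq_abs]
        nlinarith [h.lng, k.1]) (by positivity) |>.2
      nlinarith [hχ.bd s, abs_nonneg (deriv χ s)]
    · rw [hχ.lc.deriv k, abs_zero, zero_mul]; linarith [hχ.d0]
  · rcases le_or_gt (Cht98.hZ W.toCaps c a x) 0 with k | k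
    · rw [Pi.smul_apply', hχ.lo _ (k.trans hχ.r0.le), zero_smul]; rfl
    · rw [Pi.smul_apply', z x k, smul_zero]; rfl
  · rcases le_or_gt 3 (Cht98.hZ W.toCaps c a x) with k | k
    · rw [Pi.smul_apply', hχ.hi _ (by linarith), one_smul]
    · rw [Pi.smul_apply', one x k, smul_zero]

end Crest.Agent.X212.Qab60
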