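import Crest.Agent.X212.Qab60.Frm

/-! X212 / QAB (helper60): on a closed manifold `|∫ b ∧ db'| ≤ C ‖db‖ ‖db'‖`. -/

set_option autoImplicit false
set_option linter.unusedSectionVars false
noncomputable section
open scoped Manifold ContDiff Topology InnerProductSpace
open MeasureTheory Finset Function Filter
open Crest.Agent.R208.F (Ext io)
open Crest.Agent.R208.FI (IsDeg)

namespace Crest.Agent.X212.Qab60
open An Sob92 Map77 Num57 Int54
open Ell97 (gard hodge adjH H_ext)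
open Dr59 (SmAt dM df CAt)
open Wz78 (Pr frPr)

section pt
variable {ι : Type} [Fintype ι] {P : ι → ι → ℝ}

theorem inner_wd (h : Pr P) {v w : V1 ι} (hv : p1 P v = v) (hw : p1 P w = w) (a b : ι) :
    ⟪wd2 ℝ P a v, wd2 ℝ P b w⟫_ℝ = 2 * (P a b * ⟪v, w⟫_ℝ - v b * w a) := by
  have e : ∀ {u : V1 ι}, p1 P u = u → ∀ a, ∑ s, P s a * u s = u a := fun {u} hu a => by
    conv_rhs => rw [← hu, p1_apply]
    exact sum_congr rfl fun s _ => by rw [h.symm]
  have e0 : ∑ s, P s a * P s b = P a b := by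
    rw [← h.idem a b]; exact sum_congr rfl fun s _ => by rw [h.symm s a]
  have e1 : ∑ s, ∑ t, (P s a * P s b) * (v t * w t) = P a b * ⟪v, w⟫_ℝ := by
    rw [← sum_mul_sum, e0, inner_fm]; simp [mul_comm]
  have e2 : ∑ s, ∑ t, (P s a * w s) * (P t b * v t) = v b * w a := by
    rw [← sum_mul_sum, e hw, e hv, mul_comm]
  have e3 : ∑ s, ∑ t, (P t a * P t b) * (v s * w s) = P a b * ⟪v, w⟫_ℝ := sum_comm.trans e1
  have e4 : ∑ s, ∑ t, (P t a * w t) * (P s b * v s) = v b * w a := sum_comm.trans e2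
  rw [inner_fm (wd2 ℝ P a v), Fintype.sum_prod_type, two_mul]
  nth_rewrite 1 [← e1, ← e2]
  rw [← e3, ← e4]
  simp only [← sum_sub_distrib, ← sum_add_distrib, wd2_apply, smul_eq_mul, RCLike.inner_apply,
    conj_trivial]
  exact sum_congr rfl fun s _ => sum_congr rfl fun t _ => by ring

end pt

variable {E : Type} [NormedAddCommGroup E] [NormedSpace ℝ E] [FiniteDimensional ℝ E]
  [MeasurableSpace E] [BorelSpace E]
  {HM : Type} [TopologicalSpace HM] {I : ModelWithCorners ℝ E HM} [I.Boundaryless]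
  {M : Type} [TopologicalSpace M] [ChartedSpace HM M] [IsManifold I ∞ M] [T2Space M]
  [MeasurableSpace M] [BorelSpace M] [SecondCountableTopology M] {ι : Type} [Fintype ι]
  (F : Fr I M ι)

/-- the gradient -/
def gr : Op M ι ℝ (V1 ι) where
  p := triv M ℝ
  q := hp F
  σ a x := Map77.tp fun b => F.P b a x • ContinuousLinearMap.id ℝ ℝ
  B _ := 0

/-- symbol of `(div, d / √2)` -/
def gσ (a : ι) (x : M) : V1 ι →L[ℝ] W2 ι :=
  pr2 (∑ b, F.P a b x • pj ℝ b) ((√2)⁻¹ • dσ F a x)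
/-- zero order part of `(div, d / √2)` -/
def gB (x : M) : V1 ι →L[ℝ] W2 ι := pr2 (∑ a, F.dv a x • pj ℝ a) ((√2)⁻¹ • dB F x)
/-- the operator `(div, d / √2)` on one-forms -/
def gop : Op M ι (V1 ι) (W2 ι) :=
  cut F.toPre (hp F) (ps (triv M ℝ) (triv M (V2 ι))) (gσ F) (gB F)

/-- `d` on Sobolev spaces -/
def dH (k : ℕ) : F.H (k + 1) (hp F) →L[ℝ] F.H k (triv M (V2 ι)) :=
  F.opH k (hp F) (triv M (V2 ι)) (dσ F) (dB F)

variable {F} {C : ℕ → ℝ}

theorem prj_hp : Prj (hp F) := ⟨fun x => p1_idem (frPr F x), fun x => p1_symm (frPr F x)⟩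

theorem gr_app (u : M → ℝ) : (gr F).app F u = c1 F (df I u) := funext fun x => fm_ext fun b => by
  simp only [Op.app, Pre.op, gr, zero_apply, add_zero, WithLp.ofLp_sum, Finset.sum_apply,
    Map77.tp_apply, smul_apply, ContinuousLinearMap.id_apply, P_D, c1_df]

theorem gr_alg : Alg F.P (gr F) where
  p := ⟨fun _ _ => rfl, fun _ _ _ => rfl⟩
  q := prj_hp
  σp _ _ _ := rfl
  qσ a x v := fm_ext fun b => by
    simp only [gr, hp, p1_apply, Map77.tp_apply, smul_apply, ContinuousLinearMap.id_apply,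
      smul_eq_mul, ← mul_assoc, ← sum_mul, (frPr F x).idem]
  qB x v := by simp [gr]
  Pσ a x := by
    ext b
    simp only [gr, _root_.sum_apply, smul_apply, WithLp.ofLp_sum, Finset.sum_apply,
      PiLp.smul_apply, Map77.tp_apply, ContinuousLinearMap.id_apply, smul_eq_mul, mul_one]
    rw [← (frPr F x).idem b a]
    exact sum_congr rfl fun k _ => by rw [F.P_symm a k, mul_comm]

theorem gr_cliff : (gr F).CliffL F := fun a b x v w => by
  have e : ∀ a b, ⟪(gr F).σ a x v, (gr F).σ b x w⟫_ℝ = F.P a b x * ⟪v, w⟫_ℝ := fun a b => by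
    rw [inner_fm, ← (frPr F x).idem a b, sum_mul]
    exact sum_congr rfl fun k _ => by
      simp only [gr, Map77.tp_apply, smul_apply, ContinuousLinearMap.id_apply, smul_eq_mul,
        RCLike.inner_apply, conj_trivial, F.P_symm k a]; ring
  rw [e, e, F.P_symm b a]
  simp only [gr, ContinuousLinearMap.id_apply]; ring

theorem gr_good (hF : F.Tame C) : ∃ C', (gr F).Good F C' := by
  let K := cb (fun _ : Unit => F.toPre) Set.univ
  have h : ∀ a, K.mem fun _ => (gr F).σ a := fun a =>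
    Cls.tp fun b => Cls.smul (cbP hF b a) (K.const _)
  exact (good_of hF (Cb_const _) (cb_hp hF) (fun a => h a () trivial) (Cb_const _) gr_alg).imp
    fun _ h => h.2

theorem f2_gσ (a : ι) (x : M) (v : V1 ι) : f2 ℝ (V2 ι) (gσ F a x v) = hp F x v a := by
  simp [gσ, hp, p1_apply]

theorem s2_gσ (a : ι) (x : M) (v : V1 ι) :
    s2 ℝ (V2 ι) (gσ F a x v) = (√2)⁻¹ • wd2 ℝ (fun a b => F.P a b x) a v := by
  simp [gσ, dσ]

theorem P_gσ (a : ι) (x : M) : ∑ b, F.P a b x • gσ F b x = gσ F a x := by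
  ext1 v
  have e := (frPr F x).idem
  refine ext2 ?_ (fm_ext fun s => ?_)
  · simp only [_root_.sum_apply, smul_apply, map_sum, map_smul, f2_gσ, smul_eq_mul]
    exact (p1_apply (P := fun a b => F.P a b x) _ a).symm.trans
      (congrArg (fun u : V1 ι => u a) (prj_hp.idem x v))
  · simp only [_root_.sum_apply, smul_apply, map_sum, map_smul, s2_gσ, WithLp.ofLp_sum,
      Finset.sum_apply, PiLp.smul_apply, wd2_apply, smul_eq_mul]
    rw [← e s.1 a, ← e s.2 a, sum_mul, sum_mul, ← sum_sub_distrib, mul_sum]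
    exact sum_congr rfl fun k _ => by rw [F.P_symm a k]; ring

theorem ps_triv (x : M) (v : W2 ι) : ps (triv M ℝ) (triv M (V2 ι)) x v = v :=
  ext2 (by simp) (by simp)

theorem gop_alg : Alg F.P (gop F) :=
  Alg.cut _ prj_hp (Prj.ps ⟨fun _ _ => rfl, fun _ _ _ => rfl⟩ ⟨fun _ _ => rfl, fun _ _ _ => rfl⟩)
    P_gσ

theorem gop_cliff : (gop F).CliffL F := fun a b x v w => by
  have h2 : (√2)⁻¹ * (√2)⁻¹ = (2 : ℝ)⁻¹ := by
    rw [← mul_inv, Real.mul_self_sqrt zero_le_two]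
  have e : ∀ a b, ⟪(gop F).σ a x v, (gop F).σ b x w⟫_ℝ = hp F x v a * hp F x w b
      + F.P a b x * ⟪hp F x v, hp F x w⟫_ℝ - hp F x v b * hp F x w a := fun a b => by
    simp only [gop, cut, ContinuousLinearMap.comp_apply, ps_triv]
    rw [inner2, f2_gσ, f2_gσ, s2_gσ, s2_gσ, prj_hp.idem, prj_hp.idem, real_inner_smul_left,
      real_inner_smul_right, ← mul_assoc, h2,
      inner_wd (frPr F x) (prj_hp.idem x v) (prj_hp.idem x w)]
    simp only [RCLike.inner_apply, conj_trivial]; ring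
  rw [e, e, ← prj_hp.symm, prj_hp.idem, F.P_symm b a]
  simp only [gop, cut]; ring

theorem gop_good (hF : F.Tame C) : ∃ C', (gop F).Good F C' := by
  let K := cb (fun _ : Unit => F.toPre) Set.univ
  have hd : ∀ a, K.mem fun _ => F.dv a := fun a _ _ => ⟨C, hF.dv a⟩
  have h1 : ∀ a, K.mem fun _ => dσ F a := fun a _ _ => cb_dσ hF a
  have h2 : K.mem fun _ => dB F := fun _ _ => cb_dB hF
  have h3 : ∀ a, K.mem fun _ => gσ F a := fun a =>
    Cls.pr2 (Cls.sum fun b => Cls.smul (cbP hF a b) (K.const _)) (Cls.smul (K.const _) (h1 a))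
  have h4 : K.mem fun _ => gB F :=
    Cls.pr2 (Cls.sum fun a => Cls.smul (hd a) (K.const _)) (Cls.smul (K.const _) h2)
  have h5 : K.mem fun _ => hp F := fun _ _ => cb_hp hF
  have h := Cls.op.cut (K := K) h5
    (Cls.ps (p := fun _ => triv M ℝ) (q := fun _ => triv M (V2 ι)) (K.const _) (K.const _))
    (σ := fun _ => gσ F) h3 h4
  exact (good_of hF (h.p () trivial) (h.q () trivial) (fun a => h.σ a () trivial) (h.B () trivial)
    gop_alg).imp fun _ h => h.2

theorem gop_app (hF : F.Tame C) {u : M → V1 ι} (hu : Sm I u) (h : ∀ x, hp F x (u x) = u x)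
    (x : M) : f2 ℝ (V2 ι) ((gop F).app F u x) = Wz78.dvg I F.e F.dv (fun a y => u y a) x ∧
      s2 ℝ (V2 ι) ((gop F).app F u x) = (√2)⁻¹ • dd F u x := by
  have e : (gop F).app F u x = F.op (gσ F) (gB F) u x :=
    (op_cut F.toPre (cb_hp hF).choose_spec.1 hu h x).trans (ps_triv x _)
  rw [e]
  constructor
  · simp only [Pre.op, map_add, map_sum, f2_gσ, gB, f2_pr2, hp, p1_apply, Wz78.dvg,
      sum_add_distrib, _root_.sum_apply, _root_.smul_apply, pj_apply, smul_eq_mul, D_comp hu]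
    congr 1
    rw [sum_comm]
    refine sum_congr rfl fun b _ => ?_
    simp only [fun a => F.P_symm a b]
    exact P_D F (fun y => u y b) b x
  · simp only [Pre.op, map_add, map_sum, s2_gσ, gB, s2_pr2, dd, dσ, smul_add, smul_sum, smul_apply]

theorem rep_dH (hF : F.Tame C) (k : ℕ) : F.Rep (dH F k) (dd F) :=
  rep_opH (cb_dσ hF) (cb_dB hF) (fun _ _ _ => rfl) (Maps.triv _)

/-- integration by parts for the divergence -/
theorem ip_dvg {u : M → V1 ι} (hu : Sm I u) {φ : M → ℝ} (hφ : Sm I φ) (hc : HasCompactSupport φ) :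
    ∫ x, ⟪Wz78.dvg I F.e F.dv (fun a y => u y a) x, φ x⟫_ℝ ∂F.μ =
      -∫ x, ⟪c1 F (df I φ) x, u x⟫_ℝ ∂F.μ := by
  have h := Wz78.integral_dvg (F := F) (f := fun a y => u y a * φ y)
    (fun a => (sm_ap hu a).mul hφ) fun a => hc.mul_left
  have h1 : HasCompactSupport (c1 F (df I φ)) := hc.mono' fun x hx => by
    by_contra h
    exact hx (c1_of_zero (Dr59.df_eq_zero (notMem_tsupport_iff_eventuallyEq.1 h)))
  rw [eq_neg_iff_add_eq_zero, ← integral_add, ← h]
  · refine integral_congr_ae (.of_forall fun x => ?_)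
    simp only [Wz78.dvg, inner_fm, c1_df, RCLike.inner_apply, conj_trivial, mul_sum,
      ← sum_add_distrib]
    refine sum_congr rfl fun a _ => ?_
    rw [Wz78.dv_mul (sm_ap hu a x) (hφ x), Pre.D_def]
    ring
  · simp only [real_inner_comm (φ _)]
    exact F.integrable_inner hφ.continuous hc (Wz78.sm_dvg fun a => sm_ap hu a).continuous
  · exact F.integrable_inner (sm_c1 (fo_df hφ).sm).continuous h1 hu.continuous

variable [CompactSpace M]

/-- every one-form is closed up to a form that is controlled by its differential -/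
theorem prim_H (hF : F.Tame C) : ∃ c, 0 ≤ c ∧ ∀ x : F.H 1 (hp F), ∃ z, dH F 0 z = 0 ∧
    ‖x - z‖ ≤ c * ‖dH F 0 x‖ := by
  obtain ⟨_, hG⟩ := gr_good hF
  obtain ⟨_, hA⟩ := gop_good hF
  let A : F.H 1 (hp F) →L[ℝ] F.H 0 (ps (triv M ℝ) (triv M (V2 ι))) := (gop F).H F 0
  let G : ∀ k, F.H (k + 1) (triv M ℝ) →L[ℝ] F.H k (hp F) := (gr F).H F
  have rA : F.Rep A ((gop F).app F) := (rep_OpH hA 0).1
  have rG : ∀ k, F.Rep (G k) ((gr F).app F) := fun k => (rep_OpH hG k).1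
  have h1 : ∀ x, sH F.toPre 0 _ _ (A x) = (√2)⁻¹ • dH F 0 x := fun x =>
    DFunLike.congr_fun (RepT_eq (RepT_comp rep_sH rA) (RepT_smul _ (rep_dH hF 0))
      fun u => funext fun y => (gop_app hF u.2.1 u.2.2.2 y).2) x
  have h2 : ∀ y, dH F 0 (G 1 y) = 0 := fun y => H_eq (f := fun y => dH F 0 (G 1 y)) (by fun_prop)
    continuous_const (fun u => by
      rw [RepT_toH (rG 1), RepT_toH (rep_dH hF 0), ← map_zero (F.toH 0 _)]
      congr 1
      refine Subtype.ext ?_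
      change dd F ((gr F).app F u.1) = 0
      rw [gr_app, dd_c1 (fo_df u.2.1), d_df u.2.1, c2_zero]) y
  have h3 : ∀ (x : F.H 1 (hp F)) (φ : Sec I (triv M ℝ)), ⟪fH F.toPre 0 _ _ (A x), F.toH 0 _ φ⟫_ℝ =
      -⟪G 0 (F.toH 1 _ φ), F.incl 1 0 _ x⟫_ℝ := fun x φ =>
    H_eq (f := fun x => ⟪fH F.toPre 0 _ _ (A x), F.toH 0 _ φ⟫_ℝ)
      (g := fun x => -⟪G 0 (F.toH 1 _ φ), F.incl 1 0 _ x⟫_ℝ) (by fun_prop) (by fun_prop) (fun u => by
      rw [RepT_toH rA, RepT_toH rep_fH, RepT_toH (rG 0), incl_toH zero_le_one, Pre.inner_toH,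
        Pre.inner_toH]
      simp only [Pre.ip, (gop_app hF u.2.1 u.2.2.2 _).1, gr_app]
      exact ip_dvg u.2.1 φ.2.1 φ.2.2.1) x
  obtain ⟨K, hK⟩ := gard hF hA gop_cliff 0
  have := A.isClosed_ker.completeSpace_coe
  obtain ⟨c, hc, hb⟩ := Fred93.Est.bound_mod_ker (L := A) hK (Cht98.rellich zero_lt_one)
    A.ker.orthogonalProjection fun x => Submodule.orthogonalProjection_mem_subspace_eq_self x
  refine ⟨c, hc.le, fun x => ?_⟩
  obtain ⟨φ, hφ⟩ : ∃ φ : F.H (1 + 1) (triv M ℝ), Ell97.Hs F (gr F) 0 (x - G 1 φ) = 0 :=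
    hodge hF hG gr_cliff 0 x
  set x' := x - G 1 φ with hx'
  have h4 : fH F.toPre 0 _ _ (A x') = 0 := H_ext fun ψ => by
    rw [h3, inner_zero_left, neg_eq_zero]
    exact (adjH hF hG _ x').trans ((congrArg _ hφ).trans (inner_zero_right _))
  have h5 : A (A.ker.orthogonalProjection x') = 0 := (A.ker.orthogonalProjection x').2
  have h6 : dH F 0 (A.ker.orthogonalProjection x') = 0 := by
    have := h1 (A.ker.orthogonalProjection x')
    rw [h5, map_zero, eq_comm, smul_eq_zero] at this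
    exact this.resolve_left (by positivity)
  refine ⟨G 1 φ + A.ker.orthogonalProjection x', by rw [map_add, h2, h6, add_zero], ?_⟩
  rw [← sub_sub, ← hx']
  refine (hb _ (by rw [map_sub, Submodule.orthogonalProjection_mem_subspace_eq_self,
    sub_self])).trans (mul_le_mul_of_nonneg_left ?_ hc.le)
  rw [map_sub, h5, sub_zero, norm_eq_sqrt_real_inner, inner_zero_ps, h4, inner_zero_left, zero_add,
    ← norm_eq_sqrt_real_inner, h1, hx', map_sub, h2, sub_zero, norm_smul, Real.norm_eq_abs,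
    abs_of_nonneg (by positivity)]
  exact mul_le_of_le_one_left (norm_nonneg _) (inv_le_one_of_one_le₀ (by simp))

variable {o a b w : M → Ext E}

theorem integ_swap (ho : Ori I o) (ha : Fo I 1 a) (hb : Fo I 1 b) :
    integ I o (a * dM I b) = integ I o (b * dM I a) := by
  have h := stokes_closed ho (ha.mul hb).sm
  have c : ∀ {u : M → Ext E} {k : ℕ}, Fo I k u → IntOn I o u Set.univ := fun hu =>
    ho.intOn (fun x => (hu.sm x).of_le (by simp)) _
  rw [ha.d_mul hb, integ_add (c (ha.d.mul hb)) (c ((ha.mul hb.d).smul _)), integ_smul,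
    Fo.comm2 ha.d] at h
  linarith

variable (F o) in
/-- the wedge product of a one-form and a two-form in components -/
def wR (x : M) : V1 ι →L[ℝ] V2 ι := Map77.tp fun s => ∑ i,
  (1 / 2 * rat (volF o F.e) (th F i * (th F s.1 * th F s.2)) x) • pj ℝ i

theorem rat_wR {x : M} (ha : IsDeg 1 (a x)) (hw : IsDeg 2 (w x)) :
    rat (volF o F.e) (a * w) x = ⟪wR F o x (c1 F a x), c2 F w x⟫_ℝ := by
  rw [rat, Pi.mul_apply, inner_fm, Fintype.sum_prod_type]
  conv_lhs => rw [(cf F x).eq1 ha, (cf F x).eq2 hw]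
  simp only [sum_mul, mul_sum, smul_mul_assoc, mul_smul_comm, map_sum, map_smul, sum_div,
    smul_eq_mul, wR, Map77.tp_apply, _root_.sum_apply, smul_apply, pj_apply, rat, Pi.mul_apply,
    th, RCLike.inner_apply, conj_trivial, c1, c2, k1, k2]
  exact sum_congr rfl fun s _ => sum_congr rfl fun t _ => sum_congr rfl fun i _ => by ring

theorem cb_wR (ho : Ori I o) : F.Cb (wR F o) := by
  let K := cb (fun _ : Unit => F.toPre) Set.univ
  have h : ∀ i j k, K.mem fun _ => rat (volF o F.e) (th F i * (th F j * th F k)) :=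
    fun i j k _ _ => Cb_of_compact ((ho.vol F.toPre).contMDiff_rat fun x =>
      (smAt_th F i x).mul ((smAt_th F j x).mul (smAt_th F k x)))
  have h1 : ∀ s : ι × ι, K.mem fun _ x => ∑ i, (1 / 2 * rat (volF o F.e)
      (th F i * (th F s.1 * th F s.2)) x) • (pj ℝ i : V1 ι →L[ℝ] ℝ) :=
    fun s => Cls.sum fun i => Cls.smul (Cls.mul (K.const _) (h i s.1 s.2)) (K.const _)
  exact Cls.tp h1 () trivial

theorem integ_wR (hv : F.IsVol) (ho : Ori I o) (ha : Fo I 1 a) (hb : Fo I 1 b) :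
    integ I o (a * dM I b) = F.ip 0 (fun x => wR F o x (c1 F a x)) (dd F (c1 F b)) := by
  rw [ho.integ_vol hv, dd_c1 hb]
  exact integral_congr_ae (.of_forall fun x => rat_wR (ha.dg x) (hb.d.dg x))

/-- **PRIM.** -/
theorem prim (h4 : Module.finrank ℝ E ≤ 4) (hv : F.IsVol) (ho : Ori I o) : ∃ c, 0 ≤ c ∧
    ∀ a b, Fo I 1 a → Fo I 1 b →
      |integ I o (a * dM I b)| ≤ c * (F.nrm 0 (c2 F (dM I a)) * F.nrm 0 (c2 F (dM I b))) := by
  obtain ⟨C, hF⟩ := Cht98.exists_tame F h4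
  obtain ⟨c, hc, h⟩ := prim_H hF
  let R := (F.mulH 0 (hp F) (triv M (V2 ι)) (wR F o)).comp (F.incl 1 0 (hp F))
  have rR : F.Rep R fun u x => wR F o x (u x) :=
    RepT_comp (rep_mulH (cb_wR ho) (Maps.triv _)) (rep_incl zero_le_one)
  have e : ∀ u v : Sec I (hp F), ⟪R (F.toH 1 _ u), dH F 0 (F.toH 1 _ v)⟫_ℝ =
      integ I o (g1 F u.1 * dM I (g1 F v.1)) := fun u v => by
    have k : ∀ u : Sec I (hp F), c1 F (g1 F u.1) = u.1 := fun u =>
      funext fun x => (c1_g1 _ x).trans (u.2.2.2 x)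
    rw [RepT_toH rR, RepT_toH (rep_dH hF 0), Pre.inner_toH,
      integ_wR (F := F) hv ho (fo_g1 u.2.1) (fo_g1 v.2.1), k, k]
  have sy : ∀ x y, ⟪R x, dH F 0 y⟫_ℝ = ⟪R y, dH F 0 x⟫_ℝ := fun x y => by
    induction x, y using H_ind₂ with
    | hP => exact isClosed_eq (by fun_prop) (by fun_prop)
    | h u v => rw [e, e, integ_swap ho (fo_g1 u.2.1) (fo_g1 v.2.1)]
  refine ⟨‖R‖ * c, by positivity, fun a b ha hb => ?_⟩
  let s : ∀ {a : M → Ext E}, Fo I 1 a → Sec I (hp F) := fun {a} ha =>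
    ⟨c1 F a, sm_c1 ha.sm, HasCompactSupport.of_compactSpace _, hp_c1 a⟩
  have n : ∀ {a : M → Ext E} (ha : Fo I 1 a),
      ‖dH F 0 (F.toH 1 _ (s ha))‖ = F.nrm 0 (c2 F (dM I a)) := fun ha => by
    rw [RepT_toH (rep_dH hF 0), Pre.norm_toH, ← dd_c1 ha]
  obtain ⟨z, hz, hn⟩ := h (F.toH 1 _ (s ha))
  have e2 := e (s ha) (s hb)
  rw [g1_c1 ha.dg, g1_c1 hb.dg] at e2
  have e3 : ⟪R (F.toH 1 _ (s ha) - z), dH F 0 (F.toH 1 _ (s hb))⟫_ℝ = integ I o (a * dM I b) := by
    rw [map_sub, inner_sub_left, sy z, hz, inner_zero_right, sub_zero, e2]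
  rw [← e3, ← n ha, ← n hb, ← mul_assoc, mul_assoc _ c]
  refine (abs_real_inner_le_norm _ _).trans (mul_le_mul_of_nonneg_right ?_ (norm_nonneg _))
  exact (R.le_opNorm _).trans (mul_le_mul_of_nonneg_left hn (norm_nonneg _))

theorem nrm_sq {V : Type} [NormedAddCommGroup V] [InnerProductSpace ℝ V] (F : Pre I M ι)
    (u : M → V) : F.nrm 0 u * F.nrm 0 u = ∫ x, ‖u x‖ ^ 2 ∂F.μ := by
  rw [Pre.nrm, Real.mul_self_sqrt (F.ip_nonneg 0 u)]
  simp only [Pre.ip, real_inner_self_eq_norm_sq]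

/-- the Chern-Simons integral is controlled by the curvature -/
theorem cs_le (h4 : Module.finrank ℝ E ≤ 4) (hv : F.IsVol) (ho : Ori I o) : ∃ c, 0 ≤ c ∧
    ∀ a, Fo I 1 a → |integ I o (a * dM I a)| ≤ c * ∫ x, ‖c2 F (dM I a) x‖ ^ 2 ∂F.μ :=
  (prim h4 hv ho).imp fun _ h => ⟨h.1, fun a ha => by rw [← nrm_sq]; exact h.2 a a ha ha⟩

end Crest.Agent.X212.Qab60
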