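import Crest.Agent.X212.Qab60.Props
import Crest.Agent.X212.Dfl49.Pc

/-! X212 / QAB (helper60): the topological data of the piece inside an `S¹ × S²` wall. -/

set_option autoImplicit false
set_option linter.unusedSectionVars false
noncomputable section
open scoped Manifold ContDiff Topology InnerProductSpace Real
open MeasureTheory Set Function Filter
open Crest.Agent.R208.F (Ext)

namespace Crest.Agent.X212.Qab60
open An Nd18 Num57 Cyf70
open M G75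
open Dr59 (dM df Ex Cl Cs Dg)
open Int54 (integ Ori)
open Line51 (Ln ang)
open Rf65 (SC PR ar V3 QD)
open Dfl49 (Only)

/-- the classes on a piece -/
structure QT (E M ν : Type) [NormedAddCommGroup E] [NormedSpace ℝ E] where
  O : M → Ext E
  Ω : Set M
  V : Bool → Set M
  ε : ν → M → Ext E
  Z : Finset ν
  a : ν → ℤ
  η : Bool → M → Ext E
  γ : Bool → M → Ext E
  α : M → Ext E
  x : ℤ

section gen
variable {E : Type} [NormedAddCommGroup E] [NormedSpace ℝ E] [FiniteDimensional ℝ E]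
  [MeasurableSpace E] [BorelSpace E]
  {HM : Type} [TopologicalSpace HM] (I : ModelWithCorners ℝ E HM) [I.Boundaryless]
  {M : Type} [TopologicalSpace M] [ChartedSpace HM M] [IsManifold I ∞ M] [T2Space M]
  [MeasurableSpace M] [BorelSpace M] [SecondCountableTopology M]
  {ν : Type} [Fintype ν] [DecidableEq ν] {lam : Type} [Fintype lam]
  {Y : Mf 3} [CompactSpace Y.M]

/-- the piece with the end `ψ` and the line `p` -/
structure QT.OK (q : QT E M ν) (ψ : Y.M × ℝ → M) (θ : Y.M → Circle) (ϖ : Y.M → V3)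
    (p : M → Matrix lam lam ℂ) : Prop where
  ori : Ori I q.O
  cl : IsClopen q.Ω
  sc : SC q.Ω
  V : ∀ b, IsOpen (q.V b) ∧ q.V b ⊆ q.Ω ∧ SC (q.V b) ∧ ψ '' hZ Y 0 ⊆ q.V b ∧ ∀ z ∈ q.V b, q.γ b z = 0
  cε : ∀ k, Cs I 2 q.Ω (q.ε k)
  gram : ∀ k l, integ I q.O (q.ε k * q.ε l) = if k = l then -1 else 0
  a1 : ∀ k ∈ q.Z, |q.a k| = 1
  cη : ∀ b, Cz I q.Ω (q.η b)
  ηE : ∀ b, EqOn (Dr59.pm (IC Y.I) I ψ (q.η b)) (sZ ϖ) (hZ Y 0)
  span : ∀ w, Cz I q.Ω w → ∃ (c : ν → ℝ) (r : ℝ), Ex I q.Ω (w - ∑ k, c k • q.ε k - r • q.η false)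
  cγ : ∀ b, Cs I 2 q.Ω (q.γ b)
  γη : ∀ b, q.γ b * q.η b = 0
  exγ : Ex I q.Ω (q.γ false - ∑ k ∈ q.Z, (q.a k : ℝ) • q.ε k)
  fα : Fo I 1 q.α ∧ Off q.Ω q.α
  dα : dM I q.α = q.γ false - q.γ true
  αE : EqOn (Dr59.pm (IC Y.I) I ψ q.α) ((q.x / (2 * π) : ℝ) • aZ θ) (hZ Y 0)
  odd : Odd q.x
  ref : Rf65.Ref I p q.Ω (q.γ false)
  int : ∀ (n : Type) [Fintype n] [DecidableEq n] (L : Ln E M n), L.On I q.Ω → ∀ k, ∃ m : ℤ,
    integ I q.O (L.F I * q.ε k) = 2 * π * m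

end gen

variable {κ lam : Type} [Fintype κ] [Fintype lam] [DecidableEq lam] {Lm : LM κ lam}
  {S : Scene Lm} {i : S.L} {R : S.A} {e : Bool → S.A}

variable (i) in
/-- integrality inside the wall -/
def QInt (D : QD S R e) : Prop := ∀ (n : Type) [Fintype n] [DecidableEq n] (L : Ln S.X.E S.X.M n),
  L.On S.X.I ((S.M.sys.w R).sd false) → ∀ k, ∃ m : ℤ,
    Dr59.ip S.X.I S.M.o (L.F S.X.I) (D.ε k) = 2 * π * m

variable (W : World S.M) (c : S.M.Cl)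

variable (R) in
/-- the piece -/
abbrev om : Set (W.Z c).M := W.φ c '' (S.M.sys.w R).sd false

variable (R) in
/-- push forward to the piece -/
def push (w : S.X.M → Ext S.X.E) : (W.Z c).M → Ext (W.Z c).E :=
  (om R W c).indicator (Dr59.pm (W.Z c).I S.X.I (W.φ c).symm w)

/-- the data on `Z c` -/
def qt (D : QD S R e) : QT (W.Z c).E (W.Z c).M D.ι where
  O := W.o c
  Ω := om R W c
  V b := W.φ c '' ((S.M.sys.w R).sd false ∩ (S.M.sys.w (e b)).sd true)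
  ε k := push R W c (D.ε k)
  Z := D.Z
  a := D.a
  η b := push R W c (D.η b)
  γ b := push R W c (D.γ b)
  α := push R W c D.α
  x := D.x

variable (R) in
/-- the end -/
def nd {Y : Type} (g : Y → (S.M.bn R).Y.M) (q : Y × ℝ) : (W.Z c).M :=
  W.nj c R (g q.1, Cht98.li 1 false q.2)

variable (S) in
/-- LEAF TOP -/
def TopStmt : Prop := ∀ (i : S.L) (R : S.A) (e : Bool → S.A) (D : QD S R e), D.OK i → QInt D →
  ∀ (W : World S.M) (Λ : Lns W (S.N i)) (m c : S.M.Cl), R ∈ c.1 → Only S.M c.1 R false →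
  (S.M.Br c.1).Nonempty →
  ∀ (Wi : Type) (T : Xs Wi κ lam) (g : T.Y.M ≃ₘ^∞⟮T.Y.I, (S.M.bn R).Y.I⟯ (S.M.bn R).Y.M),
    Cy.Iso T.C ((S.N i).cy R) g →
    haveI := D.dι
    (qt W c D).OK (W.Z c).I (nd R W c g) (D.θ ∘ g) (D.ϖ ∘ g) (Λ.Λ m c).p ∧
      PR T.D.F (D.θ ∘ g) (D.ϖ ∘ g)

end Crest.Agent.X212.Qab60
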