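import Crest.Agent.X212.Qab60.Pin
import Crest.Agent.X212.Qab60.Fam
import Crest.Agent.X212.Fin37.Nk
import Crest.Agent.X212.Wrd81.Apx
import Crest.Agent.X212.Wrd81.Loc2
import Crest.Agent.X212.Num57.Pc

/-! X212 / QAB (helper60): the abelian problem of a job. -/

set_option autoImplicit false
set_option linter.unusedSectionVars false
noncomputable section
open scoped Manifold ContDiff Topology InnerProductSpace Real NNReal
open MeasureTheory Set Function Filter Module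
open Crest.Agent.R208.F (Ext)

namespace Crest.Agent.X212.Qab60
open An Sob92 Prm93 Num57 Int54 M Cht98 Nd18
open Wrd81 (TmIn)
open Fin37 (Pm tm TMSZ)
open Dfl49 (Only)

section gen
variable {E : Type} [NormedAddCommGroup E] [NormedSpace ℝ E] [FiniteDimensional ℝ E]
  [MeasurableSpace E] [BorelSpace E]
  {HM : Type} [TopologicalSpace HM] {I : ModelWithCorners ℝ E HM} [I.Boundaryless]
  {M : Type} [TopologicalSpace M] [ChartedSpace HM M] [IsManifold I ∞ M] [T2Space M]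
  [MeasurableSpace M] [BorelSpace M] [SecondCountableTopology M] {ι : Type} [Fintype ι]
  {lam : Type} [Fintype lam] {r m : ℕ}

theorem dom_fam {T : Type} [NormedAddCommGroup T] [NormedSpace ℝ T] {𝔉 : Mod61.Fam I M ι lam T}
    (h : 𝔉.OK) {t : T} (ht : t ∈ 𝔉.Q) : Dom 𝔉.F0.toPre (𝔉.G t).F.toPre := by
  obtain ⟨ρ, h1, h2⟩ := h.dens
  obtain ⟨C, -, hC⟩ := h1.cb t ht
  refine ⟨⟨_, h.mix t ht, fun a b => (h.sS a b).cb t ht⟩, Real.toNNReal (C 0), ?_⟩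
  rw [(h2 t ht).2, ENNReal.smul_def, ← withDensity_const]
  exact withDensity_mono (.of_forall fun x =>
    ENNReal.ofReal_le_ofReal ((le_abs_self _).trans (hC 0 [] le_rfl x)))

theorem Op.mono {F : Fr I M ι} {o : ι → ι → ι → ι → M → ℝ} {T : HK F 0 →L[ℝ] HK F 0}
    {Tf : (M → V2 ι) → M → V2 ι} {N N' : ℝ} {n : ℕ} (h : Op F o T Tf N n) (k : N ≤ N') :
    Op F o T Tf N' n := ⟨h.wo.mono k le_rfl le_rfl, h.ph, h.rp⟩

theorem tmF_supp {T : Tm M lam r m} (h : TmIn I univ T) : ∃ K, IsCompact K ∧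
    ∀ (F : Fr I M ι) o u, ∀ x ∉ K, tmF F o T u x = 0 := by
  rcases T with _ | _ | ⟨g, g2, ⟨_ | ⟨f, g', h'⟩, l⟩⟩ | _ | _ | _ | _ <;>
    try exact ⟨∅, isCompact_empty, fun _ _ _ _ _ => rfl⟩
  refine ⟨_, h.1.hcs, fun F o u x hx => ?_⟩
  have : dd2 F g g2 x = 0 := Map77.fm_ext fun s => mul_eq_zero_of_left
    (image_eq_zero_of_notMem_tsupport fun k => hx (F.tsupport_D g _ k)) _
  simp only [tmF, this, map_zero, smul_zero]

theorem smF_supp {κ : Type} (s : Finset κ) {T : κ → Tm M lam r m} (h : ∀ i ∈ s, TmIn I univ (T i)) :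
    ∃ K, IsCompact K ∧ ∀ (F : Fr I M ι) o a u, ∀ x ∉ K, smF F o s a T u x = 0 := by
  choose! K h1 h2 using fun i hi => tmF_supp (ι := ι) (h i hi)
  exact ⟨_, s.isCompact_biUnion h1, fun F o a u x hx => (Finset.sum_apply _ _ _).trans
    (Finset.sum_eq_zero fun i hi => by
      rw [Pi.smul_apply, h2 i hi F o u x fun k => hx (mem_biUnion hi k), smul_zero])⟩

end gen

variable {Wi : Type} {X : Mf 4} {A κ lam : Type} [Fintype A] [Fintype κ] [Fintype lam]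
  [DecidableEq lam] {M : Mark X A κ} {W : World M} {N : ML M lam} (Λ : Lns W N) {m c : M.Cl}
  {p p' : Prm A} {T : Type} [NormedAddCommGroup T] [NormedSpace ℝ T]

theorem tam_W (h : p ∈ M.O c.1) : Tam (Λ.G m c p).F (Λ.B m c).o :=
  let ⟨C, hC⟩ := bd_W Λ m h
  ⟨(ok_W Λ m h).1, ⟨C, hC.tame⟩, fun i k l n => ⟨C, hC.o i k l n⟩⟩

theorem dom_W (h : p ∈ M.O c.1) (h' : p' ∈ M.O c.1) :
    Dom (Λ.G m c p).F.toPre (Λ.G m c p').F.toPre :=
  dom_fam (wFam_ok Λ (Θ := id) h (Mark.isOpen_O _) contDiffOn_id (mapsTo_id _) isClopen_univ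
    isClopen_univ Subset.rfl) h'

theorem so_W (h : p ∈ M.O c.1) (h' : p' ∈ M.O c.1) :
    SameOn (vol (Λ.G m c p).F (Λ.B m c).o) (vol (Λ.G m c p').F (Λ.B m c).o) univ :=
  (ok_W Λ m h).2.symm.trans (ok_W Λ m h').2

theorem fc_W {Θ : T → Prm A} {Q : Set T} (h0 : p ∈ M.O c.1) (hQ : IsOpen Q)
    (hΘ : ContDiffOn ℝ ∞ Θ Q) (hm : MapsTo Θ Q (M.O c.1)) : FC (wFam Λ m c p Θ Q univ univ) :=
  ⟨wFam_ok Λ h0 hQ hΘ hm isClopen_univ isClopen_univ Subset.rfl,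
    fun _ ht => ⟨dom_W Λ h0 (hm ht), dom_W Λ (hm ht) h0⟩, tam_W Λ h0⟩

theorem sq_W (h : p ∈ M.O c.1) (h' : p' ∈ M.O c.1) {w : (W.Z c).M → Ext (W.Z c).E}
    (hw : Sq (Λ.G m c p).F w) : Sq (Λ.G m c p').F w :=
  ((fc_W Λ (Θ := id) h (Mark.isOpen_O _) contDiffOn_id (mapsTo_id _)).cp h').sq hw

variable {Λ} {R : A}

theorem en_W {S : Xs Wi κ lam} {g : S.Y.M ≃ₘ^∞⟮S.Y.I, (M.bn R).Y.I⟯ (M.bn R).Y.M}
    {K : Nk S.D (Λ.B m c) (Λ.G m c p)} (h : Act m c R (some false) p)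
    (hK : IsNk R (some false) g K) (hS : S.C.OK) (o : Only M c.1 R false) :
    En K (W.φ c '' (M.sys.w R).sd false) :=
  ⟨hS.yd, hS.vol, tam_W Λ h.2.2.1, Λ.G_ok m h.2.2.1, by
    simpa [pm] using Dfl49.one_W h hK o le_rfl⟩

variable {A' h : Type} [Fintype A'] [DecidableEq A'] [Fintype h] {r n : ℕ}
  (J : Job Wi Λ A' h r n) (c) (S : Finset Wi) (q : Wi → ℝ) (s : A' → ℝ)

open Classical in
/-- the words that live on `Z c` -/
def wS : Finset Wi := {w ∈ S | TmIn (W.Z c).I univ (tm J c w)}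

/-- the abelian perturbation -/
abbrev aH : HK (J.G c s).F 0 →L[ℝ] HK (J.G c s).F 0 :=
  smH (J.G c s).F (J.B c).o (wS c J S) (fun w => q w * J.co w s) (tm J c)

/-- the same on functions -/
abbrev aF : ((W.Z c).M → V2 (Option κ)) → (W.Z c).M → V2 (Option κ) :=
  smF (J.G c s).F (J.B c).o (wS c J S) (fun w => q w * J.co w s) (tm J c)

variable {J c S q s}

theorem wS_in {w : Wi} (hw : w ∈ wS c J S) : TmIn (W.Z c).I univ (tm J c w) := by
  classical exact (Finset.mem_filter.1 hw).2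

theorem aF_eq {S' : Finset Wi} (h1 : S ⊆ S') (h2 : ∀ w ∉ S, q w = 0) :
    aF c J S' q s = aF c J S q s := funext fun u => by
  classical
  refine (Finset.sum_subset (Finset.filter_subset_filter _ h1) fun w k1 k2 => ?_).symm
  beta_reduce
  rw [h2 w fun k => k2 (Finset.mem_filter.2 ⟨k, wS_in k1⟩), zero_mul, zero_smul]

theorem Pm.memO (hJ : J.OK) (hs : Pm J c s) : J.Θ s ∈ M.O c.1 :=
  let ⟨_, h1, h2, h3⟩ := hs; hJ.memO h1 ⟨J.cl_dom h2, h3⟩

/-- small coefficients -/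
theorem op_J (hJ : J.OK) (tz : TMSZ J) : ∃ b : Wi → ℝ, (∀ w, 0 ≤ b w) ∧ ∀ S : Finset Wi, ∃ k,
    ∀ q : Wi → ℝ, ∑ w ∈ S, |q w| * b w ≤ 1 → ∀ c s, Pm J c s →
      Op (J.G c s).F (J.B c).o (aH c J S q s) (aF c J S q s) (1 / 4) k := by
  classical
  choose k k1 hk using tz
  choose ρ hρ using fun w => Fin37.bd_cell J (hJ.co w).continuous
  refine ⟨fun w => 4 * (|ρ w| * k w ^ (k w + 3)), fun w => by positivity,
    fun S => ⟨S.sup k + 2, fun q hq c s hs => ((tam_W Λ (Pm.memO hJ hs)).op_sm _ _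
      (fun w hw => ⟨k1 w, by gcongr; exact Finset.le_sup (Finset.mem_of_mem_filter w hw)⟩)
      (fun w hw => wS_in hw) fun w _ hw => (hk w c s hs (right_ne_zero_of_mul hw)).1).mono ?_⟩⟩
  refine (Finset.sum_le_sum_of_subset_of_nonneg (Finset.filter_subset _ _)
    fun _ _ _ => by positivity).trans ?_
  rw [le_div_iff₀ four_pos, Finset.sum_mul]
  refine (Finset.sum_le_sum fun w _ => ?_).trans hq
  have := (hρ w c s hs).trans (le_abs_self _)
  beta_reduce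
  rw [abs_mul, mul_assoc, mul_assoc, mul_comm 4, mul_assoc]
  gcongr

/-- the family of the abelian problems -/
theorem fa_J (hJ : J.OK) {s₀ : A' → ℝ} (h0 : J.Θ s₀ ∈ M.O c.1) {θ : T → A' → ℝ} {a : T → Wi → ℝ}
    {Q : Set T} (hQ : IsOpen Q) (hθ : ContDiffOn ℝ ∞ θ Q) (ha : ∀ w, ContDiffOn ℝ ∞ (a · w) Q)
    (hm : ∀ t ∈ Q, J.Θ (θ t) ∈ M.O c.1) {Ω : Set (W.Z c).M} (pc : Pc (J.G c s₀).F (J.B c).o Ω)
    {k : ℕ} (op : ∀ t ∈ Q, Op (J.G c (θ t)).F (J.B c).o (aH c J S (a t) (θ t))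
      (aF c J S (a t) (θ t)) (1 / 4) k) :
    FA (wFam Λ J.m c (J.Θ s₀) (fun t => J.Θ (θ t)) Q univ univ) Ω (fun t => aH c J S (a t) (θ t))
      fun t => aF c J S (a t) (θ t) :=
  have f := fc_W Λ (m := J.m) h0 hQ (hJ.sm.comp_contDiffOn hθ) hm
  ⟨f, pc, fun t ht => so_W Λ h0 (hm t ht), f.sm _ (fun w _ => (ha w).mul
    ((hJ.co w).comp_contDiffOn hθ)) fun _ => wS_in, fun t ht => ⟨_, _, op t ht, by
      nlinarith [Real.sq_sqrt zero_le_two, Real.sqrt_nonneg 2]⟩⟩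

end Crest.Agent.X212.Qab60
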